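import Mathlib

/-!
P226: the standard Gaussian measure and Lebesgue measure are equivalent.
-/

open MeasureTheory ProbabilityTheory Filter
open scoped RealInnerProductSpace Topology NNReal

namespace Vale.Agent.P226

lemma pi_ac (μ ν : Measure ℝ) [SigmaFinite μ] [SigmaFinite ν] (h : μ ≪ ν) (k : ℕ) :
    Measure.pi (fun _ : Fin k => μ) ≪ Measure.pi (fun _ : Fin k => ν) := by
  induction k with
  | zero =>
    intro s hs
    have h1 : Measure.pi (fun _ : Fin 0 => μ) = Measure.dirac 0 := by
      rw [Measure.pi_of_empty]; congr 1; exact Subsingleton.elim _ _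
    have h2 : Measure.pi (fun _ : Fin 0 => ν) = Measure.dirac 0 := by
      rw [Measure.pi_of_empty]; congr 1; exact Subsingleton.elim _ _
    rw [h1]; rw [h2] at hs; exact hs
  | succ k ih =>
    have e1 := (measurePreserving_piFinSuccAbove (fun _ : Fin (k + 1) => μ) 0).symm.map_eq
    have e2 := (measurePreserving_piFinSuccAbove (fun _ : Fin (k + 1) => ν) 0).symm.map_eq
    rw [← e1, ← e2]
    exact (h.prod ih).map (MeasurableEquiv.measurable _)

variable {E : Type*} [NormedAddCommGroup E] [InnerProductSpace ℝ E]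
  [FiniteDimensional ℝ E] [MeasurableSpace E] [BorelSpace E]

lemma volume_eq_map (E : Type*) [NormedAddCommGroup E] [InnerProductSpace ℝ E]
    [FiniteDimensional ℝ E] [MeasurableSpace E] [BorelSpace E] :
    (volume : Measure E) = (Measure.pi (fun _ : Fin (Module.finrank ℝ E) => (volume : Measure ℝ))).map
      (fun x => ∑ i, x i • stdOrthonormalBasis ℝ E i) := by
  set b := stdOrthonormalBasis ℝ E with hb
  have h1 := (PiLp.volume_preserving_toLp (Fin (Module.finrank ℝ E))).map_eq
  have h2 := b.measurePreserving_repr_symm.map_eq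
  have h3 : (fun x : Fin (Module.finrank ℝ E) → ℝ => ∑ i, x i • b i)
      = ⇑b.repr.symm ∘ (WithLp.toLp 2) := by
    funext x
    simp [b.sum_repr_symm]
  rw [h3, ← Measure.map_map (by fun_prop) (by fun_prop)]
  rw [← h2, ← h1]
  rfl

theorem stdGaussian_ac (E : Type*) [NormedAddCommGroup E] [InnerProductSpace ℝ E]
    [FiniteDimensional ℝ E] [MeasurableSpace E] [BorelSpace E] :
    stdGaussian E ≪ (volume : Measure E) := by
  rw [volume_eq_map E]
  exact (pi_ac _ _ (gaussianReal_absolutelyContinuous 0 one_ne_zero) _).map (by fun_prop)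

theorem ac_stdGaussian (E : Type*) [NormedAddCommGroup E] [InnerProductSpace ℝ E]
    [FiniteDimensional ℝ E] [MeasurableSpace E] [BorelSpace E] :
    (volume : Measure E) ≪ stdGaussian E := by
  rw [volume_eq_map E]
  exact (pi_ac _ _ (gaussianReal_absolutelyContinuous' 0 one_ne_zero) _).map (by fun_prop)

end Vale.Agent.P226
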