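import Vale.Agent.Lib.P226.Moment

/-!
P226, job J6 (Base.lean).  At most three linear forms.

Sketch.  `E |⟪u,x⟫| = √(2/π) ‖u‖`.  By the symmetry `x ↦ -x`,
`hval v = E max = - E min`, so `hval v = ½ E (max - min)`.  For three numbers
`max - min = ½ (|a-b| + |b-c| + |a-c|)`, so `hval v = (ℓ₁₂+ℓ₁₃+ℓ₂₃)/(2√(2π))` with
`ℓ_ij = ‖v i - v j‖`, and `(∑ ℓ)² ≤ 3 ∑ ℓ² ≤ 9 ∑ ‖v i‖²`.
Fewer than three forms: add zero forms.
-/

open MeasureTheory ProbabilityTheory Filter
open scoped RealInnerProductSpace Topology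

namespace Vale.Agent.P226

variable {E : Type*} [NormedAddCommGroup E] [InnerProductSpace ℝ E]
  [FiniteDimensional ℝ E] [MeasurableSpace E] [BorelSpace E]

theorem integral_abs_gaussian : ∫ x, |x| ∂(gaussianReal 0 1) = 2 / Real.sqrt (2 * Real.pi) := by
  have h1 : ∫ x, max (x - 0) 0 ∂(gaussianReal 0 1) = phi 0 - 0 * Q 0 := integral_pos_part 0
  have hi : Integrable (fun x : ℝ => x) (gaussianReal 0 1) := IsGaussian.integrable_id
  have hp : Integrable (fun x : ℝ => max (x - 0) 0) (gaussianReal 0 1) := by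
    simpa using hi.pos_part
  have h2 : ∀ x : ℝ, |x| = 2 * max (x - 0) 0 - x := by
    intro x
    rcases le_total 0 x with h | h
    · rw [abs_of_nonneg h, sub_zero, max_eq_left h]; ring
    · rw [abs_of_nonpos h, sub_zero, max_eq_right h]; ring
  simp_rw [h2]
  rw [integral_sub (hp.const_mul 2) hi, integral_const_mul, h1, integral_id_gaussianReal]
  simp [phi]
  ring

theorem integral_abs_inner (u : E) :
    ∫ x, |⟪u, x⟫| ∂(stdGaussian E) = 2 / Real.sqrt (2 * Real.pi) * ‖u‖ := by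
  by_cases hu : u = 0
  · subst hu; simp
  have hn : ‖u‖ ≠ 0 := norm_ne_zero_iff.2 hu
  have h1 : ∀ x : E, |⟪u, x⟫| = ‖u‖ * |⟪(‖u‖⁻¹ • u), x⟫| := by
    intro x
    rw [real_inner_smul_left, abs_mul, abs_of_nonneg (inv_nonneg.2 (norm_nonneg u)),
      ← mul_assoc, mul_inv_cancel₀ hn, one_mul]
  simp_rw [h1]
  rw [integral_const_mul]
  have hw : ‖(‖u‖⁻¹ • u)‖ = 1 := by
    rw [norm_smul, norm_inv, norm_norm, inv_mul_cancel₀ hn]
  have h2 := map_inner_stdGaussian (‖u‖⁻¹ • u) hw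
  have h3 : ∫ x, |⟪(‖u‖⁻¹ • u), x⟫| ∂(stdGaussian E) =
      ∫ t, |t| ∂((stdGaussian E).map (fun x => ⟪(‖u‖⁻¹ • u), x⟫)) := by
    rw [integral_map]
    · exact (by fun_prop : Continuous fun x : E => ⟪(‖u‖⁻¹ • u), x⟫).aemeasurable
    · exact continuous_abs.aestronglyMeasurable
  rw [h3, h2, integral_abs_gaussian]
  ring

theorem integrable_inner (u : E) : Integrable (fun x : E => ⟪u, x⟫) (stdGaussian E) :=
  integrable_id_stdGaussian.const_inner u

theorem integral_comp_neg_stdGaussian (f : E → ℝ) :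
    ∫ x, f (-x) ∂(stdGaussian E) = ∫ x, f x ∂(stdGaussian E) := by
  have h : (stdGaussian E).map (LinearIsometryEquiv.neg ℝ (E := E)) = stdGaussian E :=
    stdGaussian_map (LinearIsometryEquiv.neg ℝ (E := E))
  have h2 : MeasurableEmbedding (LinearIsometryEquiv.neg ℝ (E := E)) :=
    (LinearIsometryEquiv.neg ℝ (E := E)).toHomeomorph.measurableEmbedding
  conv_rhs => rw [← h]
  rw [h2.integral_map]
  rfl

theorem iSup_fin3 (f : Fin 3 → ℝ) : (⨆ i, f i) = max (f 0) (max (f 1) (f 2)) := by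
  apply le_antisymm
  · apply ciSup_le
    intro i
    fin_cases i
    · exact le_max_left _ _
    · exact (le_max_left _ _).trans (le_max_right _ _)
    · exact (le_max_right _ _).trans (le_max_right _ _)
  · have hb : BddAbove (Set.range f) := (Set.finite_range f).bddAbove
    exact max_le (le_ciSup hb 0) (max_le (le_ciSup hb 1) (le_ciSup hb 2))

theorem integrable_iSup {ι : Type} [Fintype ι] [Nonempty ι] (v : ι → E) :
    Integrable (fun x : E => ⨆ i, ⟪v i, x⟫) (stdGaussian E) := by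
  have hm : Continuous fun x : E => ⨆ i, ⟪v i, x⟫ := by
    have : (fun x : E => ⨆ i, ⟪v i, x⟫) =
        fun x : E => Finset.univ.sup' Finset.univ_nonempty (fun i => ⟪v i, x⟫) := by
      funext x
      rw [Finset.sup'_univ_eq_ciSup]
    rw [this]
    exact Continuous.finset_sup'_apply _ (fun i _ => by fun_prop)
  have hb : Integrable (fun x : E => ∑ i, ‖v i‖ * ‖x‖) (stdGaussian E) :=
    integrable_finsetSum _ fun i _ => (integrable_id_stdGaussian.norm.const_mul _)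
  refine hb.mono hm.aestronglyMeasurable (ae_of_all _ fun x => ?_)
  have h0 : 0 ≤ ∑ i, ‖v i‖ * ‖x‖ := Finset.sum_nonneg fun i _ => by positivity
  rw [Real.norm_eq_abs, Real.norm_eq_abs, abs_of_nonneg h0]
  have h1 : ∀ i, |⟪v i, x⟫| ≤ ∑ i, ‖v i‖ * ‖x‖ := fun i =>
    (abs_real_inner_le_norm _ _).trans
      (Finset.single_le_sum (f := fun i => ‖v i‖ * ‖x‖) (fun i _ => by positivity)
        (Finset.mem_univ i))
  rw [abs_le]
  constructor
  · obtain ⟨i⟩ := ‹Nonempty ι›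
    exact (neg_le_of_abs_le (h1 i)).trans
      (le_ciSup (f := fun i => ⟪v i, x⟫) (Set.finite_range _).bddAbove i)
  · exact ciSup_le fun i => le_of_abs_le (h1 i)

theorem max_add_max_neg (a b c : ℝ) :
    max a (max b c) + max (-a) (max (-b) (-c)) = (|a - b| + |b - c| + |a - c|) / 2 := by
  rcases le_total a b with h1 | h1 <;> rcases le_total b c with h2 | h2 <;>
    rcases le_total a c with h3 | h3 <;>
    simp only [max_def, abs_of_nonneg, abs_of_nonpos, sub_nonneg, sub_nonpos, h1, h2, h3] <;>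
    split_ifs <;> linarith

theorem base3 (v : Fin 3 → E) :
    hval v ≤ c0 * Real.sqrt (∑ i, ‖v i‖ ^ 2) := by
  have hI := integrable_iSup v
  have hI' : Integrable (fun x : E => ⨆ i, ⟪v i, -x⟫) (stdGaussian E) := by
    have := integrable_iSup (fun i => - v i)
    refine this.congr (ae_of_all _ fun x => ?_)
    simp [inner_neg_left, inner_neg_right]
  have h2 : 2 * hval v = ∫ x, ((⨆ i, ⟪v i, x⟫) + (⨆ i, ⟪v i, -x⟫)) ∂(stdGaussian E) := by
    rw [integral_add hI hI', integral_comp_neg_stdGaussian (fun x => ⨆ i, ⟪v i, x⟫), hval]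
    ring
  have hA : ∀ u : E, Integrable (fun x : E => |⟪u, x⟫|) (stdGaussian E) := fun u =>
    (integrable_inner u).abs
  have h3 : ∀ x : E, (⨆ i, ⟪v i, x⟫) + (⨆ i, ⟪v i, -x⟫) =
      (|⟪v 0 - v 1, x⟫| + |⟪v 1 - v 2, x⟫| + |⟪v 0 - v 2, x⟫|) * (1 / 2) := by
    intro x
    rw [iSup_fin3, iSup_fin3]
    simp only [inner_neg_right, inner_sub_left]
    rw [max_add_max_neg]
    ring
  simp_rw [h3] at h2
  have h12 : Integrable (fun x : E => |⟪v 0 - v 1, x⟫| + |⟪v 1 - v 2, x⟫|) (stdGaussian E) :=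
    (hA _).add (hA _)
  rw [integral_mul_const, integral_add h12 (hA _), integral_add (hA _) (hA _),
    integral_abs_inner, integral_abs_inner, integral_abs_inner] at h2
  set l1 := ‖v 0 - v 1‖ with hl1
  set l2 := ‖v 1 - v 2‖ with hl2
  set l3 := ‖v 0 - v 2‖ with hl3
  have hs : l1 ^ 2 + l2 ^ 2 + l3 ^ 2 ≤ 3 * ∑ i, ‖v i‖ ^ 2 := by
    have e1 : l1 ^ 2 = ‖v 0‖ ^ 2 - 2 * ⟪v 0, v 1⟫ + ‖v 1‖ ^ 2 := by
      rw [hl1, norm_sub_sq_real]
    have e2 : l2 ^ 2 = ‖v 1‖ ^ 2 - 2 * ⟪v 1, v 2⟫ + ‖v 2‖ ^ 2 := by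
      rw [hl2, norm_sub_sq_real]
    have e3 : l3 ^ 2 = ‖v 0‖ ^ 2 - 2 * ⟪v 0, v 2⟫ + ‖v 2‖ ^ 2 := by
      rw [hl3, norm_sub_sq_real]
    have e4 : 0 ≤ ‖v 0 + v 1 + v 2‖ ^ 2 := by positivity
    have e5 : ‖v 0 + v 1 + v 2‖ ^ 2 = ‖v 0‖ ^ 2 + ‖v 1‖ ^ 2 + ‖v 2‖ ^ 2 + 2 * ⟪v 0, v 1⟫ +
        2 * ⟪v 1, v 2⟫ + 2 * ⟪v 0, v 2⟫ := by
      rw [norm_add_sq_real, norm_add_sq_real, inner_add_left]
      ring
    rw [Fin.sum_univ_three]
    linarith
  have hl : l1 + l2 + l3 ≤ 3 * Real.sqrt (∑ i, ‖v i‖ ^ 2) := by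
    have h9 : (l1 + l2 + l3) ^ 2 ≤ 9 * ∑ i, ‖v i‖ ^ 2 := by
      nlinarith [sq_nonneg (l1 - l2), sq_nonneg (l2 - l3), sq_nonneg (l1 - l3)]
    have hp : 0 ≤ ∑ i, ‖v i‖ ^ 2 := Finset.sum_nonneg fun i _ => by positivity
    have : l1 + l2 + l3 ≤ Real.sqrt (9 * ∑ i, ‖v i‖ ^ 2) := Real.le_sqrt_of_sq_le h9
    rwa [Real.sqrt_mul (by norm_num), show Real.sqrt 9 = 3 by
      rw [show (9:ℝ) = 3 ^ 2 by norm_num]; exact Real.sqrt_sq (by norm_num)] at this
  have hpi : 0 < Real.sqrt (2 * Real.pi) := Real.sqrt_pos.2 (by positivity)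
  have h4 : hval v = (l1 + l2 + l3) / (2 * Real.sqrt (2 * Real.pi)) := by
    field_simp
    field_simp at h2
    linarith
  rw [h4, c0, div_mul_eq_mul_div]
  exact div_le_div_of_nonneg_right hl (by positivity)

theorem base {ι : Type} [Fintype ι] [Nonempty ι] (hc : Fintype.card ι ≤ 3) (v : ι → E) :
    hval v ≤ c0 * Real.sqrt (∑ i, ‖v i‖ ^ 2) := by
  classical
  obtain ⟨e⟩ : Nonempty (ι ↪ Fin 3) :=
    Function.Embedding.nonempty_of_card_le (by simpa using hc)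
  set w : Fin 3 → E := fun j => if h : ∃ i, e i = j then v h.choose else 0 with hw
  have hwe : ∀ i, w (e i) = v i := by
    intro i
    have h : ∃ i', e i' = e i := ⟨i, rfl⟩
    simp only [hw, dif_pos h]
    rw [e.injective h.choose_spec]
  have hw0 : ∀ j, (¬ ∃ i, e i = j) → w j = 0 := fun j h => by simp only [hw, dif_neg h]
  have h1 : hval v ≤ hval w := by
    refine integral_mono (integrable_iSup v) (integrable_iSup w) fun x => ?_
    refine ciSup_le fun i => ?_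
    have := le_ciSup (f := fun j => ⟪w j, x⟫) (Set.finite_range _).bddAbove (e i)
    simpa only [hwe] using this
  have h2 : ∑ j, ‖w j‖ ^ 2 = ∑ i, ‖v i‖ ^ 2 := by
    rw [← Finset.sum_subset (Finset.subset_univ (Finset.univ.map e))]
    · rw [Finset.sum_map]
      simp only [hwe]
    · intro j _ hj
      rw [hw0 j (by simpa using hj)]
      simp
  calc hval v ≤ hval w := h1
    _ ≤ c0 * Real.sqrt (∑ j, ‖w j‖ ^ 2) := base3 w
    _ = _ := by rw [h2]

end Vale.Agent.P226
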