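import Vale.Agent.Lib.P226.Defs

/-!
P226, job J3a (Basics.lean).  Elementary facts on `phi`, `Phi`, `Q` (all for
`gaussianReal 0 1`, which has density `gaussianPDFReal 0 1 = phi`).
-/

open MeasureTheory ProbabilityTheory Filter
open scoped RealInnerProductSpace Topology

namespace Vale.Agent.P226

theorem phi_pos (x : ℝ) : 0 < phi x := by unfold phi; positivity

theorem phi_neg (x : ℝ) : phi (-x) = phi x := by unfold phi; simp

theorem phi_continuous : Continuous phi := by unfold phi; fun_prop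

theorem hasDerivAt_phi (x : ℝ) : HasDerivAt phi (-x * phi x) x := by
  unfold phi
  have h1 : HasDerivAt (fun x : ℝ => -x ^ 2 / 2) (-x) x := by
    have := ((hasDerivAt_id x).pow 2).neg.div_const 2
    refine this.congr_deriv ?_
    simp
    ring
  have h2 := (h1.exp).div_const (Real.sqrt (2 * Real.pi))
  refine h2.congr_deriv ?_
  ring

theorem gaussianPDFReal_eq_phi : gaussianPDFReal 0 1 = phi := by
  ext x
  unfold phi gaussianPDFReal
  simp
  ring

theorem basics_integrable_phi : Integrable phi := by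
  rw [← gaussianPDFReal_eq_phi]
  exact integrable_gaussianPDFReal 0 1

theorem basics_integral_phi : ∫ x, phi x = 1 := by
  rw [← gaussianPDFReal_eq_phi]
  exact integral_gaussianPDFReal_eq_one 0 (v := 1) one_ne_zero

theorem basics_real_eq (s : Set ℝ) : (gaussianReal 0 1).real s = ∫ x in s, phi x := by
  rw [measureReal_def, gaussianReal_apply_eq_integral _ one_ne_zero,
    ENNReal.toReal_ofReal (integral_nonneg fun _ => gaussianPDFReal_nonneg _ _ _),
    gaussianPDFReal_eq_phi]

theorem basics_Phi_eq (x : ℝ) : Phi x = ∫ t in Set.Iic x, phi t := basics_real_eq _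

theorem basics_Q_eq (x : ℝ) : Q x = ∫ t in Set.Ioi x, phi t := basics_real_eq _

theorem Phi_add_Q (x : ℝ) : Phi x + Q x = 1 := by
  unfold Phi Q
  rw [← Set.compl_Iic]
  exact probReal_add_probReal_compl measurableSet_Iic

theorem Phi_neg (x : ℝ) : Phi (-x) = Q x := by
  rw [basics_Phi_eq, basics_Q_eq]
  have := integral_comp_neg_Iic (-x) phi
  rw [neg_neg] at this
  rw [← this]
  congr 1
  ext t
  exact (phi_neg t).symm

theorem Q_zero : Q 0 = 1 / 2 := by
  have h1 := Phi_add_Q 0
  have h2 := Phi_neg 0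
  rw [neg_zero] at h2
  linarith

theorem basics_Phi_sub (a b : ℝ) : Phi b - Phi a = ∫ x in a..b, phi x := by
  rw [basics_Phi_eq, basics_Phi_eq]
  exact intervalIntegral.integral_Iic_sub_Iic basics_integrable_phi.integrableOn
    basics_integrable_phi.integrableOn

theorem hasDerivAt_Phi (x : ℝ) : HasDerivAt Phi (phi x) x := by
  have h1 : HasDerivAt (fun b => Phi 0 + ∫ t in (0 : ℝ)..b, phi t) (phi x) x :=
    (intervalIntegral.integral_hasDerivAt_right (phi_continuous.intervalIntegrable 0 x)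
      (phi_continuous.stronglyMeasurableAtFilter _ _) phi_continuous.continuousAt).const_add _
  refine h1.congr_of_eventuallyEq (Eventually.of_forall fun b => ?_)
  have := basics_Phi_sub 0 b
  simp only
  linarith

theorem basics_Q_eq_sub : Q = fun x => 1 - Phi x := by
  ext x
  have := Phi_add_Q x
  linarith

theorem hasDerivAt_Q (x : ℝ) : HasDerivAt Q (-phi x) x := by
  rw [basics_Q_eq_sub]
  exact (hasDerivAt_Phi x).const_sub 1

theorem Phi_strictMono : StrictMono Phi :=
  strictMono_of_hasDerivAt_pos hasDerivAt_Phi phi_pos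

theorem Q_strictAnti : StrictAnti Q := by
  intro x y h
  have h1 := Phi_strictMono h
  have h2 := Phi_add_Q x
  have h3 := Phi_add_Q y
  linarith

theorem basics_Phi_nonneg (x : ℝ) : 0 ≤ Phi x := measureReal_nonneg

theorem basics_Q_nonneg (x : ℝ) : 0 ≤ Q x := measureReal_nonneg

theorem Phi_pos (x : ℝ) : 0 < Phi x :=
  lt_of_le_of_lt (basics_Phi_nonneg (x - 1)) (Phi_strictMono (by linarith))

theorem Q_pos (x : ℝ) : 0 < Q x :=
  lt_of_le_of_lt (basics_Q_nonneg (x + 1)) (Q_strictAnti (by linarith))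

theorem Phi_lt_one (x : ℝ) : Phi x < 1 := by
  have h1 := Q_pos x
  have h2 := Phi_add_Q x
  linarith

theorem Q_lt_one (x : ℝ) : Q x < 1 := by
  have h1 := Phi_pos x
  have h2 := Phi_add_Q x
  linarith

theorem Phi_tendsto_top : Tendsto Phi atTop (𝓝 1) := by
  have h1 := intervalIntegral_tendsto_integral_Ioi 0 basics_integrable_phi.integrableOn tendsto_id
  have h2 := h1.const_add (Phi 0)
  have h3 : Phi 0 + ∫ x in Set.Ioi 0, phi x = 1 := by
    rw [← basics_Q_eq]
    exact Phi_add_Q 0
  rw [h3] at h2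
  refine h2.congr fun x => ?_
  have := basics_Phi_sub 0 x
  simp only [id]
  linarith

theorem Phi_tendsto_bot : Tendsto Phi atBot (𝓝 0) := by
  have h1 : Tendsto (fun x => 1 - Phi (-x)) atBot (𝓝 (1 - 1)) :=
    (Phi_tendsto_top.comp tendsto_neg_atBot_atTop).const_sub 1
  rw [sub_self] at h1
  refine h1.congr fun x => ?_
  have h2 := Phi_neg x
  have h3 := Phi_add_Q x
  linarith

theorem basics_Phi_continuous : Continuous Phi :=
  continuous_iff_continuousAt.mpr fun x => (hasDerivAt_Phi x).continuousAt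

theorem Phi_surj {a : ℝ} (h0 : 0 < a) (h1 : a < 1) : ∃ x, Phi x = a := by
  obtain ⟨s, hs⟩ := (Phi_tendsto_bot.eventually (gt_mem_nhds h0)).exists
  obtain ⟨t, ht⟩ := (Phi_tendsto_top.eventually (lt_mem_nhds h1)).exists
  have hst : s ≤ t := (Phi_strictMono.lt_iff_lt.mp (hs.trans ht)).le
  obtain ⟨x, _, hx⟩ :=
    intermediate_value_Icc hst basics_Phi_continuous.continuousOn ⟨hs.le, ht.le⟩
  exact ⟨x, hx⟩

theorem Q_surj {a : ℝ} (h0 : 0 < a) (h1 : a < 1) : ∃ x, Q x = a := by
  obtain ⟨x, hx⟩ := Phi_surj (a := 1 - a) (by linarith) (by linarith)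
  refine ⟨x, ?_⟩
  have := Phi_add_Q x
  linarith

theorem basics_phi_tendsto_top : Tendsto phi atTop (𝓝 0) := by
  have h1 : Tendsto (fun x : ℝ => x ^ 2 / 2) atTop atTop :=
    (tendsto_pow_atTop two_ne_zero).atTop_div_const (by norm_num)
  have h2 := (Real.tendsto_exp_neg_atTop_nhds_zero.comp h1).div_const (Real.sqrt (2 * Real.pi))
  rw [zero_div] at h2
  refine h2.congr fun x => ?_
  unfold phi
  simp only [Function.comp]
  rw [neg_div]

/-- `E (g - θ)_+ = φ θ - θ Q θ` -/
theorem integral_pos_part (θ : ℝ) :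
    ∫ x, max (x - θ) 0 ∂(gaussianReal 0 1) = phi θ - θ * Q θ := by
  rw [integral_gaussianReal_eq_integral_smul one_ne_zero, gaussianPDFReal_eq_phi]
  have h1 : ∀ x, phi x • max (x - θ) 0 = (Set.Ioi θ).indicator (fun x => (x - θ) * phi x) x := by
    intro x
    by_cases hx : θ < x
    · rw [Set.indicator_of_mem (Set.mem_Ioi.2 hx), max_eq_left (by linarith), smul_eq_mul, mul_comm]
    · rw [Set.indicator_of_notMem (by simpa using hx), max_eq_right (by linarith), smul_zero]
  simp_rw [h1]
  rw [integral_indicator measurableSet_Ioi]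
  have hd : ∀ x ∈ Set.Ici θ, HasDerivAt (fun x => -phi x - θ * Phi x) ((x - θ) * phi x) x := by
    intro x _
    refine ((hasDerivAt_phi x).neg.sub ((hasDerivAt_Phi x).const_mul θ)).congr_deriv ?_
    ring
  have hp : ∀ x ∈ Set.Ioi θ, 0 ≤ (x - θ) * phi x := by
    intro x hx
    rw [Set.mem_Ioi] at hx
    exact mul_nonneg (by linarith) (phi_pos x).le
  have ht : Tendsto (fun x => -phi x - θ * Phi x) atTop (𝓝 (-0 - θ * 1)) :=
    basics_phi_tendsto_top.neg.sub (Phi_tendsto_top.const_mul θ)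
  rw [integral_Ioi_of_hasDerivAt_of_nonneg' hd hp ht]
  have := Phi_add_Q θ
  rw [← this]
  ring

theorem basics_hasDerivAt_sub (θ : ℝ) : HasDerivAt (fun θ => phi θ - θ * Q θ) (-Q θ) θ := by
  refine ((hasDerivAt_phi θ).sub ((hasDerivAt_id θ).mul (hasDerivAt_Q θ))).congr_deriv ?_
  simp only [id]
  ring

/-- Mills ratio type positivity -/
theorem phi_sub_pos (θ : ℝ) : 0 < phi θ - θ * Q θ := by
  have h1 : StrictAnti (fun θ => phi θ - θ * Q θ) :=
    strictAnti_of_hasDerivAt_neg basics_hasDerivAt_sub fun x => neg_neg_of_pos (Q_pos x)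
  have h2 : 0 ≤ phi (θ + 1) - (θ + 1) * Q (θ + 1) := by
    rw [← integral_pos_part]
    exact integral_nonneg fun x => le_max_right _ _
  have h3 := h1 (show θ < θ + 1 by linarith)
  simp only at h3
  linarith

theorem basics_tendsto_sub : Tendsto (fun θ => phi θ - θ * Q θ) atTop (𝓝 0) := by
  refine tendsto_of_tendsto_of_tendsto_of_le_of_le' tendsto_const_nhds basics_phi_tendsto_top
    (Eventually.of_forall fun x => (phi_sub_pos x).le) ?_
  filter_upwards [eventually_ge_atTop (0 : ℝ)] with x hx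
  have := mul_nonneg hx (Q_pos x).le
  linarith

theorem basics_tail_hasDerivAt {κ : ℝ} (hκ : 0 < κ) (τ t : ℝ) :
    HasDerivAt (fun t => -(phi (τ + κ * t) - (τ + κ * t) * Q (τ + κ * t)) / κ)
      (Q (τ + κ * t)) t := by
  have h1 : HasDerivAt (fun t => τ + κ * t) κ t := by
    have := ((hasDerivAt_id t).const_mul κ).const_add τ
    simpa using this
  have h2 := HasDerivAt.comp t (basics_hasDerivAt_sub (τ + κ * t)) h1
  refine (h2.neg.div_const κ).congr_deriv ?_
  field_simp

theorem basics_tail_tendsto {κ : ℝ} (hκ : 0 < κ) (τ : ℝ) :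
    Tendsto (fun t => -(phi (τ + κ * t) - (τ + κ * t) * Q (τ + κ * t)) / κ) atTop (𝓝 0) := by
  have h1 : Tendsto (fun t : ℝ => τ + κ * t) atTop atTop :=
    tendsto_atTop_add_const_left _ _ (tendsto_id.const_mul_atTop hκ)
  have h2 := ((basics_tendsto_sub.comp h1).neg).div_const κ
  simpa using h2

/-- tail integral (also integrable) -/
theorem integrableOn_tail {κ : ℝ} (hκ : 0 < κ) (τ : ℝ) :
    IntegrableOn (fun t => Q (τ + κ * t)) (Set.Ioi 0) :=
  integrableOn_Ioi_deriv_of_nonneg' (fun t _ => basics_tail_hasDerivAt hκ τ t)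
    (fun t _ => (Q_pos (τ + κ * t)).le) (basics_tail_tendsto hκ τ)

theorem integral_tail {κ : ℝ} (hκ : 0 < κ) (τ : ℝ) :
    ∫ t in Set.Ioi (0:ℝ), Q (τ + κ * t) = (phi τ - τ * Q τ) / κ := by
  rw [integral_Ioi_of_hasDerivAt_of_nonneg' (fun t _ => basics_tail_hasDerivAt hκ τ t)
    (fun t _ => (Q_pos (τ + κ * t)).le) (basics_tail_tendsto hκ τ)]
  simp only [mul_zero, add_zero]
  ring

end Vale.Agent.P226
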