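import Vale.Agent.Lib.P226.Moment

/-!
P226, job J7b (CritBasic.lean).  Elementary consequences of `Crit`: independence, dual vectors,
cells are open convex cones of measure in `(0, 1/2]`, difference quotients of translates.
-/

open MeasureTheory ProbabilityTheory Filter
open scoped RealInnerProductSpace Topology

namespace Vale.Agent.P226

variable {E : Type*} [NormedAddCommGroup E] [InnerProductSpace ℝ E]
  [FiniteDimensional ℝ E] [MeasurableSpace E] [BorelSpace E]

omit [FiniteDimensional ℝ E] [MeasurableSpace E] [BorelSpace E] in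
theorem isOpen_cell {ι : Type} [Fintype ι] (v : ι → E) (i : ι) :
    IsOpen (cell v i) := by
  have h : cell v i = ⋂ j, {x | j ≠ i → ⟪v j, x⟫ < ⟪v i, x⟫} := by
    ext x
    simp [cell]
  rw [h]
  refine isOpen_iInter_of_finite fun j => ?_
  by_cases hj : j = i
  · simp [hj]
  · simp only [ne_eq, hj, not_false_eq_true, forall_const]
    exact isOpen_lt (continuous_const.inner continuous_id) (continuous_const.inner continuous_id)

omit [FiniteDimensional ℝ E] in
theorem measurableSet_cell {ι : Type} [Fintype ι] (v : ι → E) (i : ι) :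
    MeasurableSet (cell v i) := (isOpen_cell v i).measurableSet

omit [FiniteDimensional ℝ E] [MeasurableSpace E] [BorelSpace E] in
theorem convex_cell {ι : Type} (v : ι → E) (i : ι) : Convex ℝ (cell v i) := by
  intro x hx y hy a b ha hb hab j hj
  have h1 := hx j hj
  have h2 := hy j hj
  simp only [inner_add_right, inner_smul_right]
  rcases ha.eq_or_lt with h0 | h0
  · have hb1 : b = 1 := by linarith
    rw [← h0, hb1]
    simpa using h2
  · have h3 := mul_lt_mul_of_pos_left h1 h0
    have h4 := mul_le_mul_of_nonneg_left h2.le hb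
    linarith

/-- another index -/
theorem Crit.exists_ne {ι : Type} [Fintype ι] {v : ι → E} {r : ℝ} (h : Crit v r) (i : ι) :
    ∃ j, j ≠ i := by
  classical
  have h1 : 1 < Fintype.card ι := by have := h.card; omega
  exact Fintype.exists_ne_of_one_lt_card h1 i

theorem Crit.ne_zero {ι : Type} [Fintype ι] {v : ι → E} {r : ℝ} (h : Crit v r) (i : ι) :
    v i ≠ 0 := by
  obtain ⟨j, hj⟩ := h.exists_ne i
  intro h0
  have h1 := h.neg i j hj.symm
  rw [h0, inner_zero_left] at h1
  exact lt_irrefl _ h1

omit [FiniteDimensional ℝ E] [MeasurableSpace E] [BorelSpace E] in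
theorem c0_pos_aux : 0 < c0 := by unfold c0; positivity

/-- `moment ≠ 0` gives positive measure; the cell and its opposite are disjoint -/
theorem Crit.cell_half {ι : Type} [Fintype ι] {v : ι → E} {r : ℝ} (h : Crit v r) (i : ι) :
    0 < (stdGaussian E).real (cell v i) ∧ (stdGaussian E).real (cell v i) ≤ 1 / 2 := by
  constructor
  · refine lt_of_le_of_ne measureReal_nonneg fun h0 => ?_
    have h1 : (stdGaussian E) (cell v i) = 0 := by
      rw [eq_comm, measureReal_eq_zero_iff] at h0
      exact h0
    have h2 := h.moment i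
    rw [setIntegral_measure_zero _ h1] at h2
    have h3 : r * c0 ≠ 0 := by
      have := c0_pos_aux
      have := h.one_lt
      positivity
    exact h.ne_zero i ((smul_eq_zero.1 h2.symm).resolve_left h3)
  · obtain ⟨j, hj⟩ := h.exists_ne i
    have hneg : (stdGaussian E).real ((fun x : E => -x) ⁻¹' (cell v i)) =
        (stdGaussian E).real (cell v i) := by
      have h1 := stdGaussian_map (E := E) (LinearIsometryEquiv.neg ℝ)
      have h2 : (stdGaussian E).map (fun x : E => -x) = stdGaussian E := h1
      have h3 := map_measureReal_apply (μ := stdGaussian E) (f := fun x : E => -x)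
        measurable_neg (measurableSet_cell v i)
      rw [← h3, h2]
    have hdisj : Disjoint (cell v i) ((fun x : E => -x) ⁻¹' (cell v i)) := by
      rw [Set.disjoint_left]
      intro x hx hx'
      have h1 := hx j hj
      have h2 := hx' j hj
      simp only [inner_neg_right] at h2
      linarith
    have h4 := measureReal_union (μ := stdGaussian E) hdisj
      (measurable_neg (measurableSet_cell v i))
    have h5 : (stdGaussian E).real (cell v i ∪ (fun x : E => -x) ⁻¹' (cell v i)) ≤ 1 :=
      measureReal_le_one
    rw [h4, hneg] at h5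
    linarith

/-- any proper subfamily is linearly independent: pairwise negative inner products, and a common
further vector making negative inner products with all of them -/
theorem Crit.linearIndependent {ι : Type} [Fintype ι] {v : ι → E} {r : ℝ} (h : Crit v r) (i : ι) :
    LinearIndependent ℝ (fun j : {j // j ≠ i} => v j) := by
  classical
  rw [Fintype.linearIndependent_iff]
  intro c hc
  -- positive and negative parts
  set u : E := ∑ j : {j // j ≠ i}, max (c j) 0 • v j with hu
  set u' : E := ∑ j : {j // j ≠ i}, max (-c j) 0 • v j with hu'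
  have huu : u = u' := by
    rw [← sub_eq_zero, hu, hu', ← Finset.sum_sub_distrib, ← hc]
    refine Finset.sum_congr rfl fun j _ => ?_
    rw [← sub_smul]
    congr 1
    rcases le_total (c j) 0 with h0 | h0
    · rw [max_eq_right h0, max_eq_left (by linarith)]; ring
    · rw [max_eq_left h0, max_eq_right (by linarith)]; ring
  have hu0 : u = 0 := by
    have h1 : ⟪u, u'⟫ ≤ 0 := by
      rw [hu, hu', sum_inner]
      refine Finset.sum_nonpos fun a _ => ?_
      rw [inner_sum]
      refine Finset.sum_nonpos fun b _ => ?_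
      rw [inner_smul_left, inner_smul_right]
      simp only [conj_trivial]
      by_cases hab : a = b
      · subst hab
        rcases le_total (c a) 0 with h0 | h0
        · rw [max_eq_right h0]; simp
        · rw [max_eq_right (a := -c a) (by linarith)]; simp
      · have h2 := h.neg a b (fun h3 => hab (Subtype.ext h3))
        have h3 : 0 ≤ max (c a) 0 := le_max_right _ _
        have h4 : 0 ≤ max (-c b) 0 := le_max_right _ _
        have h5 : 0 ≤ max (c a) 0 * (max (-c b) 0) := mul_nonneg h3 h4
        nlinarith
    rw [← huu, real_inner_self_eq_norm_sq] at h1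
    have h2 : ‖u‖ = 0 := by nlinarith [norm_nonneg u]
    exact norm_eq_zero.1 h2
  have key : ∀ d : {j // j ≠ i} → ℝ, (∀ j, 0 ≤ d j) → (∑ j : {j // j ≠ i}, d j • v j) = 0 →
      ∀ j, d j = 0 := by
    intro d hd hsum j
    have h1 : ⟪v i, ∑ j : {j // j ≠ i}, d j • v j⟫ = 0 := by rw [hsum, inner_zero_right]
    rw [inner_sum] at h1
    have h2 : ∀ a ∈ (Finset.univ : Finset {j // j ≠ i}), ⟪v i, d a • v a⟫ ≤ 0 := by
      intro a _
      rw [inner_smul_right]
      exact mul_nonpos_of_nonneg_of_nonpos (hd a) (h.neg i a (Ne.symm a.2)).le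
    have h3 := (Finset.sum_eq_zero_iff_of_nonpos h2).1 h1 j (Finset.mem_univ _)
    rw [inner_smul_right] at h3
    exact (mul_eq_zero.1 h3).resolve_right (h.neg i j (Ne.symm j.2)).ne
  intro j
  have h1 : max (c j) 0 = 0 := key (fun j => max (c j) 0) (fun j => le_max_right _ _) hu0 j
  have h2 : max (-c j) 0 = 0 :=
    key (fun j => max (-c j) 0) (fun j => le_max_right _ _) (huu.symm.trans hu0) j
  have h3 : c j ≤ 0 := by rw [← h1]; exact le_max_left _ _
  have h4 : -c j ≤ 0 := by rw [← h2]; exact le_max_left _ _
  linarith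

omit [MeasurableSpace E] [BorelSpace E] in
/-- prescribed inner products with a linearly independent family -/
theorem exists_inner_eq {κ : Type} {u : κ → E} (hu : LinearIndependent ℝ u) (a : κ → ℝ) :
    ∃ w : E, ∀ j, ⟪u j, w⟫ = a j := by
  obtain ⟨g, hg⟩ := ((Module.Basis.span hu).constr ℝ a).exists_extend
  refine ⟨(InnerProductSpace.toDual ℝ E).symm (LinearMap.toContinuousLinearMap g), fun j => ?_⟩
  rw [real_inner_comm, InnerProductSpace.toDual_symm_apply]
  have h1 := congrArg (fun F => F (Module.Basis.span hu j)) hg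
  simp only [LinearMap.comp_apply, Module.Basis.constr_basis] at h1
  rw [← h1]
  simp [Module.Basis.span_apply]

/-- prescribed inner products with the differences `v i - v j`, `j ≠ i` -/
theorem Crit.exists_dual {ι : Type} [Fintype ι] {v : ι → E} {r : ℝ} (h : Crit v r) (i : ι)
    (b : ι → ℝ) (hb : b i = 0) : ∃ w : E, (∀ j, ⟪v i - v j, w⟫ = b j) ∧
      ⟪v i, w⟫ = (∑ j, b j) / Fintype.card ι := by
  classical
  have hk : (0 : ℝ) < Fintype.card ι := by
    have := h.card
    exact_mod_cast (by omega : 0 < Fintype.card ι)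
  set s : ℝ := (∑ j, b j) / Fintype.card ι with hs
  obtain ⟨w, hw⟩ := exists_inner_eq (h.linearIndependent i) (fun j => s - b j)
  have hw' : ∀ j, j ≠ i → ⟪v j, w⟫ = s - b j := fun j hj => hw ⟨j, hj⟩
  have hvi : ⟪v i, w⟫ = s := by
    have h1 : ∑ j, ⟪v j, w⟫ = 0 := by
      rw [← sum_inner, h.sum_zero, inner_zero_left]
    rw [← Finset.add_sum_erase _ _ (Finset.mem_univ i)] at h1
    have h2 : ∑ j ∈ Finset.univ.erase i, ⟪v j, w⟫ = ∑ j ∈ Finset.univ.erase i, (s - b j) :=
      Finset.sum_congr rfl fun j hj => hw' j (Finset.ne_of_mem_erase hj)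
    have h3 : ∑ j, (s - b j) = 0 := by
      rw [Finset.sum_sub_distrib]
      simp only [Finset.sum_const, Finset.card_univ, nsmul_eq_mul, hs]
      field_simp
      ring
    rw [← Finset.add_sum_erase _ _ (Finset.mem_univ i), hb] at h3
    rw [h2] at h1
    linarith
  refine ⟨w, fun j => ?_, hvi⟩
  rw [inner_sub_left, hvi]
  by_cases hj : j = i
  · rw [hj, hvi, hb]; ring
  · rw [hw' j hj]; ring

/-- right difference quotient for moving one facet: for `w` with
`⟪v j - v l, w⟫ = 1`, `⟪v j - v i, w⟫ = 0` for the other `i`, `cell + t w = {t < ⟪v j - v l, x⟫, others}`,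
so the measure of the slab divided by `t` tends to `⟪z_j, w⟫ = r c0 ⟪v j, w⟫ = r c0 / k`. -/
theorem Crit.facet_limit {ι : Type} [Fintype ι] {v : ι → E} {r : ℝ} (h : Crit v r)
    {j l : ι} (hjl : j ≠ l) :
    Tendsto (fun t : ℝ => (stdGaussian E).real
      {x | 0 < ⟪v j - v l, x⟫ ∧ ⟪v j - v l, x⟫ ≤ t ∧
        ∀ i : {i // i ≠ j ∧ i ≠ l}, 0 < ⟪v j - v i, x⟫} / t) (𝓝[>] 0)
      (𝓝 (r * c0 / Fintype.card ι)) := by
  classical
  obtain ⟨w, hw, hjw⟩ := h.exists_dual j (fun i => if i = l then 1 else 0) (by simp [hjl])
  have hwl : ⟪v j - v l, w⟫ = 1 := by rw [hw]; simp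
  have hwi : ∀ i, i ≠ l → ⟪v j - v i, w⟫ = 0 := fun i hi => by rw [hw]; simp [hi]
  have hjw' : ⟪v j, w⟫ = 1 / Fintype.card ι := by rw [hjw]; simp
  have hder := hasDerivAt_translate (cell v j) (measurableSet_cell v j) w
  have hval : -⟪∫ x in cell v j, x ∂(stdGaussian E), w⟫ = -(r * c0 / Fintype.card ι) := by
    rw [h.moment j, real_inner_smul_left, hjw']
    ring
  rw [hval] at hder
  have hslope := hasDerivAt_iff_tendsto_slope.1 hder
  have hslope' : Tendsto (slope (fun t : ℝ => (stdGaussian E).real {x | x - t • w ∈ cell v j}) 0)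
      (𝓝[>] 0) (𝓝 (-(r * c0 / Fintype.card ι))) :=
    hslope.mono_left (nhdsWithin_mono _ fun t ht => (ne_of_gt ht : t ≠ 0))
  have hneg := hslope'.neg
  rw [neg_neg] at hneg
  refine hneg.congr' ?_
  filter_upwards [self_mem_nhdsWithin] with t ht
  have ht0 : (0 : ℝ) < t := ht
  have h0 : {x : E | x - (0 : ℝ) • w ∈ cell v j} = cell v j := by simp
  have hsub : {x : E | x - t • w ∈ cell v j} ⊆ cell v j := by
    intro x hx i hi
    have h1 := hx i hi
    simp only [inner_sub_right, inner_smul_right] at h1
    by_cases hil : i = l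
    · subst hil
      rw [inner_sub_left] at hwl
      nlinarith
    · have h2 := hwi i hil
      rw [inner_sub_left] at h2
      have h3 : t * ⟪v j, w⟫ - t * ⟪v i, w⟫ = 0 := by rw [← mul_sub, h2, mul_zero]
      linarith
  have hset : {x : E | 0 < ⟪v j - v l, x⟫ ∧ ⟪v j - v l, x⟫ ≤ t ∧
        ∀ i : {i // i ≠ j ∧ i ≠ l}, 0 < ⟪v j - v i, x⟫} =
      cell v j \ {x : E | x - t • w ∈ cell v j} := by
    ext x
    simp only [Set.mem_ofPred_eq, Set.mem_sdiff]
    constructor
    · rintro ⟨h1, h2, h3⟩
      constructor
      · intro i hi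
        by_cases hil : i = l
        · subst hil
          rw [inner_sub_left] at h1
          linarith
        · have h4 := h3 ⟨i, hi, hil⟩
          rw [inner_sub_left] at h4
          linarith
      · intro h4
        have h5 := h4 l hjl.symm
        simp only [inner_sub_right, inner_smul_right] at h5
        rw [inner_sub_left] at hwl h2
        nlinarith
    · rintro ⟨h1, h2⟩
      refine ⟨?_, ?_, ?_⟩
      · have h3 := h1 l hjl.symm
        rw [inner_sub_left]
        linarith
      · by_contra h3
        push Not at h3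
        refine h2 fun i hi => ?_
        simp only [inner_sub_right, inner_smul_right]
        by_cases hil : i = l
        · subst hil
          rw [inner_sub_left] at hwl h3
          nlinarith
        · have h4 := h1 i hi
          have h5 := hwi i hil
          rw [inner_sub_left] at h5
          have h6 : t * ⟪v j, w⟫ - t * ⟪v i, w⟫ = 0 := by rw [← mul_sub, h5, mul_zero]
          linarith
      · intro i
        have h3 := h1 i i.2.1
        rw [inner_sub_left]
        linarith
  have hmeas : MeasurableSet {x : E | x - t • w ∈ cell v j} :=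
    (measurable_id.sub_const _) (measurableSet_cell v j)
  rw [hset, measureReal_sdiff hsub hmeas, slope_def_field, h0, sub_zero]
  ring

end Vale.Agent.P226
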