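import Vale.Agent.Lib.P226.Cap3
import Vale.Agent.Lib.P226.CritBasic

/-!
P226, job J10b (Cap.lean).  Cap bound for a critical configuration with four cells
(uses `cap_three`, `Crit.linearIndependent`).

Sketch.  `F = span (v i)` has dimension 3 (three of the `v i` are independent and `∑ v i = 0`).
Take a linear isometry equivalence `F ≃ₗᵢ EuclideanSpace ℝ (Fin 3)` and let `P : E → ℝ³` be the
composition with the orthogonal projection on `F`; `stdGaussian E` is mapped to `stdGaussian ℝ³`
(characteristic function), `cell v i = P⁻¹ (cell (P ∘ v) i)`, `⟪v i, x⟫ = ⟪P (v i), P x⟫`.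
Then `‖z_i‖ = r c0 ‖v i‖` and `⟪z_i, v i⟫ = ∫_{cell (P∘v) i} ⟪P (v i), y⟫ dγ₃ ≤ ‖P (v i)‖ ‖z_i^{(3)}‖`.
-/

open MeasureTheory ProbabilityTheory Filter
open scoped RealInnerProductSpace Topology

namespace Vale.Agent.P226

variable {E : Type*} [NormedAddCommGroup E] [InnerProductSpace ℝ E]
  [FiniteDimensional ℝ E] [MeasurableSpace E] [BorelSpace E]

/-- The adjoint of a linear isometry maps the standard Gaussian measure to the standard Gaussian
measure. -/
theorem map_adjoint_stdGaussian {G : Type*} [NormedAddCommGroup G] [InnerProductSpace ℝ G]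
    [FiniteDimensional ℝ G] [MeasurableSpace G] [BorelSpace G] (J : G →ₗᵢ[ℝ] E) (P : E →L[ℝ] G)
    (hP : ∀ x t, ⟪P x, t⟫ = ⟪x, J t⟫) : (stdGaussian E).map P = stdGaussian G := by
  have hm : Measurable P := P.continuous.measurable
  have : IsProbabilityMeasure ((stdGaussian E).map P) :=
    Measure.isProbabilityMeasure_map hm.aemeasurable
  apply Measure.ext_of_charFun
  ext t
  rw [charFun_apply, integral_map hm.aemeasurable (by fun_prop)]
  simp_rw [hP]
  rw [← charFun_apply, charFun_stdGaussian, charFun_stdGaussian, J.norm_map]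

theorem crit_cap {ι : Type} [Fintype ι] {v : ι → E} {r : ℝ} (h : Crit v r)
    (h4 : Fintype.card ι = 4) (i : ι) :
    r * c0 * ‖v i‖ ≤ 2 * Real.sqrt (2 / Real.pi) *
      ((stdGaussian E).real (cell v i) * (1 - (stdGaussian E).real (cell v i))) := by
  classical
  have hli := h.linearIndependent i
  set F : Submodule ℝ E := Submodule.span ℝ (Set.range fun j : {j // j ≠ i} => v j) with hF
  have hF3 : Module.finrank ℝ F = 3 := by
    rw [hF, finrank_span_eq_card hli, Fintype.card_subtype_compl, h4]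
    simp
  have hmem : ∀ j, v j ∈ F := by
    have h1 : ∀ j, j ≠ i → v j ∈ F := fun j hj => Submodule.subset_span ⟨⟨j, hj⟩, rfl⟩
    intro j
    by_cases hj : j = i
    · subst hj
      have h2 := h.sum_zero
      rw [← Finset.add_sum_erase _ _ (Finset.mem_univ j)] at h2
      rw [eq_neg_of_add_eq_zero_left h2]
      exact F.neg_mem (F.sum_mem fun l hl => h1 l (Finset.ne_of_mem_erase hl))
    · exact h1 j hj
  let L : F ≃ₗᵢ[ℝ] EuclideanSpace ℝ (Fin 3) :=
    ((stdOrthonormalBasis ℝ F).reindex (finCongr hF3)).repr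
  let J : EuclideanSpace ℝ (Fin 3) →ₗᵢ[ℝ] E := F.subtypeₗᵢ.comp L.symm.toLinearIsometry
  let P : E →L[ℝ] EuclideanSpace ℝ (Fin 3) := ContinuousLinearMap.adjoint J.toContinuousLinearMap
  have hP : ∀ x t, ⟪P x, t⟫ = ⟪x, J t⟫ := by
    intro x t
    exact ContinuousLinearMap.adjoint_inner_left _ _ _
  have hmap := map_adjoint_stdGaussian J P hP
  have hm : Measurable P := P.continuous.measurable
  let w : ι → EuclideanSpace ℝ (Fin 3) := fun j => L ⟨v j, hmem j⟩
  have hJw : ∀ j, J (w j) = v j := by
    intro j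
    simp [J, w]
  have hin : ∀ j x, ⟪v j, x⟫ = ⟪w j, P x⟫ := by
    intro j x
    rw [real_inner_comm, ← hJw j, ← hP, real_inner_comm]
  have hcell : cell v i = P ⁻¹' (cell w i) := by
    ext x
    simp only [cell, Set.mem_ofPred_eq, Set.mem_preimage, hin]
  have hmc : MeasurableSet (cell w i) := measurableSet_cell w i
  have hmeas : (stdGaussian E).real (cell v i) =
      (stdGaussian (EuclideanSpace ℝ (Fin 3))).real (cell w i) := by
    rw [hcell, ← hmap, map_measureReal_apply hm hmc]
  have hnorm : ‖w i‖ = ‖v i‖ := by rw [← hJw i, J.norm_map]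
  have hcone : ∀ c : ℝ, 0 < c → ∀ x ∈ cell w i, c • x ∈ cell w i := by
    intro c hc x hx j hj
    rw [real_inner_smul_right, real_inner_smul_right]
    exact mul_lt_mul_of_pos_left (hx j hj) hc
  have hcap := cap_three (cell w i) hmc hcone
  rw [← hmeas] at hcap
  have hint : ⟪v i, (r * c0) • v i⟫ =
      ⟪w i, ∫ y in cell w i, y ∂(stdGaussian (EuclideanSpace ℝ (Fin 3)))⟫ := by
    rw [← h.moment i, ← integral_inner integrable_id_stdGaussian.integrableOn,
      ← integral_inner integrable_id_stdGaussian.integrableOn]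
    rw [← hmap, setIntegral_map hmc (by fun_prop) hm.aemeasurable, ← hcell]
    refine integral_congr_ae (Eventually.of_forall fun x => ?_)
    exact hin i x
  rw [real_inner_smul_right, real_inner_self_eq_norm_sq] at hint
  have hle : r * c0 * ‖v i‖ ^ 2 ≤ ‖v i‖ * (2 * Real.sqrt (2 / Real.pi) *
      ((stdGaussian E).real (cell v i) * (1 - (stdGaussian E).real (cell v i)))) := by
    rw [hint]
    refine (real_inner_le_norm _ _).trans ?_
    rw [hnorm]
    exact mul_le_mul_of_nonneg_left hcap (norm_nonneg _)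
  have hpos : 0 < ‖v i‖ := norm_pos_iff.2 (h.ne_zero i)
  have hle2 : ‖v i‖ * (r * c0 * ‖v i‖) ≤ ‖v i‖ * (2 * Real.sqrt (2 / Real.pi) *
      ((stdGaussian E).real (cell v i) * (1 - (stdGaussian E).real (cell v i)))) := by
    refine le_trans (le_of_eq ?_) hle
    ring
  exact le_of_mul_le_mul_left hle2 hpos

end Vale.Agent.P226
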