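import Vale.Agent.Lib.P226.Defs

/-!
P226, job J10a (Cap3.lean).  Cap bound for cones in the three-dimensional Euclidean space.

Sketch.  Let `a = γ(A)`, `c = 1 - 2a`.  `⟪z,u⟫ = ∫_A (⟪x,u⟫ - c‖x‖) + c ∫_A ‖x‖ ≤
∫ (⟪x,u⟫ - c‖x‖)_+ + c ∫_A ‖x‖`.  (i) for a cone, `∫_A ‖x‖ dγ = a E‖x‖` (independence of norm and
direction: polar coordinates, `MeasureTheory.Measure.measurePreserving_homeomorphUnitSphereProd`,
or scaling), (ii) `E‖x‖ = 2√(2/π)`, (iii) `E(⟪x,u⟫ - c‖x‖)_+ = E‖x‖ (1-c)²/4` for `|c| ≤ 1`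
(cylindrical coordinates, or Archimedes).  Total `E‖x‖ ((1-2a)a + a²) = E‖x‖ a(1-a)`.
-/

open MeasureTheory ProbabilityTheory Filter
open scoped RealInnerProductSpace Topology

namespace Vale.Agent.P226

section general
variable {E : Type*} [NormedAddCommGroup E] [InnerProductSpace ℝ E]
  [FiniteDimensional ℝ E] [MeasurableSpace E] [BorelSpace E]

variable (E) in
/-- normalisation constant of the Gaussian density -/
noncomputable def cap3_gdK : ℝ := (2 * Real.pi) ^ ((Module.finrank ℝ E : ℝ) / 2)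

variable (E) in
theorem cap3_gdK_pos : 0 < cap3_gdK E := Real.rpow_pos_of_pos (by positivity) _

/-- Gaussian density -/
noncomputable def cap3_gdens (x : E) : ℝ := Real.exp (-‖x‖ ^ 2 / 2) / cap3_gdK E

theorem cap3_gdens_nonneg (x : E) : 0 ≤ cap3_gdens x := div_nonneg (Real.exp_nonneg _) (cap3_gdK_pos E).le

theorem cap3_measurable_gdens : Measurable (cap3_gdens : E → ℝ) := by
  unfold cap3_gdens
  fun_prop

theorem cap3_integrable_gdens : Integrable (cap3_gdens : E → ℝ) := by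
  have h := (GaussianFourier.integrable_cexp_neg_mul_sq_norm_add (V := E) (b := 1 / 2)
    (by norm_num) 0 (0 : E)).re
  refine (h.div_const (cap3_gdK E)).congr ?_
  filter_upwards with x
  simp only [cap3_gdens]
  congr 1
  have : (-(1 / 2 : ℂ) * (‖x‖ : ℂ) ^ 2 + 0 * ((⟪(0 : E), x⟫ : ℝ) : ℂ)) =
    ((-‖x‖ ^ 2 / 2 : ℝ) : ℂ) := by
    push_cast
    ring
  rw [this]
  exact Complex.exp_ofReal_re _

theorem cap3_stdGaussian_eq_withDensity :
    stdGaussian E = volume.withDensity (fun x => ENNReal.ofReal (cap3_gdens x)) := by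
  have : IsFiniteMeasure ((volume : Measure E).withDensity (fun x => ENNReal.ofReal (cap3_gdens x))) :=
    isFiniteMeasure_withDensity_ofReal cap3_integrable_gdens.2
  refine Measure.ext_of_charFun ?_
  ext t
  rw [charFun_stdGaussian, charFun_apply,
    integral_withDensity_eq_integral_toReal_smul (cap3_measurable_gdens.ennreal_ofReal)
    (ae_of_all _ fun _ => ENNReal.ofReal_lt_top)]
  have h1 : ∀ x : E, (ENNReal.ofReal (cap3_gdens x)).toReal • Complex.exp (⟪x, t⟫ * Complex.I) =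
      ((cap3_gdK E : ℂ))⁻¹ * Complex.exp (-(1 / 2 : ℂ) * ‖x‖ ^ 2 + Complex.I * ⟪t, x⟫) := by
    intro x
    rw [ENNReal.toReal_ofReal (cap3_gdens_nonneg x), cap3_gdens, Complex.real_smul, Complex.exp_add,
      real_inner_comm]
    push_cast
    rw [show (-(1 / 2 : ℂ) * ‖x‖ ^ 2) = -(‖x‖ : ℂ) ^ 2 / 2 by ring,
      mul_comm Complex.I]
    ring
  simp_rw [h1]
  rw [integral_const_mul, GaussianFourier.integral_cexp_neg_mul_sq_norm_add (by norm_num)]
  have hK : ((Real.pi : ℂ) / (1 / 2)) ^ ((Module.finrank ℝ E : ℂ) / 2) = (cap3_gdK E : ℂ) := by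
    rw [cap3_gdK, Complex.ofReal_cpow (by positivity)]
    push_cast
    congr 1
    ring
  rw [hK, ← mul_assoc, inv_mul_cancel₀ (by exact_mod_cast (cap3_gdK_pos E).ne'), one_mul]
  congr 1
  rw [Complex.I_sq]
  ring


/-- integration over a cone of a radial function -/
theorem cap3_lintegral_cone [Nontrivial E] (A : Set E) (hA : MeasurableSet A)
    (hcone : ∀ c : ℝ, 0 < c → ∀ x ∈ A, c • x ∈ A) (g : ℝ → ENNReal) (hg : Measurable g) :
    ∫⁻ x in A, g ‖x‖ ∂(volume : Measure E) =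
      (volume : Measure E).toSphere {ω | (ω : E) ∈ A} *
        ∫⁻ r : Set.Ioi (0 : ℝ), g r ∂(Measure.volumeIoiPow (Module.finrank ℝ E - 1)) := by
  have hiff : ∀ c : ℝ, 0 < c → ∀ x : E, c • x ∈ A ↔ x ∈ A := by
    intro c hc x
    refine ⟨fun h => ?_, hcone c hc x⟩
    have := hcone c⁻¹ (inv_pos.2 hc) _ h
    rwa [smul_smul, inv_mul_cancel₀ hc.ne', one_smul] at this
  have hS : MeasurableSet {ω : Metric.sphere (0 : E) 1 | (ω : E) ∈ A} :=
    measurable_subtype_coe hA
  have hL : ∫⁻ x in A, g ‖x‖ ∂(volume : Measure E) = ∫⁻ x : ({0}ᶜ : Set E),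
      A.indicator (fun x => g ‖x‖) (x : E) ∂((volume : Measure E).comap (↑)) := by
    rw [lintegral_subtype_comap (measurableSet_singleton (0 : E)).compl
      (A.indicator (fun x => g ‖x‖)), restrict_compl_singleton, lintegral_indicator hA]
  rw [hL]
  have h1 : ∀ x : ({0}ᶜ : Set E), A.indicator (fun x => g ‖x‖) (x : E) =
      (fun p : Metric.sphere (0 : E) 1 × Set.Ioi (0 : ℝ) =>
        ({ω : Metric.sphere (0 : E) 1 | (ω : E) ∈ A}.indicator 1 p.1) * g p.2)
        (homeomorphUnitSphereProd E x) := by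
    intro x
    have hx : 0 < ‖(x : E)‖ := norm_pos_iff.2 x.2
    by_cases hxA : (x : E) ∈ A
    · have h2 : (homeomorphUnitSphereProd E x).1 ∈
          {ω : Metric.sphere (0 : E) 1 | (ω : E) ∈ A} := by
        rw [Set.mem_ofPred_eq, homeomorphUnitSphereProd_apply_fst_coe]
        exact (hiff _ (inv_pos.2 hx) (x : E)).2 hxA
      simp only [Set.indicator_of_mem hxA, Set.indicator_of_mem h2,
        homeomorphUnitSphereProd_apply_snd_coe, Pi.one_apply, one_mul]
    · have h2 : (homeomorphUnitSphereProd E x).1 ∉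
          {ω : Metric.sphere (0 : E) 1 | (ω : E) ∈ A} := by
        rw [Set.mem_ofPred_eq, homeomorphUnitSphereProd_apply_fst_coe]
        exact fun h => hxA ((hiff _ (inv_pos.2 hx) (x : E)).1 h)
      simp only [Set.indicator_of_notMem hxA, Set.indicator_of_notMem h2, zero_mul]
  simp_rw [h1]
  rw [(Measure.measurePreserving_homeomorphUnitSphereProd (volume : Measure E)).lintegral_comp_emb
    (Homeomorph.measurableEmbedding _)
    (fun p : Metric.sphere (0 : E) 1 × Set.Ioi (0 : ℝ) =>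
        ({ω : Metric.sphere (0 : E) 1 | (ω : E) ∈ A}.indicator 1 p.1) * g p.2)]
  rw [lintegral_prod_mul (f := {ω : Metric.sphere (0 : E) 1 | (ω : E) ∈ A}.indicator 1)
    (g := fun r : Set.Ioi (0 : ℝ) => g r)]
  · rw [lintegral_indicator_one hS]
  · exact (measurable_one.indicator hS).aemeasurable
  · exact (hg.comp measurable_subtype_coe).aemeasurable

theorem cap3_lintegral_volumeIoiPow (n : ℕ) (h : ℝ → ENNReal) (hh : Measurable h) :
    ∫⁻ r : Set.Ioi (0 : ℝ), h r ∂(Measure.volumeIoiPow n) =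
      ∫⁻ r in Set.Ioi (0 : ℝ), ENNReal.ofReal (r ^ n) * h r := by
  rw [Measure.volumeIoiPow, lintegral_withDensity_eq_lintegral_mul _ (by fun_prop) (by fun_prop)]
  exact lintegral_subtype_comap measurableSet_Ioi (fun r : ℝ => ENNReal.ofReal (r ^ n) * h r)

/-- the Gaussian integral of a radial function over a cone -/
theorem cap3_lintegral_cone_stdGaussian [Nontrivial E] (A : Set E) (hA : MeasurableSet A)
    (hcone : ∀ c : ℝ, 0 < c → ∀ x ∈ A, c • x ∈ A) : ∃ κ : ENNReal, ∀ g : ℝ → ENNReal,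
    Measurable g → ∫⁻ x in A, g ‖x‖ ∂(stdGaussian E) =
      κ * ∫⁻ r in Set.Ioi (0 : ℝ), ENNReal.ofReal (r ^ (Module.finrank ℝ E - 1) *
        Real.exp (-r ^ 2 / 2)) * g r := by
  refine ⟨(volume : Measure E).toSphere {ω | (ω : E) ∈ A} * ENNReal.ofReal (cap3_gdK E)⁻¹,
    fun g hg => ?_⟩
  rw [cap3_stdGaussian_eq_withDensity, restrict_withDensity hA,
    lintegral_withDensity_eq_lintegral_mul _ cap3_measurable_gdens.ennreal_ofReal (by fun_prop)]
  have h1 : ∀ x : E, ((fun x : E => ENNReal.ofReal (cap3_gdens x)) * fun x : E => g ‖x‖) x =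
      (fun r : ℝ => ENNReal.ofReal (Real.exp (-r ^ 2 / 2) / cap3_gdK E) * g r) ‖x‖ := fun x => rfl
  simp_rw [h1]
  rw [cap3_lintegral_cone A hA hcone (fun r : ℝ => ENNReal.ofReal (Real.exp (-r ^ 2 / 2) / cap3_gdK E) * g r)
    (by fun_prop), mul_assoc]
  congr 1
  rw [cap3_lintegral_volumeIoiPow _ (fun r : ℝ => ENNReal.ofReal (Real.exp (-r ^ 2 / 2) / cap3_gdK E) * g r)
    (by fun_prop), ← lintegral_const_mul _ (by fun_prop)]
  refine setLIntegral_congr_fun measurableSet_Ioi fun r hr => ?_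
  have hr0 : (0 : ℝ) < r := hr
  rw [← mul_assoc, ← mul_assoc, ← ENNReal.ofReal_mul (by positivity),
    ← ENNReal.ofReal_mul (inv_nonneg.2 (cap3_gdK_pos E).le)]
  congr 2
  field_simp

end general

theorem cap3_lintegral_pow_mul_exp (n : ℕ) :
    ∫⁻ r in Set.Ioi (0 : ℝ), ENNReal.ofReal (r ^ n * Real.exp (-r ^ 2 / 2)) =
      ENNReal.ofReal ((1 / 2) ^ (-((n : ℝ) + 1) / 2) * (1 / 2) * Real.Gamma (((n : ℝ) + 1) / 2)) := by
  have hn : (-1 : ℝ) < n := lt_of_lt_of_le (by norm_num) (Nat.cast_nonneg n)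
  have h1 := integrableOn_rpow_mul_exp_neg_mul_rpow (s := n) (p := 2) (b := 1 / 2) hn two_pos
    (by norm_num)
  have h2 := integral_rpow_mul_exp_neg_mul_rpow (q := n) (p := 2) (b := 1 / 2) two_pos hn
    (by norm_num)
  have h3 : ∀ r : ℝ, r ^ (n : ℝ) * Real.exp (-(1 / 2) * r ^ (2 : ℝ)) =
      r ^ n * Real.exp (-r ^ 2 / 2) := by
    intro r
    rw [Real.rpow_natCast, Real.rpow_two]
    congr 2
    ring
  simp_rw [h3] at h1 h2
  rw [← h2, ofReal_integral_eq_lintegral_ofReal h1]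
  filter_upwards [ae_restrict_mem measurableSet_Ioi] with r hr
  have hr0 : (0 : ℝ) < r := hr
  positivity

theorem cap3_lintegral_pow_one : ∫⁻ r in Set.Ioi (0 : ℝ),
    ENNReal.ofReal (r ^ 1 * Real.exp (-r ^ 2 / 2)) = 1 := by
  rw [cap3_lintegral_pow_mul_exp, ← ENNReal.ofReal_one]
  congr 1
  norm_num [Real.rpow_neg_one]

theorem cap3_lintegral_pow_two : ∫⁻ r in Set.Ioi (0 : ℝ),
    ENNReal.ofReal (r ^ 2 * Real.exp (-r ^ 2 / 2)) = ENNReal.ofReal (Real.sqrt (Real.pi / 2)) := by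
  rw [cap3_lintegral_pow_mul_exp]
  congr 1
  have h1 : (((2 : ℕ) : ℝ) + 1) / 2 = 1 / 2 + 1 := by norm_num
  have h2 : -(((2 : ℕ) : ℝ) + 1) / 2 = -(1 / 2) - 1 := by norm_num
  rw [h1, h2, Real.Gamma_add_one (by norm_num), Real.Gamma_one_half_eq,
    Real.rpow_sub (by norm_num), Real.rpow_one, Real.rpow_neg (by norm_num), ← Real.sqrt_eq_rpow]
  have h3 : Real.sqrt (1 / 2) ≠ 0 := by positivity
  rw [show Real.pi / 2 = Real.pi * (1 / 2) by ring, Real.sqrt_mul Real.pi_pos.le]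
  have h4 : Real.sqrt (1 / 2) * Real.sqrt (1 / 2) = 1 / 2 := Real.mul_self_sqrt (by norm_num)
  field_simp
  nlinarith [h4]

theorem cap3_lintegral_pow_three : ∫⁻ r in Set.Ioi (0 : ℝ),
    ENNReal.ofReal (r ^ 3 * Real.exp (-r ^ 2 / 2)) = ENNReal.ofReal 2 := by
  rw [cap3_lintegral_pow_mul_exp]
  congr 1
  have h1 : (((3 : ℕ) : ℝ) + 1) / 2 = ((1 : ℕ) : ℝ) + 1 := by norm_num
  have h2 : -(((3 : ℕ) : ℝ) + 1) / 2 = -((2 : ℕ) : ℝ) := by norm_num
  rw [h1, h2, Real.Gamma_nat_eq_factorial, Real.rpow_neg (by norm_num), Real.rpow_natCast]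
  norm_num

theorem cap3_lintegral_norm_two (g : ℝ → ENNReal) (hg : Measurable g) :
    ∫⁻ y, g ‖y‖ ∂(stdGaussian (EuclideanSpace ℝ (Fin 2))) =
      ∫⁻ r in Set.Ioi (0 : ℝ), ENNReal.ofReal (r ^ 1 * Real.exp (-r ^ 2 / 2)) * g r := by
  obtain ⟨κ, hκ⟩ := cap3_lintegral_cone_stdGaussian (E := EuclideanSpace ℝ (Fin 2)) Set.univ
    MeasurableSet.univ (fun _ _ _ _ => trivial)
  have h1 := hκ 1 measurable_one
  have hd : Module.finrank ℝ (EuclideanSpace ℝ (Fin 2)) - 1 = 1 := by simp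
  rw [hd] at hκ h1
  simp only [Measure.restrict_univ, Pi.one_apply, mul_one] at hκ h1
  rw [cap3_lintegral_pow_one, lintegral_one, measure_univ, mul_one] at h1
  rw [hκ g hg, ← h1, one_mul]

theorem cap3_lintegral_norm_cone_three (A : Set (EuclideanSpace ℝ (Fin 3))) (hA : MeasurableSet A)
    (hcone : ∀ c : ℝ, 0 < c → ∀ x ∈ A, c • x ∈ A) :
    ∫⁻ x in A, ENNReal.ofReal ‖x‖ ∂(stdGaussian (EuclideanSpace ℝ (Fin 3))) =
      ENNReal.ofReal (2 * Real.sqrt (2 / Real.pi)) *
        stdGaussian (EuclideanSpace ℝ (Fin 3)) A := by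
  obtain ⟨κ, hκ⟩ := cap3_lintegral_cone_stdGaussian A hA hcone
  have h1 := hκ 1 measurable_one
  have h2 := hκ ENNReal.ofReal ENNReal.measurable_ofReal
  have hd : Module.finrank ℝ (EuclideanSpace ℝ (Fin 3)) - 1 = 2 := by simp
  rw [hd] at h1 h2
  simp only [Pi.one_apply, mul_one] at h1
  rw [cap3_lintegral_pow_two, lintegral_one, Measure.restrict_apply_univ] at h1
  have h3 : ∫⁻ r in Set.Ioi (0 : ℝ), ENNReal.ofReal (r ^ 2 * Real.exp (-r ^ 2 / 2)) *
      ENNReal.ofReal r = ENNReal.ofReal 2 := by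
    rw [← cap3_lintegral_pow_three]
    refine setLIntegral_congr_fun measurableSet_Ioi fun r hr => ?_
    have hr0 : (0 : ℝ) < r := hr
    rw [← ENNReal.ofReal_mul (by positivity)]
    congr 1
    ring
  rw [h2, h3, h1, mul_left_comm, ← ENNReal.ofReal_mul (by positivity)]
  congr 2
  rw [mul_assoc, ← Real.sqrt_mul (by positivity)]
  have : 2 / Real.pi * (Real.pi / 2) = 1 := by field_simp
  rw [this, Real.sqrt_one, mul_one]



theorem cap3_subst_radial (t c : ℝ) :
    ∫⁻ r in Set.Ioi (0 : ℝ), ENNReal.ofReal (r ^ 1 * Real.exp (-r ^ 2 / 2)) *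
      ENNReal.ofReal (t - c * Real.sqrt (t ^ 2 + r ^ 2)) =
    ∫⁻ s in Set.Ioi |t|, ENNReal.ofReal (s * Real.exp (-(s ^ 2 - t ^ 2) / 2)) *
      ENNReal.ofReal (t - c * s) := by
  have himg : (fun r : ℝ => Real.sqrt (t ^ 2 + r ^ 2)) '' Set.Ioi 0 = Set.Ioi |t| := by
    ext s
    constructor
    · rintro ⟨r, hr, rfl⟩
      have hr0 : (0 : ℝ) < r := hr
      show |t| < Real.sqrt (t ^ 2 + r ^ 2)
      rw [← Real.sqrt_sq_eq_abs]
      exact Real.sqrt_lt_sqrt (sq_nonneg _) (by nlinarith)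
    · intro hs
      have hs' : |t| < s := hs
      have hs0 : 0 < s := lt_of_le_of_lt (abs_nonneg _) hs'
      have h1 : t ^ 2 < s ^ 2 := by
        rw [← sq_abs t]
        exact pow_lt_pow_left₀ hs' (abs_nonneg _) two_ne_zero
      refine ⟨Real.sqrt (s ^ 2 - t ^ 2), Real.sqrt_pos.2 (by linarith), ?_⟩
      show Real.sqrt (t ^ 2 + Real.sqrt (s ^ 2 - t ^ 2) ^ 2) = s
      rw [Real.sq_sqrt (by linarith), show t ^ 2 + (s ^ 2 - t ^ 2) = s ^ 2 by ring,
        Real.sqrt_sq hs0.le]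
  have hpos : ∀ r ∈ Set.Ioi (0 : ℝ), 0 < t ^ 2 + r ^ 2 := fun r hr => by
    have hr0 : (0 : ℝ) < r := hr
    positivity
  have hder : ∀ r ∈ Set.Ioi (0 : ℝ), HasDerivWithinAt (fun r : ℝ => Real.sqrt (t ^ 2 + r ^ 2))
      (r / Real.sqrt (t ^ 2 + r ^ 2)) (Set.Ioi 0) r := by
    intro r hr
    have h1 : HasDerivAt (fun r : ℝ => t ^ 2 + r ^ 2) (2 * r) r := by
      simpa using ((hasDerivAt_pow 2 r).const_add (t ^ 2))
    have h2 := (h1.sqrt (hpos r hr).ne').hasDerivWithinAt (s := Set.Ioi 0)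
    rwa [mul_div_mul_left _ _ two_ne_zero] at h2
  have hinj : Set.InjOn (fun r : ℝ => Real.sqrt (t ^ 2 + r ^ 2)) (Set.Ioi 0) := by
    intro r hr r' hr' h
    have hr0 : (0 : ℝ) < r := hr
    have hr0' : (0 : ℝ) < r' := hr'
    have h1 : t ^ 2 + r ^ 2 = t ^ 2 + r' ^ 2 :=
      (Real.sqrt_inj (hpos r hr).le (hpos r' hr').le).1 h
    nlinarith
  rw [← himg, lintegral_image_eq_lintegral_abs_deriv_mul measurableSet_Ioi hder hinj]
  refine setLIntegral_congr_fun measurableSet_Ioi fun r hr => ?_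
  have hr0 : (0 : ℝ) < r := hr
  have hs := Real.sqrt_pos.2 (hpos r hr)
  have hsq := Real.sq_sqrt (hpos r hr).le
  rw [← mul_assoc, ← ENNReal.ofReal_mul (abs_nonneg _), abs_of_pos (by positivity)]
  congr 2
  rw [hsq]
  rw [show -(t ^ 2 + r ^ 2 - t ^ 2) / 2 = -r ^ 2 / 2 by ring]
  field_simp



theorem cap3_inner_slab {c s : ℝ} (h2 : c ≤ 1) (hs : 0 < s) :
    ∫⁻ t in {t : ℝ | |t| < s}, ENNReal.ofReal (t - c * s) ≤
      ENNReal.ofReal ((1 - c) ^ 2 * s ^ 2 / 2) := by
  have hsub : {t : ℝ | |t| < s} ⊆ Set.Iic (c * s) ∪ Set.Ioc (c * s) s := by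
    intro t ht
    have ht' : |t| < s := ht
    rcases le_or_gt t (c * s) with h | h
    · exact Or.inl h
    · exact Or.inr ⟨h, (le_abs_self t).trans ht'.le⟩
  refine (lintegral_mono_set hsub).trans ?_
  refine (lintegral_union_le _ _ _).trans ?_
  have hz : ∫⁻ t in Set.Iic (c * s), ENNReal.ofReal (t - c * s) = 0 := by
    rw [setLIntegral_congr_fun measurableSet_Iic (g := fun _ => 0)]
    · simp
    · intro t ht
      have ht' : t ≤ c * s := ht
      exact ENNReal.ofReal_of_nonpos (by linarith)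
  have hcs : c * s ≤ s := by nlinarith
  rw [hz, zero_add, ← ofReal_integral_eq_lintegral_ofReal]
  · rw [← intervalIntegral.integral_of_le hcs]
    refine ENNReal.ofReal_le_ofReal (le_of_eq ?_)
    rw [intervalIntegral.integral_sub (by simp) (by simp), integral_id,
      intervalIntegral.integral_const]
    simp only [smul_eq_mul]
    ring
  · exact (Continuous.integrableOn_Ioc (by fun_prop))
  · filter_upwards [ae_restrict_mem measurableSet_Ioc] with t ht
    have : c * s < t := ht.1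
    show (0 : ℝ) ≤ t - c * s
    linarith

theorem cap3_outer_swap {c : ℝ} (h2 : c ≤ 1) :
    ∫⁻ t : ℝ, ENNReal.ofReal (phi t) * (∫⁻ s in Set.Ioi |t|,
      ENNReal.ofReal (s * Real.exp (-(s ^ 2 - t ^ 2) / 2)) * ENNReal.ofReal (t - c * s)) ≤
      ENNReal.ofReal ((1 - c) ^ 2 / (2 * Real.sqrt (2 * Real.pi))) *
        ∫⁻ s in Set.Ioi (0 : ℝ), ENNReal.ofReal (s ^ 3 * Real.exp (-s ^ 2 / 2)) := by
  set K : ℝ × ℝ → ENNReal := fun p => ENNReal.ofReal (phi p.1) *
    (ENNReal.ofReal (p.2 * Real.exp (-(p.2 ^ 2 - p.1 ^ 2) / 2)) *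
      ENNReal.ofReal (p.1 - c * p.2)) with hK
  set D : Set (ℝ × ℝ) := {p | |p.1| < p.2} with hD
  have hDm : MeasurableSet D := measurableSet_lt (by fun_prop) (by fun_prop)
  have hphim : Measurable phi := by
    unfold phi
    fun_prop
  have hKm : Measurable K := by
    simp only [hK]
    fun_prop
  have e1 : ∀ t : ℝ, ENNReal.ofReal (phi t) * (∫⁻ s in Set.Ioi |t|,
      ENNReal.ofReal (s * Real.exp (-(s ^ 2 - t ^ 2) / 2)) * ENNReal.ofReal (t - c * s)) =
      ∫⁻ s, D.indicator K (t, s) := by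
    intro t
    rw [← lintegral_const_mul _ (by fun_prop), ← lintegral_indicator measurableSet_Ioi]
    refine lintegral_congr fun s => ?_
    by_cases h : |t| < s
    · rw [Set.indicator_of_mem (show s ∈ Set.Ioi |t| from h),
        Set.indicator_of_mem (show (t, s) ∈ D from h)]
    · rw [Set.indicator_of_notMem (show s ∉ Set.Ioi |t| from h),
        Set.indicator_of_notMem (show (t, s) ∉ D from h)]
  simp_rw [e1]
  rw [lintegral_lintegral_swap (f := fun t s => D.indicator K (t, s))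
    (hKm.indicator hDm).aemeasurable]
  have e2 : ∀ s : ℝ, ∫⁻ t, D.indicator K (t, s) ≤ (Set.Ioi (0 : ℝ)).indicator
      (fun s => ENNReal.ofReal ((1 - c) ^ 2 / (2 * Real.sqrt (2 * Real.pi))) *
        ENNReal.ofReal (s ^ 3 * Real.exp (-s ^ 2 / 2))) s := by
    intro s
    rcases le_or_gt s 0 with hs | hs
    · rw [Set.indicator_of_notMem (show s ∉ Set.Ioi (0 : ℝ) from not_lt.2 hs)]
      refine le_of_eq ?_
      rw [lintegral_eq_zero_iff' (by
        exact ((hKm.indicator hDm).comp (by fun_prop : Measurable fun t : ℝ => (t, s))).aemeasurable)]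
      filter_upwards with t
      refine Set.indicator_of_notMem ?_ _
      intro h
      have h' : |t| < s := h
      exact absurd (abs_nonneg t) (not_le.2 (h'.trans_le hs))
    · rw [Set.indicator_of_mem (show s ∈ Set.Ioi (0 : ℝ) from hs)]
      have e3 : ∀ t, D.indicator K (t, s) = {t : ℝ | |t| < s}.indicator (fun t =>
          ENNReal.ofReal (s * Real.exp (-s ^ 2 / 2) / Real.sqrt (2 * Real.pi)) *
            ENNReal.ofReal (t - c * s)) t := by
        intro t
        by_cases h : |t| < s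
        · rw [Set.indicator_of_mem (show t ∈ {t : ℝ | |t| < s} from h),
            Set.indicator_of_mem (show (t, s) ∈ D from h)]
          simp only [hK]
          rw [← mul_assoc, ← ENNReal.ofReal_mul (by unfold phi; positivity)]
          congr 2
          unfold phi
          have e4 : Real.exp (-s ^ 2 / 2) = Real.exp (-t ^ 2 / 2) *
              Real.exp (-(s ^ 2 - t ^ 2) / 2) := by
            rw [← Real.exp_add]
            congr 1
            ring
          rw [e4]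
          ring
        · rw [Set.indicator_of_notMem (show t ∉ {t : ℝ | |t| < s} from h),
            Set.indicator_of_notMem (show (t, s) ∉ D from h)]
      simp_rw [e3]
      rw [lintegral_indicator (measurableSet_lt (by fun_prop) (by fun_prop)),
        lintegral_const_mul _ (by fun_prop)]
      refine (mul_le_mul_right (cap3_inner_slab h2 hs) _).trans (le_of_eq ?_)
      rw [← ENNReal.ofReal_mul (by positivity), ← ENNReal.ofReal_mul (by positivity)]
      congr 1
      field_simp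
  refine (lintegral_mono e2).trans (le_of_eq ?_)
  rw [lintegral_indicator measurableSet_Ioi, lintegral_const_mul _ (by fun_prop)]


theorem cap3_lintegral_gaussian_eq (f : ℝ → ENNReal) (hf : Measurable f) :
    ∫⁻ t, f t ∂(gaussianReal 0 1) = ∫⁻ t, ENNReal.ofReal (phi t) * f t := by
  have hpdf : gaussianPDF 0 1 = fun t => ENNReal.ofReal (phi t) := by
    funext t
    rw [gaussianPDF, gaussianPDFReal, phi]
    congr 1
    simp only [NNReal.coe_one, mul_one, sub_zero]
    rw [mul_comm, ← div_eq_mul_inv]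
  rw [gaussianReal_of_var_ne_zero 0 one_ne_zero, hpdf]
  have hphim : Measurable fun t => ENNReal.ofReal (phi t) := by
    unfold phi
    fun_prop
  rw [lintegral_withDensity_eq_lintegral_mul _ hphim hf]
  rfl

/-- expectation of the positive part of `⟪x, u⟫ - c ‖x‖` -/
theorem cap3_lintegral_pos_part_cone {u : EuclideanSpace ℝ (Fin 3)} (hu : ‖u‖ = 1) {c : ℝ}
    (h2 : c ≤ 1) :
    ∫⁻ x, ENNReal.ofReal (⟪x, u⟫ - c * ‖x‖) ∂(stdGaussian (EuclideanSpace ℝ (Fin 3))) ≤
      ENNReal.ofReal ((1 - c) ^ 2 / Real.sqrt (2 * Real.pi)) := by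
  obtain ⟨b, hb⟩ := Orthonormal.exists_orthonormalBasis_extension_of_card_eq (𝕜 := ℝ)
    (E := EuclideanSpace ℝ (Fin 3)) (ι := Fin 3) (by simp) (v := fun _ => u) (s := {0}) (by
      rw [orthonormal_iff_ite]
      rintro ⟨i, hi⟩ ⟨j, hj⟩
      have hi' : i = 0 := hi
      have hj' : j = 0 := hj
      subst hi' hj'
      simp [Set.domRestrict, hu])
  have hb0 : b 0 = u := hb 0 rfl
  rw [stdGaussian_eq_map_pi_orthonormalBasis b, lintegral_map (by fun_prop) (by fun_prop)]
  set G : ℝ × (Fin 2 → ℝ) → ENNReal := fun p => ENNReal.ofReal (p.1 - c * Real.sqrt (p.1 ^ 2 +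
        ∑ j, p.2 j ^ 2)) with hG
  have hGm : Measurable G := by
    simp only [hG]
    fun_prop
  have e1 : ∀ y : Fin 3 → ℝ, ENNReal.ofReal (⟪∑ i, y i • b i, u⟫ - c * ‖∑ i, y i • b i‖) =
      G (MeasurableEquiv.piFinSuccAbove (fun _ => ℝ) 0 y) := by
    intro y
    have hin : ⟪∑ i, y i • b i, u⟫ = y 0 := by
      rw [← hb0, sum_inner]
      simp_rw [real_inner_smul_left, b.inner_eq_ite]
      simp
    have hno : ‖∑ i, y i • b i‖ = Real.sqrt (y 0 ^ 2 + ∑ j : Fin 2, y j.succ ^ 2) := by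
      rw [← Fin.sum_univ_succ (f := fun i => y i ^ 2), ← Real.sqrt_sq (norm_nonneg _)]
      congr 1
      rw [← b.sum_sq_inner_right]
      refine Finset.sum_congr rfl fun i _ => ?_
      rw [inner_sum]
      simp_rw [real_inner_smul_right, b.inner_eq_ite]
      simp
    rw [hin, hno]
    rfl
  rw [lintegral_congr e1,
    (measurePreserving_piFinSuccAbove (fun _ : Fin 3 => gaussianReal 0 1) 0).lintegral_comp hGm,
    lintegral_prod _ hGm.aemeasurable, cap3_lintegral_gaussian_eq _ hGm.lintegral_prod_right']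
  have e2 : ∀ t : ℝ, ∫⁻ y : Fin 2 → ℝ, G (t, y) ∂(Measure.pi fun _ => gaussianReal 0 1) =
      ∫⁻ s in Set.Ioi |t|, ENNReal.ofReal (s * Real.exp (-(s ^ 2 - t ^ 2) / 2)) *
        ENNReal.ofReal (t - c * s) := by
    intro t
    rw [← cap3_subst_radial, ← cap3_lintegral_norm_two (fun r => ENNReal.ofReal (t - c * Real.sqrt (t ^ 2 +
      r ^ 2))) (by fun_prop), ← map_pi_eq_stdGaussian, lintegral_map (by fun_prop) (by fun_prop)]
    refine lintegral_congr fun y => ?_
    rw [EuclideanSpace.real_norm_sq_eq]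
  refine le_trans (le_of_eq (lintegral_congr fun t => ?_)) ((cap3_outer_swap h2).trans (le_of_eq ?_))
  · exact congrArg (fun z => ENNReal.ofReal (phi t) * z) (e2 t)
  · rw [cap3_lintegral_pow_three, ← ENNReal.ofReal_mul (by positivity)]
    congr 1
    field_simp

theorem cap_three (A : Set (EuclideanSpace ℝ (Fin 3))) (hA : MeasurableSet A)
    (hcone : ∀ c : ℝ, 0 < c → ∀ x ∈ A, c • x ∈ A) :
    ‖∫ x in A, x ∂(stdGaussian (EuclideanSpace ℝ (Fin 3)))‖ ≤ 2 * Real.sqrt (2 / Real.pi) *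
      ((stdGaussian (EuclideanSpace ℝ (Fin 3))).real A *
        (1 - (stdGaussian (EuclideanSpace ℝ (Fin 3))).real A)) := by
  set γ := stdGaussian (EuclideanSpace ℝ (Fin 3)) with hγ
  set a : ℝ := γ.real A with ha
  have ha0 : 0 ≤ a := measureReal_nonneg
  have ha1 : a ≤ 1 := measureReal_le_one
  set z : EuclideanSpace ℝ (Fin 3) := ∫ x in A, x ∂γ with hz
  by_cases hz0 : z = 0
  · rw [hz0, norm_zero]
    exact mul_nonneg (by positivity) (mul_nonneg ha0 (by linarith))
  have hzn : ‖z‖ ≠ 0 := norm_ne_zero_iff.2 hz0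
  set u : EuclideanSpace ℝ (Fin 3) := ‖z‖⁻¹ • z with hu
  have hu1 : ‖u‖ = 1 := by
    rw [hu, norm_smul, norm_inv, norm_norm, inv_mul_cancel₀ hzn]
  have hint : Integrable (fun x : EuclideanSpace ℝ (Fin 3) => x) γ := IsGaussian.integrable_fun_id
  have hzu : ‖z‖ = ∫ x in A, ⟪x, u⟫ ∂γ := by
    have h1 : ∫ x in A, ⟪u, x⟫ ∂γ = ⟪u, z⟫ := integral_inner hint.restrict u
    have h2 : ⟪u, z⟫ = ‖z‖ := by
      rw [hu, real_inner_smul_left, real_inner_self_eq_norm_sq]
      field_simp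
    rw [← h2, ← h1]
    exact integral_congr_ae (ae_of_all _ fun x => real_inner_comm _ _)
  set c : ℝ := 1 - 2 * a with hc
  have hc2 : c ≤ 1 := by linarith
  have hi1 : Integrable (fun x => ⟪x, u⟫) γ := hint.inner_const u
  have hi2 : Integrable (fun x : EuclideanSpace ℝ (Fin 3) => ‖x‖) γ := hint.norm
  have hi3 : Integrable (fun x => ⟪x, u⟫ - c * ‖x‖) γ := hi1.sub (hi2.const_mul c)
  have hi4 : Integrable (fun x => max (⟪x, u⟫ - c * ‖x‖) 0) γ := hi3.pos_part
  have hnorm : ∫ x in A, ‖x‖ ∂γ = 2 * Real.sqrt (2 / Real.pi) * a := by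
    rw [integral_eq_lintegral_of_nonneg_ae (ae_of_all _ fun x => norm_nonneg _)
      hi2.restrict.aestronglyMeasurable, cap3_lintegral_norm_cone_three A hA hcone,
      ENNReal.toReal_mul, ENNReal.toReal_ofReal (by positivity)]
    rfl
  have hpos : ∫ x in A, (⟪x, u⟫ - c * ‖x‖) ∂γ ≤ (1 - c) ^ 2 / Real.sqrt (2 * Real.pi) := by
    calc ∫ x in A, (⟪x, u⟫ - c * ‖x‖) ∂γ ≤ ∫ x in A, max (⟪x, u⟫ - c * ‖x‖) 0 ∂γ :=
          integral_mono hi3.restrict hi4.restrict fun x => le_max_left _ _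
      _ ≤ ∫ x, max (⟪x, u⟫ - c * ‖x‖) 0 ∂γ :=
          setIntegral_le_integral hi4 (ae_of_all _ fun x => le_max_right _ _)
      _ = (∫⁻ x, ENNReal.ofReal (⟪x, u⟫ - c * ‖x‖) ∂γ).toReal := by
          rw [integral_eq_lintegral_of_nonneg_ae
            (f := fun x => max (⟪x, u⟫ - c * ‖x‖) 0) (ae_of_all _ fun x => le_max_right _ _)
            hi4.aestronglyMeasurable]
          congr 1
          refine lintegral_congr fun x => ?_
          rcases le_total (⟪x, u⟫ - c * ‖x‖) 0 with h | h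
          · rw [max_eq_right h, ENNReal.ofReal_of_nonpos h, ENNReal.ofReal_zero]
          · rw [max_eq_left h]
      _ ≤ (ENNReal.ofReal ((1 - c) ^ 2 / Real.sqrt (2 * Real.pi))).toReal :=
          ENNReal.toReal_mono ENNReal.ofReal_ne_top (cap3_lintegral_pos_part_cone hu1 hc2)
      _ = (1 - c) ^ 2 / Real.sqrt (2 * Real.pi) := ENNReal.toReal_ofReal (by positivity)
  have hsplit : ∫ x in A, ⟪x, u⟫ ∂γ = ∫ x in A, (⟪x, u⟫ - c * ‖x‖) ∂γ + c * ∫ x in A, ‖x‖ ∂γ := by
    rw [integral_sub hi1.restrict (hi2.const_mul c).restrict, integral_const_mul]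
    ring
  have hs : 1 / Real.sqrt (2 * Real.pi) = Real.sqrt (2 / Real.pi) / 2 := by
    have h1 : Real.sqrt (2 * Real.pi) * Real.sqrt (2 / Real.pi) = 2 := by
      rw [← Real.sqrt_mul (by positivity), show 2 * Real.pi * (2 / Real.pi) = 2 ^ 2 by
        field_simp]
      exact Real.sqrt_sq (by norm_num)
    have h2 : Real.sqrt (2 * Real.pi) ≠ 0 := by positivity
    rw [div_eq_div_iff h2 two_ne_zero]
    linarith
  rw [hzu, hsplit, hnorm]
  have e1 : (1 - c) ^ 2 / Real.sqrt (2 * Real.pi) = (2 * a) ^ 2 * (Real.sqrt (2 / Real.pi) / 2) := by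
    rw [← hs, hc]
    ring
  rw [e1] at hpos
  calc _ ≤ (2 * a) ^ 2 * (Real.sqrt (2 / Real.pi) / 2) +
        c * (2 * Real.sqrt (2 / Real.pi) * a) := by linarith
    _ = 2 * Real.sqrt (2 / Real.pi) * (a * (1 - a)) := by
        rw [hc]
        ring

end Vale.Agent.P226
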