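import Vale.Agent.Lib.P226.CoverAngle

/-!
P226, job J9b (Cover.lean).  Geometry turning `Crit.angle_cover` into an explicit inequality.

Let `B = {j, l, m}` with `(j,l)` the pair minimising `|⟪·,·⟫|`, `S` the complement,
`V = ∑_{i ∈ S} v i`, `n = v j - v l`, `L = ‖n‖`, `P` the projection along `n`,
`f = P (v j) = P (v l)`, `ρ = ‖f‖`.  All inner products of distinct `v`'s are negative, `∑ v = 0`.
* `f` is a convex combination of `v j, v l`, so `⟪f, v i⟫ ≤ 0` for `i ≠ j, l`.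
* for `i ∈ S`: `angle f (f - P v i) ≤ arctan (‖v i‖/ρ)`.
* `P (v j - v m) = f - P v m = 3 f + P V`, so
  `angle f (f - P v m) ≤ arcsin (‖V‖/(3ρ))` provided `‖V‖ ≤ 3ρ`; `‖V‖² ≤ ∑_{S} ‖v i‖²`.
* `L² = ‖v j‖² + ‖v l‖² + 2G` with `G = -⟪v j,v l⟫ > 0`, `2G ≤ ‖v m‖²`.
* `ρ² ≥ L²/12`.
-/

open MeasureTheory ProbabilityTheory Filter
open scoped RealInnerProductSpace Topology

namespace Vale.Agent.P226

variable {E : Type*} [NormedAddCommGroup E] [InnerProductSpace ℝ E]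

theorem cover_cos_le_angle {f x : E} {θ : ℝ} (h0 : 0 ≤ θ) (hπ : θ ≤ Real.pi)
    (h : Real.cos θ * (‖f‖ * ‖x‖) ≤ ⟪f, x⟫) (hf : f ≠ 0) (hx : x ≠ 0) :
    InnerProductGeometry.angle f x ≤ θ := by
  unfold InnerProductGeometry.angle
  rw [← Real.arccos_cos h0 hπ]
  apply Real.arccos_le_arccos
  have h1 : 0 < ‖f‖ * ‖x‖ := mul_pos (norm_pos_iff.mpr hf) (norm_pos_iff.mpr hx)
  rw [le_div_iff₀ h1]
  exact h

theorem cover_angle_arctan {f x : E} {w : ℝ} (hf : f ≠ 0) (hw : 0 ≤ w)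
    (h1 : ‖f‖ ^ 2 ≤ ⟪f, x⟫) (h2 : ‖x‖ ^ 2 * ‖f‖ ^ 2 ≤ ⟪f, x⟫ ^ 2 + ‖f‖ ^ 2 * w ^ 2) :
    InnerProductGeometry.angle f x ≤ Real.arctan (w / ‖f‖) := by
  have hf0 : 0 < ‖f‖ := norm_pos_iff.mpr hf
  have hin : 0 < ⟪f, x⟫ := lt_of_lt_of_le (by positivity) h1
  have hx : x ≠ 0 := by
    rintro rfl
    simp at hin
  have hc : 0 ≤ w / ‖f‖ := by positivity
  refine cover_cos_le_angle (Real.arctan_nonneg.mpr hc)
    ((Real.arctan_lt_pi_div_two _).le.trans (by linarith [Real.pi_pos])) ?_ hf hx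
  rw [Real.cos_arctan]
  have hs : 0 < 1 + (w / ‖f‖) ^ 2 := by positivity
  have hsq : 0 < Real.sqrt (1 + (w / ‖f‖) ^ 2) := Real.sqrt_pos.mpr hs
  rw [div_mul_eq_mul_div, one_mul, div_le_iff₀ hsq]
  refine abs_le_of_sq_le_sq' ?_ (by positivity) |>.2
  rw [mul_pow, mul_pow, Real.sq_sqrt hs.le]
  have e : ⟪f, x⟫ ^ 2 * (1 + (w / ‖f‖) ^ 2) = ⟪f, x⟫ ^ 2 + (⟪f, x⟫ / ‖f‖) ^ 2 * w ^ 2 := by
    field_simp
  rw [e]
  have h3 : ‖f‖ ≤ ⟪f, x⟫ / ‖f‖ := by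
    rw [le_div_iff₀ hf0]; linarith [sq (‖f‖)]
  have h4 : ‖f‖ ^ 2 ≤ (⟪f, x⟫ / ‖f‖) ^ 2 := pow_le_pow_left₀ hf0.le h3 2
  have h5 : ‖f‖ ^ 2 * w ^ 2 ≤ (⟪f, x⟫ / ‖f‖) ^ 2 * w ^ 2 :=
    mul_le_mul_of_nonneg_right h4 (by positivity)
  linarith

theorem cover_angle_arcsin {f u : E} {c : ℝ} (hf : f ≠ 0) (hc : 0 < c) (hu : ‖u‖ < c * ‖f‖) :
    InnerProductGeometry.angle f (c • f + u) ≤ Real.arcsin (‖u‖ / (c * ‖f‖)) := by
  have hf0 : 0 < ‖f‖ := norm_pos_iff.mpr hf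
  have hcf : 0 < c * ‖f‖ := by positivity
  have hy0 : 0 ≤ ‖u‖ / (c * ‖f‖) := by positivity
  have hy1 : ‖u‖ / (c * ‖f‖) ≤ 1 := by rw [div_le_one hcf]; exact hu.le
  have hg : |⟪f, u⟫| ≤ ‖f‖ * ‖u‖ := abs_real_inner_le_norm f u
  have hg1 := neg_abs_le ⟪f, u⟫
  have hfx : ⟪f, c • f + u⟫ = c * ‖f‖ ^ 2 + ⟪f, u⟫ := by
    rw [inner_add_right, inner_smul_right, real_inner_self_eq_norm_sq]
  have hpos : 0 < ⟪f, c • f + u⟫ := by
    rw [hfx]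
    have : ‖f‖ * ‖u‖ < ‖f‖ * (c * ‖f‖) := mul_lt_mul_of_pos_left hu hf0
    nlinarith
  have hx : c • f + u ≠ 0 := by
    intro h0
    rw [h0, inner_zero_right] at hpos
    exact lt_irrefl _ hpos
  refine cover_cos_le_angle (Real.arcsin_nonneg.mpr hy0)
    ((Real.arcsin_le_pi_div_two _).trans (by linarith [Real.pi_pos])) ?_ hf hx
  rw [Real.cos_arcsin]
  refine abs_le_of_sq_le_sq' ?_ hpos.le |>.2
  have h1 : 0 ≤ 1 - (‖u‖ / (c * ‖f‖)) ^ 2 := by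
    have := pow_le_one₀ (n := 2) hy0 hy1
    linarith
  rw [mul_pow, mul_pow, Real.sq_sqrt h1, hfx]
  have hnx : ‖c • f + u‖ ^ 2 = c ^ 2 * ‖f‖ ^ 2 + 2 * c * ⟪f, u⟫ + ‖u‖ ^ 2 := by
    rw [norm_add_sq_real, norm_smul, inner_smul_left, Real.norm_eq_abs, mul_pow, sq_abs]
    simp only [conj_trivial]
    ring
  rw [hnx]
  have hfne : ‖f‖ ≠ 0 := hf0.ne'
  have e : (1 - (‖u‖ / (c * ‖f‖)) ^ 2) * (‖f‖ ^ 2 * (c ^ 2 * ‖f‖ ^ 2 + 2 * c * ⟪f, u⟫ + ‖u‖ ^ 2)) =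
      (c * ‖f‖ ^ 2 + ⟪f, u⟫) ^ 2 - (⟪f, u⟫ + ‖u‖ ^ 2 / c) ^ 2 := by
    field_simp
    ring
  rw [e]
  have := sq_nonneg (⟪f, u⟫ + ‖u‖ ^ 2 / c)
  linarith

theorem cover_angle_arcsin' {f u : E} {c : ℝ} (hf : f ≠ 0) (hc : 0 < c) (hu : ‖u‖ ≤ c * ‖f‖) :
    InnerProductGeometry.angle f (c • f + u) ≤ Real.arcsin (‖u‖ / (c * ‖f‖)) := by
  rcases lt_or_eq_of_le hu with h | h
  · exact cover_angle_arcsin hf hc h
  · have hf0 : 0 < ‖f‖ := norm_pos_iff.mpr hf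
    have hcf : 0 < c * ‖f‖ := by positivity
    rw [h, div_self hcf.ne', Real.arcsin_one]
    unfold InnerProductGeometry.angle
    rw [Real.arccos_le_pi_div_two]
    have hg : |⟪f, u⟫| ≤ ‖f‖ * ‖u‖ := abs_real_inner_le_norm f u
    have hg1 := neg_abs_le ⟪f, u⟫
    rw [h] at hg
    have hfx : ⟪f, c • f + u⟫ = c * ‖f‖ ^ 2 + ⟪f, u⟫ := by
      rw [inner_add_right, inner_smul_right, real_inner_self_eq_norm_sq]
    refine div_nonneg ?_ (by positivity)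
    rw [hfx]
    nlinarith

theorem cover_rho_real {p q G : ℝ} (hG : 0 ≤ G) (h1 : 2 * G ≤ p) (h2 : 2 * G ≤ q)
    (h3 : p ≤ 5 * q) (h4 : q ≤ 5 * p) : (p + q + 2 * G) ^ 2 ≤ 12 * (p * q - G ^ 2) := by
  rcases le_total q p with h | h
  · nlinarith [mul_nonneg (sub_nonneg.mpr h) (sub_nonneg.mpr h3), mul_nonneg hG (sub_nonneg.mpr h2),
      mul_nonneg (sub_nonneg.mpr h2) (sub_nonneg.mpr h),
      mul_nonneg (sub_nonneg.mpr h) hG]
  · nlinarith [mul_nonneg (sub_nonneg.mpr h) (sub_nonneg.mpr h4), mul_nonneg hG (sub_nonneg.mpr h1),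
      mul_nonneg (sub_nonneg.mpr h1) (sub_nonneg.mpr h),
      mul_nonneg (sub_nonneg.mpr h) hG]

/-- the projection along `n` -/
noncomputable def cproj (n u : E) : E := u - (⟪n, u⟫ / ‖n‖ ^ 2) • n

theorem inner_cproj {n : E} (hn : n ≠ 0) (u : E) : ⟪n, cproj n u⟫ = 0 := by
  have : ‖n‖ ≠ 0 := norm_ne_zero_iff.mpr hn
  unfold cproj
  rw [inner_sub_right, inner_smul_right, real_inner_self_eq_norm_sq]
  field_simp
  ring

theorem inner_cproj_right {n : E} (hn : n ≠ 0) (u w : E) :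
    ⟪cproj n w, cproj n u⟫ = ⟪cproj n w, u⟫ := by
  have h := inner_cproj hn w
  conv_lhs => rw [cproj.eq_def n u]
  rw [inner_sub_right, inner_smul_right, real_inner_comm n (cproj n w), h, mul_zero, sub_zero]

theorem norm_cproj_le {n : E} (hn : n ≠ 0) (u : E) : ‖cproj n u‖ ≤ ‖u‖ := by
  have h1 : ‖cproj n u‖ ^ 2 = ⟪cproj n u, u⟫ := by
    rw [← real_inner_self_eq_norm_sq]; exact inner_cproj_right hn u u
  have h2 : ⟪cproj n u, u⟫ ≤ ‖cproj n u‖ * ‖u‖ := real_inner_le_norm _ _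
  rcases eq_or_ne (‖cproj n u‖) 0 with h | h
  · rw [h]; exact norm_nonneg u
  · have h3 : 0 < ‖cproj n u‖ := lt_of_le_of_ne (norm_nonneg _) (Ne.symm h)
    have h4 : ‖cproj n u‖ * ‖cproj n u‖ ≤ ‖cproj n u‖ * ‖u‖ := by
      rw [← sq, h1]; exact h2
    exact le_of_mul_le_mul_left h4 h3

theorem cproj_sub (n u w : E) : cproj n (u - w) = cproj n u - cproj n w := by
  unfold cproj
  rw [inner_sub_right, sub_div, sub_smul]
  abel

theorem cproj_add (n u w : E) : cproj n (u + w) = cproj n u + cproj n w := by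
  unfold cproj
  rw [inner_add_right, add_div, add_smul]
  abel

theorem cproj_neg (n u : E) : cproj n (-u) = -cproj n u := by
  unfold cproj
  rw [inner_neg_right, neg_div, neg_smul]
  abel

theorem cproj_self {n : E} (hn : n ≠ 0) : cproj n n = 0 := by
  have : ‖n‖ ≠ 0 := norm_ne_zero_iff.mpr hn
  unfold cproj
  rw [real_inner_self_eq_norm_sq, div_self (pow_ne_zero 2 this), one_smul, sub_self]

end Vale.Agent.P226

namespace Vale.Agent.P226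

variable {E : Type*} [NormedAddCommGroup E] [InnerProductSpace ℝ E]
  [FiniteDimensional ℝ E] [MeasurableSpace E] [BorelSpace E]

theorem cover_norm_ge {ι : Type} [Fintype ι] [DecidableEq ι] {v : ι → E} {r : ℝ} (h : Crit v r)
    {a b c : ι} (hab : a ≠ b) (hac : a ≠ c) (hbc : b ≠ c) :
    -⟪v a, v b⟫ - ⟪v a, v c⟫ ≤ ‖v a‖ ^ 2 := by
  have h0 : ∑ i, ⟪v a, v i⟫ = 0 := by rw [← inner_sum, h.sum_zero, inner_zero_right]
  have h1 : ∑ i ∈ Finset.univ \ {a, b, c}, ⟪v a, v i⟫ ≤ 0 := by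
    apply Finset.sum_nonpos
    intro i hi
    rw [Finset.mem_sdiff] at hi
    have : a ≠ i := by
      rintro rfl
      exact hi.2 (by simp)
    exact (h.neg a i this).le
  have h2 := Finset.sum_sdiff (f := fun i => ⟪v a, v i⟫) (Finset.subset_univ ({a, b, c} : Finset ι))
  have h3 : ∑ i ∈ ({a, b, c} : Finset ι), ⟪v a, v i⟫ = ⟪v a, v a⟫ + (⟪v a, v b⟫ + ⟪v a, v c⟫) := by
    rw [Finset.sum_insert (by simp [hab, hac]), Finset.sum_insert (by simp [hbc]),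
      Finset.sum_singleton]
  rw [h3, h0, real_inner_self_eq_norm_sq] at h2
  linarith

theorem cover_norm_sum {ι : Type} [Fintype ι] [DecidableEq ι] {v : ι → E} {r : ℝ} (h : Crit v r)
    (S : Finset ι) : ‖∑ i ∈ S, v i‖ ^ 2 ≤ ∑ i ∈ S, ‖v i‖ ^ 2 := by
  rw [← real_inner_self_eq_norm_sq, sum_inner]
  refine Finset.sum_le_sum (fun i hi => ?_)
  rw [inner_sum, ← Finset.add_sum_erase S _ hi, real_inner_self_eq_norm_sq]
  have : ∑ x ∈ S.erase i, ⟪v i, v x⟫ ≤ 0 := by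
    apply Finset.sum_nonpos
    intro x hx
    exact (h.neg i x (Finset.ne_of_mem_erase hx).symm).le
  linarith

theorem cover_angS {f n w a : E} (hn0 : n ≠ 0) (hf : f = cproj n a) (hf0 : f ≠ 0)
    (hLf : ‖n‖ ≤ 2 * Real.sqrt 3 * ‖f‖) (h1 : ⟪f, w⟫ ≤ 0) :
    InnerProductGeometry.angle f (cproj n (a - w)) ≤
      Real.arctan (2 * Real.sqrt 3 * ‖w‖ / ‖n‖) := by
  have hfpos : 0 < ‖f‖ := norm_pos_iff.mpr hf0
  have hLpos : 0 < ‖n‖ := norm_pos_iff.mpr hn0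
  rw [cproj_sub, ← hf]
  have h2 : ⟪f, cproj n w⟫ = ⟪f, w⟫ := by rw [hf]; exact inner_cproj_right hn0 _ _
  have h3 := norm_cproj_le hn0 w
  have hin : ⟪f, f - cproj n w⟫ = ‖f‖ ^ 2 - ⟪f, w⟫ := by
    rw [inner_sub_right, real_inner_self_eq_norm_sq, h2]
  refine (cover_angle_arctan (w := ‖w‖) hf0 (norm_nonneg _) ?_ ?_).trans ?_
  · rw [hin]; linarith
  · rw [hin, norm_sub_sq_real, h2]
    have h4 : ‖cproj n w‖ ^ 2 ≤ ‖w‖ ^ 2 := pow_le_pow_left₀ (norm_nonneg _) h3 2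
    have h5 : ‖cproj n w‖ ^ 2 * ‖f‖ ^ 2 ≤ ‖w‖ ^ 2 * ‖f‖ ^ 2 :=
      mul_le_mul_of_nonneg_right h4 (by positivity)
    nlinarith [sq_nonneg ⟪f, w⟫]
  · apply Real.arctan_strictMono.monotone
    rw [div_le_div_iff₀ hfpos hLpos]
    have := mul_le_mul_of_nonneg_left hLf (norm_nonneg w)
    linarith

theorem cover_angm {f n V : E} {T : ℝ} (hn0 : n ≠ 0) (hf0 : f ≠ 0)
    (hLf : ‖n‖ ≤ 2 * Real.sqrt 3 * ‖f‖) (hL : ‖n‖ ^ 2 ≤ 12 * ‖f‖ ^ 2) (hV : ‖V‖ ^ 2 ≤ T)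
    (hT : 4 * T ≤ 3 * ‖n‖ ^ 2) :
    InnerProductGeometry.angle f ((3:ℝ) • f + cproj n V) ≤
      Real.arcsin (2 * Real.sqrt T / (Real.sqrt 3 * ‖n‖)) := by
  have hfpos : 0 < ‖f‖ := norm_pos_iff.mpr hf0
  have hLpos : 0 < ‖n‖ := norm_pos_iff.mpr hn0
  have h3 := norm_cproj_le hn0 V
  have hVs : ‖V‖ ≤ Real.sqrt T := Real.le_sqrt_of_sq_le hV
  have hVf : ‖cproj n V‖ ≤ 3 * ‖f‖ := by
    refine h3.trans (abs_le_of_sq_le_sq' ?_ (by positivity) |>.2)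
    rw [mul_pow]
    linarith
  refine (cover_angle_arcsin' hf0 (by norm_num) hVf).trans ?_
  apply Real.monotone_arcsin
  have hs3 : 0 < Real.sqrt 3 := Real.sqrt_pos.mpr (by norm_num)
  rw [div_le_div_iff₀ (by positivity) (by positivity)]
  have h6 : ‖cproj n V‖ ≤ Real.sqrt T := h3.trans hVs
  have h8 : Real.sqrt 3 * Real.sqrt 3 = 3 := Real.mul_self_sqrt (by norm_num)
  have h9 : Real.sqrt 3 * ‖n‖ ≤ 6 * ‖f‖ := by
    have h7 := mul_le_mul_of_nonneg_left hLf hs3.le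
    have h10 : Real.sqrt 3 * (2 * Real.sqrt 3 * ‖f‖) = 6 * ‖f‖ := by
      rw [show Real.sqrt 3 * (2 * Real.sqrt 3 * ‖f‖) = (Real.sqrt 3 * Real.sqrt 3) * (2 * ‖f‖) by ring,
        h8]
      ring
    linarith
  calc ‖cproj n V‖ * (Real.sqrt 3 * ‖n‖) ≤ Real.sqrt T * (6 * ‖f‖) :=
        mul_le_mul h6 h9 (by positivity) (Real.sqrt_nonneg _)
    _ = 2 * Real.sqrt T * (3 * ‖f‖) := by ring

/-- the foot of the perpendicular -/
theorem cover_foot {a b : E} {G : ℝ} (hG : G = -⟪a, b⟫) (hGpos : 0 < G)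
    (hp2 : 2 * G ≤ ‖a‖ ^ 2) (hq2 : 2 * G ≤ ‖b‖ ^ 2) (h5 : ‖a‖ ^ 2 ≤ 5 * ‖b‖ ^ 2)
    (h5' : ‖b‖ ^ 2 ≤ 5 * ‖a‖ ^ 2) :
    ‖a - b‖ ^ 2 = ‖a‖ ^ 2 + ‖b‖ ^ 2 + 2 * G ∧ 0 < ‖a - b‖ ∧
    ‖a - b‖ ^ 2 ≤ 12 * ‖cproj (a - b) a‖ ^ 2 ∧
    ‖a - b‖ ≤ 2 * Real.sqrt 3 * ‖cproj (a - b) a‖ ∧ cproj (a - b) a ≠ 0 ∧
    cproj (a - b) b = cproj (a - b) a ∧
    ∀ u, ⟪a, u⟫ ≤ 0 → ⟪b, u⟫ ≤ 0 → ⟪cproj (a - b) a, u⟫ ≤ 0 := by
  have hL2 : ‖a - b‖ ^ 2 = ‖a‖ ^ 2 + ‖b‖ ^ 2 + 2 * G := by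
    rw [norm_sub_sq_real, hG]; ring
  have hLpos : 0 < ‖a - b‖ := by
    rcases lt_or_eq_of_le (norm_nonneg (a - b)) with h' | h'
    · exact h'
    · exfalso
      rw [← h'] at hL2
      nlinarith
  have hn0 : a - b ≠ 0 := norm_pos_iff.mp hLpos
  have hL20 : 0 < ‖a - b‖ ^ 2 := by positivity
  have hfl : cproj (a - b) b = cproj (a - b) a := by
    have h1 := cproj_sub (a - b) a b
    rw [cproj_self hn0] at h1
    exact (sub_eq_zero.mp h1.symm).symm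
  have hnj : ⟪a - b, a⟫ = ‖a‖ ^ 2 + G := by
    rw [inner_sub_left, real_inner_self_eq_norm_sq, real_inner_comm, hG]; ring
  have hfin : ∀ u, ⟪cproj (a - b) a, u⟫ = ⟪a, u⟫ - (‖a‖ ^ 2 + G) / ‖a - b‖ ^ 2 * ⟪a - b, u⟫ := by
    intro u
    rw [cproj, inner_sub_left (𝕜 := ℝ) a, inner_smul_left, hnj]
    simp only [conj_trivial]
  have hρ : ‖cproj (a - b) a‖ ^ 2 = ‖a‖ ^ 2 - (‖a‖ ^ 2 + G) ^ 2 / ‖a - b‖ ^ 2 := by
    rw [← real_inner_self_eq_norm_sq (cproj (a - b) a), inner_cproj_right hn0, hfin, hnj,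
      real_inner_self_eq_norm_sq]
    ring
  have hρ2 : ‖cproj (a - b) a‖ ^ 2 * ‖a - b‖ ^ 2 = ‖a‖ ^ 2 * ‖b‖ ^ 2 - G ^ 2 := by
    rw [hρ, sub_mul, div_mul_cancel₀ _ hL20.ne', hL2]; ring
  have hρL : ‖a - b‖ ^ 2 ≤ 12 * ‖cproj (a - b) a‖ ^ 2 := by
    have h1 := cover_rho_real hGpos.le hp2 hq2 h5 h5'
    rw [← hL2, ← hρ2] at h1
    have h2 : ‖a - b‖ ^ 2 * ‖a - b‖ ^ 2 ≤ 12 * ‖cproj (a - b) a‖ ^ 2 * ‖a - b‖ ^ 2 := by
      rw [← sq]; linarith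
    exact le_of_mul_le_mul_right h2 hL20
  have hf2 : 0 < ‖cproj (a - b) a‖ ^ 2 := by linarith
  refine ⟨hL2, hLpos, hρL, ?_, ?_, hfl, ?_⟩
  · refine abs_le_of_sq_le_sq' ?_ (by positivity) |>.2
    rw [mul_pow, mul_pow, Real.sq_sqrt (by norm_num)]
    linarith
  · intro h0
    rw [h0, norm_zero] at hf2
    simp at hf2
  · intro u h1 h2
    rw [hfin, inner_sub_left]
    have s0 : 0 ≤ (‖a‖ ^ 2 + G) / ‖a - b‖ ^ 2 := by positivity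
    have s1 : (‖a‖ ^ 2 + G) / ‖a - b‖ ^ 2 ≤ 1 := by
      rw [div_le_one hL20, hL2]
      linarith
    nlinarith

theorem cover_third {f n a b m V : E} (hf : f = cproj n a) (hfl : cproj n b = f)
    (hsum : a + (b + m) + V = 0) : cproj n (a - m) = (3:ℝ) • f + cproj n V := by
  have e1 : a - m = a + (a + b + V) := by
    have : m = -(a + b + V) := by
      rw [eq_neg_iff_add_eq_zero, ← hsum]; abel
    rw [this]; abel
  rw [e1, cproj_add, cproj_add, cproj_add, hfl, ← hf]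
  module

theorem cover_set {ι : Type} [Fintype ι] [DecidableEq ι] {j l m : ι} (hjm : j ≠ m) (hlm : l ≠ m) :
    (Finset.univ \ {j, l} : Finset ι) = insert m (Finset.univ \ {j, l, m}) := by
  ext i
  simp only [Finset.mem_sdiff, Finset.mem_univ, Finset.mem_insert, Finset.mem_singleton,
    true_and]
  constructor
  · intro hi
    by_cases him : i = m
    · exact Or.inl him
    · exact Or.inr (by tauto)
  · rintro (rfl | hi)
    · intro h'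
      rcases h' with h' | h'
      · exact hjm h'.symm
      · exact hlm h'.symm
    · tauto

theorem crit_cover_aux {ι : Type} [Fintype ι] [DecidableEq ι] {v : ι → E} {r : ℝ} (h : Crit v r)
    {j l m : ι} (hjl : j ≠ l) (hjm : j ≠ m) (hlm : l ≠ m)
    (hm1 : -⟪v j, v l⟫ ≤ -⟪v j, v m⟫) (hm2 : -⟪v j, v l⟫ ≤ -⟪v l, v m⟫)
    (h5 : ‖v j‖ ^ 2 ≤ 5 * ‖v l‖ ^ 2) (h5' : ‖v l‖ ^ 2 ≤ 5 * ‖v j‖ ^ 2) :
    ∃ L : ℝ, 0 < L ∧ ‖v j‖ ^ 2 + ‖v l‖ ^ 2 ≤ L ^ 2 ∧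
      L ^ 2 ≤ ∑ i ∈ ({j, l, m} : Finset ι), ‖v i‖ ^ 2 ∧
      (4 * ∑ i ∈ Finset.univ \ {j, l, m}, ‖v i‖ ^ 2 ≤ 3 * L ^ 2 →
      Real.pi * (1 - 3 * r * L / Fintype.card ι) ≤
        Real.arcsin (2 * Real.sqrt (∑ i ∈ Finset.univ \ {j, l, m}, ‖v i‖ ^ 2) /
          (Real.sqrt 3 * L)) +
        ∑ i ∈ Finset.univ \ {j, l, m}, Real.arctan (2 * Real.sqrt 3 * ‖v i‖ / L)) := by
  have hGpos : 0 < -⟪v j, v l⟫ := by
    have := h.neg j l hjl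
    linarith
  have hp2 : 2 * (-⟪v j, v l⟫) ≤ ‖v j‖ ^ 2 := by
    have := cover_norm_ge h hjl hjm hlm
    linarith
  have hq2 : 2 * (-⟪v j, v l⟫) ≤ ‖v l‖ ^ 2 := by
    have h1 := cover_norm_ge h (Ne.symm hjl) hlm hjm
    rw [real_inner_comm] at h1
    linarith
  have hm2' : 2 * (-⟪v j, v l⟫) ≤ ‖v m‖ ^ 2 := by
    have h1 := cover_norm_ge h (Ne.symm hjm) (Ne.symm hlm) hjl
    rw [real_inner_comm (v j) (v m), real_inner_comm (v l) (v m)] at h1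
    linarith
  obtain ⟨hL2, hLpos, hρL, hLf, hf0, hfl, hneg⟩ := cover_foot rfl hGpos hp2 hq2 h5 h5'
  have hn0 : v j - v l ≠ 0 := norm_pos_iff.mp hLpos
  refine ⟨‖v j - v l‖, hLpos, ?_, ?_, ?_⟩
  · rw [hL2]; linarith
  · rw [Finset.sum_insert (by simp [hjl, hjm]), Finset.sum_insert (by simp [hlm]),
      Finset.sum_singleton, hL2]
    linarith
  intro hS
  have hVT : ‖∑ i ∈ Finset.univ \ {j, l, m}, v i‖ ^ 2 ≤
      ∑ i ∈ Finset.univ \ {j, l, m}, ‖v i‖ ^ 2 := cover_norm_sum h _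
  have hsum : v j + (v l + v m) + ∑ i ∈ Finset.univ \ {j, l, m}, v i = 0 := by
    have h2 := Finset.sum_sdiff (f := fun i => v i) (Finset.subset_univ ({j, l, m} : Finset ι))
    rw [h.sum_zero, Finset.sum_insert (by simp [hjl, hjm]), Finset.sum_insert (by simp [hlm]),
      Finset.sum_singleton] at h2
    rw [← h2]; abel
  refine (h.angle_cover hjl).trans ?_
  have hmem : m ∉ (Finset.univ \ {j, l, m} : Finset ι) := by simp
  rw [cover_set hjm hlm, Finset.sum_insert hmem]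
  refine add_le_add ?_ (Finset.sum_le_sum (fun i hi => ?_))
  · have := cover_angm hn0 hf0 hLf hρL hVT hS
    rw [← cover_third rfl hfl hsum] at this
    exact this
  · rw [Finset.mem_sdiff] at hi
    have hij : i ≠ j := by rintro rfl; exact hi.2 (by simp)
    have hil : i ≠ l := by rintro rfl; exact hi.2 (by simp)
    exact cover_angS hn0 rfl hf0 hLf
      (hneg _ (h.neg j i (Ne.symm hij)).le (h.neg l i (Ne.symm hil)).le)

theorem crit_cover {ι : Type} [Fintype ι] [DecidableEq ι] {v : ι → E} {r : ℝ} (h : Crit v r)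
    {B : Finset ι} (hB : B.card = 3) (h5 : ∀ i ∈ B, ∀ j ∈ B, ‖v i‖ ^ 2 ≤ 5 * ‖v j‖ ^ 2) :
    ∃ j ∈ B, ∃ l ∈ B, j ≠ l ∧ ∃ L : ℝ, 0 < L ∧ ‖v j‖ ^ 2 + ‖v l‖ ^ 2 ≤ L ^ 2 ∧
      L ^ 2 ≤ ∑ i ∈ B, ‖v i‖ ^ 2 ∧
      (4 * ∑ i ∈ Finset.univ \ B, ‖v i‖ ^ 2 ≤ 3 * L ^ 2 →
      Real.pi * (1 - 3 * r * L / Fintype.card ι) ≤
        Real.arcsin (2 * Real.sqrt (∑ i ∈ Finset.univ \ B, ‖v i‖ ^ 2) / (Real.sqrt 3 * L)) +
        ∑ i ∈ Finset.univ \ B, Real.arctan (2 * Real.sqrt 3 * ‖v i‖ / L)) := by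
  obtain ⟨a, b, c, hab, hac, hbc, rfl⟩ := Finset.card_eq_three.mp hB
  have ma : a ∈ ({a, b, c} : Finset ι) := by simp
  have mb : b ∈ ({a, b, c} : Finset ι) := by simp
  have mc : c ∈ ({a, b, c} : Finset ι) := by simp
  have cab := real_inner_comm (v a) (v b)
  have cac := real_inner_comm (v a) (v c)
  have cbc := real_inner_comm (v b) (v c)
  by_cases h1 : -⟪v a, v b⟫ ≤ -⟪v a, v c⟫ ∧ -⟪v a, v b⟫ ≤ -⟪v b, v c⟫
  · exact ⟨a, ma, b, mb, hab, crit_cover_aux h hab hac hbc h1.1 h1.2 (h5 a ma b mb) (h5 b mb a ma)⟩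
  · by_cases h2 : -⟪v a, v c⟫ ≤ -⟪v b, v c⟫
    · have e : ({a, b, c} : Finset ι) = {a, c, b} := by
        ext i; simp only [Finset.mem_insert, Finset.mem_singleton]; tauto
      have h3 : -⟪v a, v c⟫ ≤ -⟪v a, v b⟫ := by
        by_contra hcon
        push Not at hcon
        exact h1 ⟨by linarith, by linarith⟩
      refine ⟨a, ma, c, mc, hac, ?_⟩
      rw [e]
      exact crit_cover_aux h hac hab (Ne.symm hbc) h3 (by rw [cbc]; exact h2) (h5 a ma c mc)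
        (h5 c mc a ma)
    · push Not at h2
      have e : ({a, b, c} : Finset ι) = {b, c, a} := by
        ext i; simp only [Finset.mem_insert, Finset.mem_singleton]; tauto
      have h3 : -⟪v b, v c⟫ ≤ -⟪v a, v b⟫ := by
        by_contra hcon
        push Not at hcon
        exact h1 ⟨by linarith, by linarith⟩
      refine ⟨b, mb, c, mc, hbc, ?_⟩
      rw [e]
      exact crit_cover_aux h hbc (Ne.symm hab) (Ne.symm hac) (by rw [cab]; exact h3)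
        (by rw [cac]; exact h2.le) (h5 b mb c mc) (h5 c mc b mb)

end Vale.Agent.P226
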