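import Vale.Agent.Lib.P226.Facet
import Vale.Agent.Lib.P226.CritBasic

/-!
P226, job J9a (CoverAngle.lean).  Coverage inequality in angle form
(uses `facet_coverage`, `Crit.facet_limit`, `Crit.linearIndependent`).

For `j ≠ l` put `n = v j - v l`, `f = v j - (⟪n, v j⟫/‖n‖²) n` (foot of the origin on the line through
`v j`, `v l`), `P u = u - (⟪n,u⟫/‖n‖²) n`.  `f ≠ 0` and `P (v j - v i) ≠ 0` because three of the vectors
are independent (`card ≥ 4`).  `2π √(2π) ‖n‖ (r c0/k) = 3π r ‖n‖/k` since `√(2π) c0 = 3/2`.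
-/

open MeasureTheory ProbabilityTheory Filter
open scoped RealInnerProductSpace Topology

namespace Vale.Agent.P226

variable {E : Type*} [NormedAddCommGroup E] [InnerProductSpace ℝ E]
  [FiniteDimensional ℝ E] [MeasurableSpace E] [BorelSpace E]

theorem Crit.exists_other {ι : Type} [Fintype ι] {v : ι → E} {r : ℝ}
    (h : Crit v r) (i j l : ι) : ∃ m, i ≠ m ∧ j ≠ m ∧ l ≠ m := by
  classical
  have h1 : ({i, j, l} : Finset ι).card < (Finset.univ : Finset ι).card := by
    rw [Finset.card_univ]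
    exact lt_of_le_of_lt Finset.card_le_three (by have := h.card; omega)
  obtain ⟨m, -, hm⟩ := Finset.exists_mem_notMem_of_card_lt_card h1
  simp only [Finset.mem_insert, Finset.mem_singleton, not_or] at hm
  exact ⟨m, fun h => hm.1 h.symm, fun h => hm.2.1 h.symm, fun h => hm.2.2 h.symm⟩

theorem Crit.triple {ι : Type} [Fintype ι] {v : ι → E} {r : ℝ}
    (h : Crit v r) {i j l : ι} (hij : i ≠ j) (hil : i ≠ l) (hjl : j ≠ l) {a b c : ℝ}
    (habc : a • v i + b • v j + c • v l = 0) : a = 0 ∧ b = 0 ∧ c = 0 := by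
  obtain ⟨m, him, hjm, hlm⟩ := h.exists_other i j l
  have h1 := h.linearIndependent m
  have h2 := h1.comp ![⟨i, him⟩, ⟨j, hjm⟩, ⟨l, hlm⟩] (by
    intro x y hxy
    fin_cases x <;> fin_cases y <;> simp_all)
  rw [Fintype.linearIndependent_iff] at h2
  have h3 := h2 ![a, b, c] (by
    rw [Fin.sum_univ_three]
    simpa using habc)
  exact ⟨by simpa using h3 0, by simpa using h3 1, by simpa using h3 2⟩

theorem Crit.angle_cover {ι : Type} [Fintype ι] [DecidableEq ι] {v : ι → E} {r : ℝ}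
    (h : Crit v r) {j l : ι} (hjl : j ≠ l) :
    Real.pi * (1 - 3 * r * ‖v j - v l‖ / Fintype.card ι) ≤
      ∑ i ∈ Finset.univ \ {j, l}, InnerProductGeometry.angle
        (v j - (⟪v j - v l, v j⟫ / ‖v j - v l‖ ^ 2) • (v j - v l))
        ((v j - v i) - (⟪v j - v l, v j - v i⟫ / ‖v j - v l‖ ^ 2) • (v j - v l)) := by
  obtain ⟨m, hjm, hlm, -⟩ := h.exists_other j l l
  have hn : v j - v l ≠ 0 := by
    intro h0
    have := (h.triple hjl hjm hlm (a := 1) (b := -1) (c := 0) (by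
      simpa [sub_eq_add_neg] using h0)).1
    norm_num at this
  have hf : v j - (⟪v j - v l, v j⟫ / ‖v j - v l‖ ^ 2) • (v j - v l) ≠ 0 := by
    intro h0
    set c := ⟪v j - v l, v j⟫ / ‖v j - v l‖ ^ 2
    have := h.triple hjl hjm hlm (a := 1 - c) (b := c) (c := 0) (by
      rw [← h0]
      module)
    linarith [this.1, this.2.1]
  have hn2 : ‖v j - v l‖ ^ 2 ≠ 0 := by
    have := norm_pos_iff.mpr hn
    positivity
  have hnf : ⟪v j - v l, v j - (⟪v j - v l, v j⟫ / ‖v j - v l‖ ^ 2) • (v j - v l)⟫ = 0 := by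
    rw [inner_sub_right, inner_smul_right, real_inner_self_eq_norm_sq, div_mul_cancel₀ _ hn2,
      sub_self]
  have hq : ∀ i : {i // i ≠ j ∧ i ≠ l},
      (v j - v i) - (⟪v j - v l, v j - v i⟫ / ‖v j - v l‖ ^ 2) • (v j - v l) ≠ 0 := by
    rintro ⟨i, hij, hil⟩ h0
    simp only at h0
    set c := ⟪v j - v l, v j - v i⟫ / ‖v j - v l‖ ^ 2
    have := h.triple hjl hij.symm hil.symm (a := 1 - c) (b := c) (c := -1) (by
      rw [← h0]
      module)
    linarith [this.2.2]
  have hmain := facet_coverage hn hf hnf (fun i : {i // i ≠ j ∧ i ≠ l} => v j - v i) hq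
    (h.facet_limit hjl)
  have hsum : ∑ i : {i // i ≠ j ∧ i ≠ l}, InnerProductGeometry.angle
        (v j - (⟪v j - v l, v j⟫ / ‖v j - v l‖ ^ 2) • (v j - v l))
        ((v j - v i) - (⟪v j - v l, v j - v i⟫ / ‖v j - v l‖ ^ 2) • (v j - v l)) =
      ∑ i ∈ Finset.univ \ {j, l}, InnerProductGeometry.angle
        (v j - (⟪v j - v l, v j⟫ / ‖v j - v l‖ ^ 2) • (v j - v l))
        ((v j - v i) - (⟪v j - v l, v j - v i⟫ / ‖v j - v l‖ ^ 2) • (v j - v l)) :=
    (Finset.sum_subtype (Finset.univ \ {j, l}) (fun x => by simp)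
      (fun i => InnerProductGeometry.angle
        (v j - (⟪v j - v l, v j⟫ / ‖v j - v l‖ ^ 2) • (v j - v l))
        ((v j - v i) - (⟪v j - v l, v j - v i⟫ / ‖v j - v l‖ ^ 2) • (v j - v l)))).symm
  rw [hsum] at hmain
  have hc : Real.sqrt (2 * Real.pi) * c0 = 3 / 2 := by
    unfold c0
    have : Real.sqrt (2 * Real.pi) ≠ 0 := by positivity
    field_simp
  have h5 : 2 * Real.pi * Real.sqrt (2 * Real.pi) * ‖v j - v l‖ *
      (r * c0 / (Fintype.card ι : ℝ)) = Real.pi * (3 * r * ‖v j - v l‖ / Fintype.card ι) := by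
    calc 2 * Real.pi * Real.sqrt (2 * Real.pi) * ‖v j - v l‖ * (r * c0 / (Fintype.card ι : ℝ))
        = 2 * Real.pi * (Real.sqrt (2 * Real.pi) * c0) * ‖v j - v l‖ * r /
          (Fintype.card ι : ℝ) := by ring
      _ = Real.pi * (3 * r * ‖v j - v l‖ / Fintype.card ι) := by rw [hc]; ring
  rw [h5] at hmain
  linarith

end Vale.Agent.P226
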