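import Vale.Agent.Lib.P226.Moment

/-!
P226, job J7 (CritExists.lean).  A minimal counterexample yields a critical configuration.

Sketch.  `hval` is continuous (Lipschitz) and positively homogeneous, and translation invariant:
`hval (v + const) = hval v` (as `E x = 0`).  Let `v` maximise `hval` on the compact sphere
`∑ ‖v i‖² = 1` of `ι → E`, `λ = hval v > c0` (by homogeneity from `v₀`; `v₀ ≠ 0`), `r = λ/c0`.
Take the partition `A i = {x | i is the first index (some linear order on ι) attaining max_j ⟪v j,x⟫}`;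
`z i = ∫_{A i} x`.  Then `λ = hval v = ∑ ⟪v i, z i⟫ ≤ ‖v‖‖z‖ = ‖z‖` (norms in `⊕ E`),
and `‖z‖² = ∑ ⟪z i, z i⟫ ≤ hval z ≤ λ ‖z‖`, so `‖z‖ = λ` and equality in Cauchy-Schwarz:
`z i = λ v i`.  `∑ z i = ∫ x = 0`.
Negativity: for `i ≠ j` merge the cells `A i` and `A j`: a partition with fewer cells
has `∑ ‖z‖² ≤ c0²` (by `ih`: `∑ ‖z‖² ≤ hval z ≤ c0 ‖z‖`), while it equals `λ² + 2⟪z i, z j⟫`.
So `⟪z i, z j⟫ < 0`.  In particular the `v i` are distinct, ties have measure zero, the
open cells `cell v i` agree a.e. with the `A i`: `moment`, `sum_cell`.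
`del`: `ih` for the family `v j - mean`, `j ≠ i` (mean `= -v i/(k-1)`):
`∑_{j≠i} ‖v j + v i/(k-1)‖² = 1 - (k/(k-1)) ‖v i‖²`.
-/

open MeasureTheory ProbabilityTheory Filter
open scoped RealInnerProductSpace Topology

namespace Vale.Agent.P226

variable {E : Type*} [NormedAddCommGroup E] [InnerProductSpace ℝ E]
  [FiniteDimensional ℝ E] [MeasurableSpace E] [BorelSpace E]

namespace CritEx

omit [FiniteDimensional ℝ E] [MeasurableSpace E] [BorelSpace E] in
theorem le_mx {ι : Type*} [Finite ι] (v : ι → E) (x : E) (i : ι) :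
    ⟪v i, x⟫ ≤ ⨆ j, ⟪v j, x⟫ :=
  le_ciSup (f := fun j => ⟪v j, x⟫) (Set.finite_range _).bddAbove i

omit [FiniteDimensional ℝ E] [MeasurableSpace E] [BorelSpace E] in
theorem exists_mx {ι : Type*} [Finite ι] [Nonempty ι] (v : ι → E) (x : E) :
    ∃ i, ⟪v i, x⟫ = ⨆ j, ⟪v j, x⟫ :=
  exists_eq_ciSup_of_finite (f := fun j => ⟪v j, x⟫)

omit [FiniteDimensional ℝ E] in
theorem measurable_mx {ι : Type*} [Finite ι] (v : ι → E) :
    Measurable (fun x : E => ⨆ j, ⟪v j, x⟫) := by
  have : Countable ι := Finite.to_countable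
  exact Measurable.iSup fun i => (continuous_const.inner continuous_id).measurable

omit [FiniteDimensional ℝ E] [MeasurableSpace E] [BorelSpace E] in
theorem mx_sub_le {ι : Type*} [Fintype ι] [Nonempty ι] (v u : ι → E) (x : E) :
    (⨆ j, ⟪v j, x⟫) - (⨆ j, ⟪u j, x⟫) ≤ (∑ j, ‖v j - u j‖) * ‖x‖ := by
  obtain ⟨i, hi⟩ := exists_mx v x
  rw [← hi]
  have h1 := le_mx u x i
  have h2 : ⟪v i, x⟫ = ⟪u i, x⟫ + ⟪v i - u i, x⟫ := by rw [inner_sub_left]; ring
  have h3 : ⟪v i - u i, x⟫ ≤ ‖v i - u i‖ * ‖x‖ := real_inner_le_norm _ _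
  have h4 : ‖v i - u i‖ ≤ ∑ j, ‖v j - u j‖ :=
    Finset.single_le_sum (f := fun j => ‖v j - u j‖) (fun _ _ => norm_nonneg _)
      (Finset.mem_univ i)
  have h5 := mul_le_mul_of_nonneg_right h4 (norm_nonneg x)
  linarith

omit [FiniteDimensional ℝ E] [MeasurableSpace E] [BorelSpace E] in
theorem abs_mx_sub_le {ι : Type*} [Fintype ι] [Nonempty ι] (v u : ι → E) (x : E) :
    |(⨆ j, ⟪v j, x⟫) - (⨆ j, ⟪u j, x⟫)| ≤ (∑ j, ‖v j - u j‖) * ‖x‖ := by
  rw [abs_le]
  have h1 := mx_sub_le v u x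
  have h2 := mx_sub_le u v x
  have h3 : ∑ j, ‖u j - v j‖ = ∑ j, ‖v j - u j‖ :=
    Finset.sum_congr rfl fun j _ => norm_sub_rev _ _
  rw [h3] at h2
  constructor <;> linarith

theorem integrable_mx {ι : Type*} [Fintype ι] [Nonempty ι] (v : ι → E) :
    Integrable (fun x : E => ⨆ j, ⟪v j, x⟫) (stdGaussian E) := by
  have h0 : Integrable (fun x : E => (∑ j, ‖v j - (0 : ι → E) j‖) * ‖x‖) (stdGaussian E) :=
    (integrable_id_stdGaussian.norm).const_mul _
  refine h0.mono' (measurable_mx v).aestronglyMeasurable (ae_of_all _ fun x => ?_)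
  have h := abs_mx_sub_le v 0 x
  simpa using h

theorem abs_hval_sub_le {ι : Type*} [Fintype ι] [Nonempty ι] (v u : ι → E) :
    |hval v - hval u| ≤ (∑ j, ‖v j - u j‖) * ∫ x : E, ‖x‖ ∂(stdGaussian E) := by
  unfold hval
  rw [← integral_sub (integrable_mx v) (integrable_mx u), ← Real.norm_eq_abs,
    ← integral_const_mul]
  refine norm_integral_le_of_norm_le ((integrable_id_stdGaussian.norm).const_mul _)
    (ae_of_all _ fun x => ?_)
  rw [Real.norm_eq_abs]
  exact abs_mx_sub_le v u x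

theorem continuous_hval {ι : Type*} [Fintype ι] [Nonempty ι] :
    Continuous (fun v : ι → E => hval v) := by
  refine continuous_iff_continuousAt.2 fun u => tendsto_iff_dist_tendsto_zero.2 ?_
  have hc : Continuous (fun v : ι → E =>
      (∑ j, ‖v j - u j‖) * ∫ x : E, ‖x‖ ∂(stdGaussian E)) := by fun_prop
  have h0 := hc.tendsto u
  simp only [sub_self, norm_zero, Finset.sum_const_zero, zero_mul] at h0
  exact squeeze_zero (fun _ => dist_nonneg) (fun v => abs_hval_sub_le v u) h0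

omit [BorelSpace E] in
theorem hval_smul {ι : Type*} (v : ι → E) {t : ℝ} (ht : 0 ≤ t) :
    hval (t • v) = t * hval v := by
  unfold hval
  rw [← integral_const_mul]
  refine integral_congr_ae (ae_of_all _ fun x => ?_)
  simp only [Pi.smul_apply, inner_smul_left, conj_trivial]
  rw [Real.mul_iSup_of_nonneg ht]

theorem integral_inner' (A : Set E) (w : E) :
    ∫ x in A, ⟪w, x⟫ ∂(stdGaussian E) = ⟪w, ∫ x in A, x ∂(stdGaussian E)⟫ :=
  integral_inner (integrable_id_stdGaussian.integrableOn (s := A)) w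

theorem hval_add_const {ι : Type*} [Fintype ι] [Nonempty ι] (v : ι → E) (a : E) :
    hval (fun i => v i + a) = hval v := by
  unfold hval
  have h1 : ∀ x : E, (⨆ i, ⟪v i + a, x⟫) = (⨆ i, ⟪v i, x⟫) + ⟪a, x⟫ := by
    intro x
    simp only [inner_add_left]
    exact (ciSup_add (Set.finite_range _).bddAbove _).symm
  simp only [h1]
  have h2 : Integrable (fun x : E => ⟪a, x⟫) (stdGaussian E) :=
    integrable_id_stdGaussian.const_inner a
  rw [integral_add (integrable_mx v) h2]
  have h3 := integral_inner' (Set.univ : Set E) a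
  rw [setIntegral_univ, setIntegral_univ, integral_id_stdGaussian, inner_zero_right] at h3
  rw [h3, add_zero]

omit [BorelSpace E] in
theorem sum_integral_cells {ι : Type*} [Fintype ι] {F : Type*} [NormedAddCommGroup F]
    [NormedSpace ℝ F] (f : E → F) (hf : Integrable f (stdGaussian E)) (A : ι → Set E)
    (hA : ∀ i, MeasurableSet (A i))
    (hdisj : Pairwise (fun i j => Disjoint (A i) (A j))) (hcov : (⋃ i, A i) = Set.univ) :
    ∑ i, ∫ x in A i, f x ∂(stdGaussian E) = ∫ x, f x ∂(stdGaussian E) := by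
  rw [← setIntegral_univ (μ := stdGaussian E) (f := f), ← hcov,
    integral_iUnion_fintype hA hdisj fun i => hf.integrableOn]

theorem sum_inner_le {ι : Type*} [Fintype ι] [Nonempty ι] (u : ι → E) (A : ι → Set E)
    (hA : ∀ i, MeasurableSet (A i))
    (hdisj : Pairwise (fun i j => Disjoint (A i) (A j))) (hcov : (⋃ i, A i) = Set.univ) :
    ∑ i, ⟪u i, ∫ x in A i, x ∂(stdGaussian E)⟫ ≤ hval u := by
  unfold hval
  rw [← sum_integral_cells _ (integrable_mx u) A hA hdisj hcov]
  refine Finset.sum_le_sum fun i _ => ?_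
  rw [← integral_inner']
  exact setIntegral_mono (integrable_id_stdGaussian.const_inner (u i)).integrableOn
    (integrable_mx u).integrableOn fun x => le_mx u x i

theorem sum_inner_eq {ι : Type*} [Fintype ι] [Nonempty ι] (u : ι → E) (A : ι → Set E)
    (hA : ∀ i, MeasurableSet (A i))
    (hdisj : Pairwise (fun i j => Disjoint (A i) (A j))) (hcov : (⋃ i, A i) = Set.univ)
    (hmax : ∀ i, ∀ x ∈ A i, ∀ j, ⟪u j, x⟫ ≤ ⟪u i, x⟫) :
    ∑ i, ⟪u i, ∫ x in A i, x ∂(stdGaussian E)⟫ = hval u := by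
  unfold hval
  rw [← sum_integral_cells _ (integrable_mx u) A hA hdisj hcov]
  refine Finset.sum_congr rfl fun i _ => ?_
  rw [← integral_inner']
  refine setIntegral_congr_fun (hA i) fun x hx => ?_
  exact le_antisymm (le_mx u x i) (ciSup_le fun j => hmax i x hx j)

theorem le_sq_of_le {S c : ℝ} (hS : 0 ≤ S) (hc : 0 ≤ c) (h : S ≤ c * Real.sqrt S) :
    S ≤ c ^ 2 := by
  have h1 := Real.sq_sqrt hS
  have h2 := Real.sqrt_nonneg S
  set s := Real.sqrt S
  rcases h2.eq_or_lt with h3 | h3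
  · rw [← h1, ← h3, zero_pow two_ne_zero]; positivity
  · have : s ≤ c := by
      by_contra hcon
      push Not at hcon
      nlinarith
    nlinarith

theorem c0_pos' : 0 < c0 := by unfold c0; positivity


/-- the cells of the maximum with ties broken by an injective numbering -/
def tcell {ι : Type*} (e : ι → ℕ) (v : ι → E) (i : ι) : Set E :=
  {x | ∀ j, ⟪v j, x⟫ ≤ ⟪v i, x⟫ ∧ (e j < e i → ⟪v j, x⟫ < ⟪v i, x⟫)}

omit [FiniteDimensional ℝ E] in
theorem measurableSet_tcell {ι : Type*} [Finite ι] (e : ι → ℕ) (v : ι → E) (i : ι) :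
    MeasurableSet (tcell e v i) := by
  have hc : Countable ι := Finite.to_countable
  have hm : ∀ j, Measurable (fun x : E => ⟪v j, x⟫) := fun j =>
    (continuous_const.inner continuous_id).measurable
  have h : tcell e v i = ⋂ j, ({x | ⟪v j, x⟫ ≤ ⟪v i, x⟫} ∩
      {x | e j < e i → ⟪v j, x⟫ < ⟪v i, x⟫}) := by
    ext x
    simp only [tcell, Set.mem_iInter, Set.mem_inter_iff]
    rfl
  rw [h]
  refine MeasurableSet.iInter fun j => MeasurableSet.inter (measurableSet_le (hm j) (hm i)) ?_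
  by_cases hj : e j < e i
  · simp only [hj, forall_const]
    exact measurableSet_lt (hm j) (hm i)
  · simp only [hj, false_imp_iff]
    exact MeasurableSet.univ

omit [FiniteDimensional ℝ E] [MeasurableSpace E] [BorelSpace E] in
theorem disjoint_tcell {ι : Type*} {e : ι → ℕ} (he : Function.Injective e) (v : ι → E) :
    Pairwise (fun i j => Disjoint (tcell e v i) (tcell e v j)) := by
  intro i j hij
  rw [Set.disjoint_left]
  intro x hi hj
  rcases lt_trichotomy (e i) (e j) with h | h | h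
  · exact absurd ((hj i).2 h) (not_lt.2 (hi j).1)
  · exact hij (he h)
  · exact absurd ((hi j).2 h) (not_lt.2 (hj i).1)

omit [FiniteDimensional ℝ E] [MeasurableSpace E] [BorelSpace E] in
theorem iUnion_tcell {ι : Type*} [Finite ι] [Nonempty ι] (e : ι → ℕ) (v : ι → E) :
    (⋃ i, tcell e v i) = Set.univ := by
  classical
  rw [Set.eq_univ_iff_forall]
  intro x
  rw [Set.mem_iUnion]
  have hex : ∃ n, ∃ i, e i = n ∧ ⟪v i, x⟫ = ⨆ j, ⟪v j, x⟫ := by
    obtain ⟨i, hi⟩ := exists_mx v x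
    exact ⟨e i, i, rfl, hi⟩
  obtain ⟨i, hi, hm⟩ := Nat.find_spec hex
  refine ⟨i, fun j => ⟨?_, fun hj => ?_⟩⟩
  · rw [hm]; exact le_mx v x j
  · rcases (le_mx v x j).lt_or_eq with h | h
    · rw [hm]; exact h
    · rw [hi] at hj
      exact absurd ⟨j, rfl, h⟩ (Nat.find_min hex hj)

omit [FiniteDimensional ℝ E] [MeasurableSpace E] [BorelSpace E] in
theorem cell_subset_tcell {ι : Type*} (e : ι → ℕ) (v : ι → E) (i : ι) :
    cell v i ⊆ tcell e v i := by
  intro x hx j
  rcases eq_or_ne j i with h | h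
  · subst h
    exact ⟨le_rfl, fun h => absurd h (lt_irrefl _)⟩
  · exact ⟨(hx j h).le, fun _ => hx j h⟩

/-- hyperplanes are null sets -/
theorem hyperplane_null (u : E) (hu : u ≠ 0) :
    (stdGaussian E) {x | ⟪u, x⟫ = 0} = 0 := by
  have hn : ‖u‖ ≠ 0 := norm_ne_zero_iff.2 hu
  have h1 : ‖(‖u‖⁻¹ • u)‖ = 1 := by
    rw [norm_smul, norm_inv, norm_norm, inv_mul_cancel₀ hn]
  have h2 := map_inner_stdGaussian (E := E) (‖u‖⁻¹ • u) h1
  have h3 : {x : E | ⟪u, x⟫ = 0} = (fun x : E => ⟪‖u‖⁻¹ • u, x⟫) ⁻¹' {0} := by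
    ext x
    simp only [Set.mem_preimage, Set.mem_singleton_iff, inner_smul_left, conj_trivial,
      mul_eq_zero, inv_eq_zero]
    constructor
    · exact fun h => Or.inr h
    · exact fun h => h.resolve_left hn
  have hm : Measurable (fun x : E => ⟪‖u‖⁻¹ • u, x⟫) :=
    (continuous_const.inner continuous_id).measurable
  have hna := nullSingletonClass_gaussianReal (μ := 0) (v := 1) one_ne_zero
  rw [h3, ← Measure.map_apply hm (measurableSet_singleton _), h2]
  exact measure_singleton _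

theorem cell_ae_eq {ι : Type*} [Finite ι] (e : ι → ℕ) (v : ι → E) (i : ι)
    (hne : ∀ j, j ≠ i → v j ≠ v i) : (cell v i : Set E) =ᵐ[stdGaussian E] tcell e v i := by
  have hc : Countable ι := Finite.to_countable
  have hnull : ∀ᵐ x ∂(stdGaussian E), ∀ j, j ≠ i → ⟪v i - v j, x⟫ ≠ 0 := by
    rw [ae_all_iff]
    intro j
    by_cases hj : j = i
    · exact ae_of_all _ fun x h => absurd hj h
    · have h := hyperplane_null (v i - v j) (sub_ne_zero.2 (hne j hj).symm)
      have h' : ∀ᵐ x ∂(stdGaussian E), ⟪v i - v j, x⟫ ≠ 0 := by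
        rw [ae_iff]
        simpa using h
      filter_upwards [h'] with x hx _
      exact hx
  filter_upwards [hnull] with x hx
  refine propext ⟨fun h => cell_subset_tcell e v i h, fun h j hj => ?_⟩
  refine lt_of_le_of_ne (h j).1 fun heq => hx j hj ?_
  rw [inner_sub_left, heq, sub_self]

end CritEx

open CritEx

/-- partition form from the `hval` form: `∑ ‖z i‖² ≤ hval z ≤ c0 √(∑ ‖z i‖²)` -/
theorem partition_of_hval {ι : Type} [Fintype ι] [Nonempty ι]
    (H : ∀ u : ι → E, hval u ≤ c0 * Real.sqrt (∑ i, ‖u i‖ ^ 2))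
    (A : ι → Set E) (hA : ∀ i, MeasurableSet (A i))
    (hdisj : Pairwise (fun i j => Disjoint (A i) (A j))) (hcov : (⋃ i, A i) = Set.univ) :
    ∑ i, ‖∫ x in A i, x ∂(stdGaussian E)‖ ^ 2 ≤ c0 ^ 2 := by
  have h1 := sum_inner_le (fun i => ∫ x in A i, x ∂(stdGaussian E)) A hA hdisj hcov
  simp only [real_inner_self_eq_norm_sq] at h1
  exact le_sq_of_le (by positivity) c0_pos'.le (h1.trans (H _))

namespace CritEx

omit [BorelSpace E] in
theorem hval_zero_of {ι : Type*} [Fintype ι] (u : ι → E) (h : ∑ i, ‖u i‖ ^ 2 = 0) :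
    hval u = 0 := by
  have h1 : u = (0 : ℝ) • u := by
    funext i
    have h2 := (Finset.sum_eq_zero_iff_of_nonneg (fun i _ => sq_nonneg ‖u i‖)).1 h i
      (Finset.mem_univ i)
    have h3 : u i = 0 := norm_eq_zero.1 (pow_eq_zero_iff two_ne_zero |>.1 h2)
    rw [Pi.smul_apply, zero_smul, h3]
  rw [h1, hval_smul u le_rfl, zero_mul]

omit [FiniteDimensional ℝ E] [MeasurableSpace E] [BorelSpace E] in
theorem normalize {ι : Type*} [Fintype ι] (u : ι → E) (h : 0 < ∑ i, ‖u i‖ ^ 2) :
    ∑ i, ‖((Real.sqrt (∑ i, ‖u i‖ ^ 2))⁻¹ • u) i‖ ^ 2 = 1 := by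
  have h1 := Real.sqrt_pos.2 h
  have h2 := Real.sq_sqrt h.le
  simp only [Pi.smul_apply, norm_smul, norm_inv, mul_pow, Real.norm_of_nonneg h1.le]
  rw [← Finset.mul_sum, inv_pow, h2, inv_mul_cancel₀ h.ne']

end CritEx

theorem exists_crit {ι : Type} [Fintype ι] (hcard : 4 ≤ Fintype.card ι)
    (ih : ∀ (κ : Type) [Fintype κ] [Nonempty κ], Fintype.card κ < Fintype.card ι →
      ∀ u : κ → E, hval u ≤ c0 * Real.sqrt (∑ i, ‖u i‖ ^ 2))
    (v₀ : ι → E) (h : c0 * Real.sqrt (∑ i, ‖v₀ i‖ ^ 2) < hval v₀) :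
    ∃ (v : ι → E) (r : ℝ), Crit v r := by
  classical
  have hne : Nonempty ι := Fintype.card_pos_iff.1 (by omega)
  have hc0 := c0_pos'
  have hSc : IsCompact {v : ι → E | ∑ i, ‖v i‖ ^ 2 = 1} := by
    refine Metric.isCompact_of_isClosed_isBounded (isClosed_eq (by fun_prop) continuous_const) ?_
    rw [isBounded_iff_forall_norm_le]
    refine ⟨1, fun v hv => ?_⟩
    rw [pi_norm_le_iff_of_nonneg zero_le_one]
    intro i
    have h1 : ‖v i‖ ^ 2 ≤ 1 := by
      have hv' : ∑ i, ‖v i‖ ^ 2 = 1 := hv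
      rw [← hv']
      exact Finset.single_le_sum (f := fun i => ‖v i‖ ^ 2) (fun _ _ => sq_nonneg _)
        (Finset.mem_univ i)
    nlinarith [norm_nonneg (v i)]
  have hN₀ : 0 < ∑ i, ‖v₀ i‖ ^ 2 := by
    rcases (Finset.sum_nonneg fun i _ => sq_nonneg ‖v₀ i‖).eq_or_lt with h0 | h0
    · exfalso
      rw [hval_zero_of v₀ h0.symm, ← h0, Real.sqrt_zero, mul_zero] at h
      exact lt_irrefl _ h
    · exact h0
  have hw : c0 < hval ((Real.sqrt (∑ i, ‖v₀ i‖ ^ 2))⁻¹ • v₀) := by
    have h1 := Real.sqrt_pos.2 hN₀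
    rw [hval_smul _ (inv_nonneg.2 h1.le), lt_inv_mul_iff₀ h1, mul_comm]
    exact h
  obtain ⟨v, hvS, hvmax⟩ := hSc.exists_isMaxOn ⟨_, normalize v₀ hN₀⟩
    (continuous_hval (E := E) (ι := ι)).continuousOn
  have hv1 : ∑ i, ‖v i‖ ^ 2 = 1 := hvS
  have hlam : c0 < hval v := hw.trans_le (hvmax (normalize v₀ hN₀))
  have hlam0 : 0 < hval v := hc0.trans hlam
  have hmax : ∀ u : ι → E, hval u ≤ hval v * Real.sqrt (∑ i, ‖u i‖ ^ 2) := by
    intro u
    rcases (Finset.sum_nonneg fun i _ => sq_nonneg ‖u i‖).eq_or_lt with h0 | h0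
    · rw [hval_zero_of u h0.symm]
      positivity
    · have h1 := Real.sqrt_pos.2 h0
      have h2 : hval ((Real.sqrt (∑ i, ‖u i‖ ^ 2))⁻¹ • u) ≤ hval v := hvmax (normalize u h0)
      rw [hval_smul _ (inv_nonneg.2 h1.le), inv_mul_le_iff₀ h1, mul_comm] at h2
      exact h2
  -- the partition
  set e : ι → ℕ := fun i => (Fintype.equivFin ι i : ℕ) with he
  have hinj : Function.Injective e := fun i j hij =>
    (Fintype.equivFin ι).injective (Fin.ext hij)
  set A : ι → Set E := tcell e v with hA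
  have hAm : ∀ i, MeasurableSet (A i) := fun i => measurableSet_tcell e v i
  have hAd : Pairwise (fun i j => Disjoint (A i) (A j)) := disjoint_tcell hinj v
  have hAc : (⋃ i, A i) = Set.univ := iUnion_tcell e v
  set z : ι → E := fun i => ∫ x in A i, x ∂(stdGaussian E) with hz
  have hz1 : ∑ i, ⟪v i, z i⟫ = hval v :=
    sum_inner_eq v A hAm hAd hAc fun i x hx j => (hx j).1
  have hz2 : ∑ i, ‖z i‖ ^ 2 ≤ hval v ^ 2 := by
    have h1 := sum_inner_le z A hAm hAd hAc
    have h2 : ∑ i, ⟪z i, ∫ x in A i, x ∂(stdGaussian E)⟫ = ∑ i, ‖z i‖ ^ 2 :=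
      Finset.sum_congr rfl fun i _ => real_inner_self_eq_norm_sq _
    rw [h2] at h1
    exact le_sq_of_le (by positivity) hlam0.le (h1.trans (hmax z))
  have hz3 : ∀ i, z i = hval v • v i := by
    have h1 : ∑ i, ‖z i - hval v • v i‖ ^ 2 = ∑ i, ‖z i‖ ^ 2 - hval v ^ 2 := by
      have h2 : ∀ i, ‖z i - hval v • v i‖ ^ 2 =
          ‖z i‖ ^ 2 - 2 * hval v * ⟪v i, z i⟫ + hval v ^ 2 * ‖v i‖ ^ 2 := by
        intro i
        rw [norm_sub_sq_real, inner_smul_right, norm_smul, Real.norm_of_nonneg hlam0.le,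
          real_inner_comm]
        ring
      rw [Finset.sum_congr rfl fun i _ => h2 i, Finset.sum_add_distrib, Finset.sum_sub_distrib,
        ← Finset.mul_sum, ← Finset.mul_sum, hz1, hv1]
      ring
    have h3 : ∑ i, ‖z i - hval v • v i‖ ^ 2 = 0 :=
      le_antisymm (by rw [h1]; linarith) (by positivity)
    intro i
    have h4 := (Finset.sum_eq_zero_iff_of_nonneg (fun i _ => sq_nonneg _)).1 h3 i
      (Finset.mem_univ i)
    exact sub_eq_zero.1 (norm_eq_zero.1 (pow_eq_zero_iff two_ne_zero |>.1 h4))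
  have hzz : ∑ i, ‖z i‖ ^ 2 = hval v ^ 2 := by
    have h2 : ∀ i, ‖z i‖ ^ 2 = hval v ^ 2 * ‖v i‖ ^ 2 := by
      intro i
      rw [hz3 i, norm_smul, Real.norm_of_nonneg hlam0.le, mul_pow]
    rw [Finset.sum_congr rfl fun i _ => h2 i, ← Finset.mul_sum, hv1, mul_one]
  have hvsum : ∑ i, v i = 0 := by
    have h1 : ∑ i, z i = 0 := by
      have := sum_integral_cells (fun x : E => x) integrable_id_stdGaussian A hAm hAd hAc
      rw [integral_id_stdGaussian] at this
      exact this
    rw [Finset.sum_congr rfl fun i _ => hz3 i, ← Finset.smul_sum] at h1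
    exact (smul_eq_zero.1 h1).resolve_left hlam0.ne'
  have hnegz : ∀ i j, i ≠ j → ⟪z i, z j⟫ < 0 := by
    intro i j hij
    have hκ : Fintype.card {k // k ≠ j} < Fintype.card ι := Fintype.card_subtype_lt (x := j) (by simp)
    have hκne : Nonempty {k // k ≠ j} := ⟨⟨i, hij⟩⟩
    set B : {k // k ≠ j} → Set E := fun k => if k.1 = i then A i ∪ A j else A k.1 with hB
    have hBm : ∀ k, MeasurableSet (B k) := by
      intro k
      by_cases hk : k.1 = i
      · simp only [hB, hk, if_true]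
        exact (hAm i).union (hAm j)
      · simp only [hB, hk, if_false]
        exact hAm k.1
    have hBd : Pairwise (fun k l => Disjoint (B k) (B l)) := by
      intro k l hkl
      have hkl' : k.1 ≠ l.1 := fun h => hkl (Subtype.ext h)
      by_cases hk : k.1 = i
      · have hl : l.1 ≠ i := fun h => hkl' (hk.trans h.symm)
        simp only [hB, hk, hl, if_true, if_false]
        exact Set.disjoint_union_left.2 ⟨hAd (Ne.symm hl), hAd (Ne.symm l.2)⟩
      · by_cases hl : l.1 = i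
        · simp only [hB, hk, hl, if_true, if_false]
          exact Set.disjoint_union_right.2 ⟨hAd hk, hAd k.2⟩
        · simp only [hB, hk, hl, if_false]
          exact hAd hkl'
    have hBc : (⋃ k, B k) = Set.univ := by
      rw [Set.eq_univ_iff_forall]
      intro x
      have hx : x ∈ ⋃ i, A i := by rw [hAc]; trivial
      obtain ⟨k, hk⟩ := Set.mem_iUnion.1 hx
      rw [Set.mem_iUnion]
      by_cases hkj : k = j
      · refine ⟨⟨i, hij⟩, ?_⟩
        simp only [hB, if_true]
        exact Or.inr (hkj ▸ hk)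
      · by_cases hki : k = i
        · refine ⟨⟨i, hij⟩, ?_⟩
          simp only [hB, if_true]
          exact Or.inl (hki ▸ hk)
        · refine ⟨⟨k, hkj⟩, ?_⟩
          simp only [hB, hki, if_false]
          exact hk
    have hp := partition_of_hval (ih _ hκ) B hBm hBd hBc
    have hw' : ∀ k : {k // k ≠ j}, ‖∫ x in B k, x ∂(stdGaussian E)‖ ^ 2 =
        ‖z k.1‖ ^ 2 + (if k = ⟨i, hij⟩ then 2 * ⟪z i, z j⟫ + ‖z j‖ ^ 2 else 0) := by
      intro k
      by_cases hk : k = ⟨i, hij⟩
      · subst hk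
        simp only [hB, if_true]
        rw [setIntegral_union (hAd hij) (hAm j) integrable_id_stdGaussian.integrableOn
          integrable_id_stdGaussian.integrableOn]
        have h1 := norm_add_sq_real (z i) (z j)
        simp only [hz] at h1 ⊢
        rw [h1]
        ring
      · have hk' : k.1 ≠ i := fun h => hk (Subtype.ext h)
        simp only [hB, hk, hk', if_false, add_zero]
        rfl
    rw [Finset.sum_congr rfl fun k _ => hw' k, Finset.sum_add_distrib, Finset.sum_ite_eq'] at hp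
    simp only [Finset.mem_univ, if_true] at hp
    have h2 := Fintype.sum_eq_add_sum_subtype_ne (fun k => ‖z k‖ ^ 2) j
    rw [hzz] at h2
    have h3 : c0 ^ 2 < hval v ^ 2 := by gcongr
    linarith
  have hneg : ∀ i j, i ≠ j → ⟪v i, v j⟫ < 0 := by
    intro i j hij
    have h1 := hnegz i j hij
    rw [hz3 i, hz3 j, inner_smul_left, inner_smul_right, conj_trivial] at h1
    by_contra hcon
    push Not at hcon
    have : 0 ≤ hval v * (hval v * ⟪v i, v j⟫) := by positivity
    linarith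
  have hdist : ∀ i j, j ≠ i → v j ≠ v i := by
    intro i j hij heq
    have h1 := hneg j i hij
    rw [heq, real_inner_self_eq_norm_sq] at h1
    exact absurd h1 (not_lt.2 (sq_nonneg _))
  have hae : ∀ i, (cell v i : Set E) =ᵐ[stdGaussian E] A i := fun i =>
    cell_ae_eq e v i (hdist i)
  have hr : hval v / c0 * c0 = hval v := div_mul_cancel₀ _ hc0.ne'
  refine ⟨v, hval v / c0, ?_⟩
  refine ⟨?_, hcard, hv1, hvsum, hneg, hr.symm, ?_, ?_, ?_⟩
  · rw [one_lt_div hc0]; exact hlam
  · intro i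
    rw [hr, setIntegral_congr_set (hae i)]
    exact hz3 i
  · have h1 := sum_integral_cells (fun _ : E => (1 : ℝ)) (integrable_const _) A hAm hAd hAc
    simp only [integral_const, smul_eq_mul, mul_one, measureReal_restrict_apply_univ,
      probReal_univ] at h1
    rw [← h1]
    exact Finset.sum_congr rfl fun i _ => measureReal_congr (hae i)
  · intro i
    have hκ : Fintype.card {k // k ≠ i} < Fintype.card ι := Fintype.card_subtype_lt (x := i) (by simp)
    have hκc : Fintype.card {k // k ≠ i} = Fintype.card ι - 1 := by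
      rw [Fintype.card_subtype_compl]; simp
    have hκne : Nonempty {k // k ≠ i} := Fintype.card_pos_iff.1 (by omega)
    set m : ℝ := (Fintype.card ι : ℝ) - 1 with hm
    have hm0 : 0 < m := by
      have : (4 : ℝ) ≤ Fintype.card ι := by exact_mod_cast hcard
      rw [hm]; linarith
    have hmc : (Fintype.card {k // k ≠ i} : ℝ) = m := by
      rw [hκc, Nat.cast_sub (by omega), hm]; simp
    have h1 := ih _ hκ (fun j : {k // k ≠ i} => v j + m⁻¹ • v i)
    rw [hval_add_const (fun j : {k // k ≠ i} => v j)] at h1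
    refine h1.trans (le_of_eq ?_)
    congr 2
    have h2 : ∀ j : {k // k ≠ i}, ‖v j + m⁻¹ • v i‖ ^ 2 =
        ‖v j‖ ^ 2 + 2 * m⁻¹ * ⟪v j, v i⟫ + m⁻¹ ^ 2 * ‖v i‖ ^ 2 := by
      intro j
      rw [norm_add_sq_real, inner_smul_right, norm_smul, Real.norm_of_nonneg (inv_nonneg.2 hm0.le)]
      ring
    rw [Finset.sum_congr rfl fun j _ => h2 j, Finset.sum_add_distrib, Finset.sum_add_distrib,
      ← Finset.mul_sum, Finset.sum_const, nsmul_eq_mul, ← sum_inner, Finset.card_univ, hmc]
    have h3 := Fintype.sum_eq_add_sum_subtype_ne (fun k => ‖v k‖ ^ 2) i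
    rw [hv1] at h3
    have h4 := Fintype.sum_eq_add_sum_subtype_ne v i
    rw [hvsum] at h4
    have h5 : ∑ j : {k // k ≠ i}, v j = - v i := by
      rw [eq_neg_iff_add_eq_zero, add_comm]; exact h4.symm
    rw [h5, inner_neg_left, real_inner_self_eq_norm_sq]
    have h6 : ∑ j : {k // k ≠ i}, ‖v j‖ ^ 2 = 1 - ‖v i‖ ^ 2 := by linarith
    rw [h6]
    have h7 : (Fintype.card ι : ℝ) = m + 1 := by rw [hm]; ring
    rw [h7]
    field_simp
    ring

end Vale.Agent.P226
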