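import Mathlib

/-!
P226 (Gaussian propeller): common definitions.

* `phi`, `Phi`, `Q`: standard normal density, distribution function, upper tail.
* `cell v i`: open cone on which the `i`-th linear form is strictly the largest.
* `hval v`: Gaussian mean of the maximum of the linear forms.
* `Crit v r`: a critical configuration (what a minimal counterexample gives).
-/

open MeasureTheory ProbabilityTheory Filter
open scoped RealInnerProductSpace Topology

namespace Vale.Agent.P226

/-- standard normal density -/
noncomputable def phi (x : ℝ) : ℝ := Real.exp (-x ^ 2 / 2) / Real.sqrt (2 * Real.pi)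

/-- standard normal distribution function -/
noncomputable def Phi (x : ℝ) : ℝ := (gaussianReal 0 1).real (Set.Iic x)

/-- upper tail of the standard normal law -/
noncomputable def Q (x : ℝ) : ℝ := (gaussianReal 0 1).real (Set.Ioi x)

/-- the propeller constant `3 / (2 √(2π))`; its square is `9 / (8π)` -/
noncomputable def c0 : ℝ := 3 / (2 * Real.sqrt (2 * Real.pi))

variable {E : Type*} [NormedAddCommGroup E] [InnerProductSpace ℝ E]

/-- the open cone where the `i`-th linear form is strictly the largest -/
def cell {ι : Type*} (v : ι → E) (i : ι) : Set E := {x | ∀ j, j ≠ i → ⟪v j, x⟫ < ⟪v i, x⟫}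

variable [FiniteDimensional ℝ E] [MeasurableSpace E] [BorelSpace E]

/-- Gaussian mean of the maximum of the linear forms `⟪v i, ·⟫` -/
noncomputable def hval {ι : Type*} (v : ι → E) : ℝ := ∫ x, (⨆ i, ⟪v i, x⟫) ∂(stdGaussian E)

/-- the facts provided by a minimal counterexample, normalised so that `∑ ‖v i‖² = 1`,
with `hval v = r * c0` and `r > 1`. -/
structure Crit {ι : Type} [Fintype ι] (v : ι → E) (r : ℝ) : Prop where
  one_lt : 1 < r
  card : 4 ≤ Fintype.card ι
  norm : ∑ i, ‖v i‖ ^ 2 = 1
  sum_zero : ∑ i, v i = 0
  neg : ∀ i j, i ≠ j → ⟪v i, v j⟫ < 0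
  val : hval v = r * c0
  moment : ∀ i, ∫ x in cell v i, x ∂(stdGaussian E) = (r * c0) • v i
  sum_cell : ∑ i, (stdGaussian E).real (cell v i) = 1
  del : ∀ i, hval (fun j : {j // j ≠ i} => v j) ≤
    c0 * Real.sqrt (1 - (Fintype.card ι / (Fintype.card ι - 1) : ℝ) * ‖v i‖ ^ 2)

end Vale.Agent.P226
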