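import Vale.Agent.Lib.P226.Defs
import Vale.Agent.Lib.P226E.Cell

/-!
P226, job J8 (Del.lean).  Deletion inequality for a critical configuration, obtained from
`Vale.Agent.P226E.cell_gain` (Ehrhard tangent line bound for the gap function of a cell).
-/

open MeasureTheory ProbabilityTheory Filter
open scoped RealInnerProductSpace Topology

namespace Vale.Agent.P226

theorem gd_eq_phi (x : ℝ) : P226E.gd x = phi x := by
  unfold P226E.gd phi
  rw [inv_mul_eq_div]

theorem Q_eq_Phi_neg (x : ℝ) : Q x = P226E.Phi (-x) := (P226E.gaussianReal_Ioi x).symm ▸ rfl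

variable {E : Type*} [NormedAddCommGroup E] [InnerProductSpace ℝ E]

theorem del_iSup_ne_eq_sup' {k : ℕ} (i : Fin k) (hne : (Finset.univ.erase i).Nonempty)
    (f : Fin k → ℝ) :
    (Finset.univ.erase i).sup' hne f = ⨆ j : {j // j ≠ i}, f j := by
  have hne' : Nonempty {j // j ≠ i} := by
    obtain ⟨j, hj⟩ := hne
    exact ⟨⟨j, Finset.ne_of_mem_erase hj⟩⟩
  apply le_antisymm
  · refine Finset.sup'_le hne _ fun j hj => ?_
    exact le_ciSup (f := fun j : {j // j ≠ i} => f j) (Set.finite_range _).bddAbove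
      ⟨j, Finset.ne_of_mem_erase hj⟩
  · exact ciSup_le fun j => Finset.le_sup' f (Finset.mem_erase.mpr ⟨j.2, Finset.mem_univ _⟩)

variable [FiniteDimensional ℝ E] [MeasurableSpace E] [BorelSpace E]

/-- Deletion inequality for a configuration indexed by `Fin k`. -/
theorem del_fin {k : ℕ} {z : Fin k → E} {i : Fin k} (hk : 2 ≤ k)
    (hsum : ∑ j, z j = 0)
    (hobt : ∀ i j, i ≠ j → inner ℝ (z i) (z j) < (0 : ℝ))
    (hz : z i = ∫ x in cell z i, x ∂(stdGaussian E)) {τ : ℝ}
    (hτ : (stdGaussian E).real (cell z i) = Q τ) :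
    hval z ≤ hval (fun j : {j // j ≠ i} => z j) +
      (k : ℝ) / (k - 1) * (phi τ * (phi τ - τ * Q τ)) := by
  have hne : (Finset.univ.erase i).Nonempty := by
    rw [← Finset.card_pos, Finset.card_erase_of_mem (Finset.mem_univ i)]
    simp
    omega
  have hne' : (Finset.univ : Finset (Fin k)).Nonempty := ⟨i, Finset.mem_univ i⟩
  haveI : Nonempty (Fin k) := ⟨i⟩
  obtain ⟨ξ, hξ⟩ := P226E.exists_xi hsum hobt i
  obtain ⟨hnull, -, -⟩ := P226E.unit_speed (U := P226E.gap z i hne) P226E.continuous_gap
    (fun x t => P226E.gap_add_smul hξ x t)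
  have hcell : cell z i = {x | 0 < P226E.gap z i hne x} := by
    ext x
    simp only [cell, Set.mem_ofPred_eq, P226E.gap, Finset.lt_inf'_iff]
    constructor
    · intro h j hj
      have := h j (Finset.ne_of_mem_erase hj)
      rw [inner_sub_right, real_inner_comm (z i) x, real_inner_comm (z j) x]
      linarith
    · intro h j hj
      have := h j (Finset.mem_erase.mpr ⟨hj, Finset.mem_univ j⟩)
      rw [inner_sub_right, real_inner_comm (z i) x, real_inner_comm (z j) x] at this
      linarith
  have hset : {x | ∀ j, inner ℝ x (z j) ≤ inner ℝ x (z i)} = {x | 0 ≤ P226E.gap z i hne x} := by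
    ext x; exact (P226E.gap_nonneg_iff x).symm
  have hae : (cell z i : Set E) =ᵐ[stdGaussian E]
      {x | ∀ j, inner ℝ x (z j) ≤ inner ℝ x (z i)} := by
    rw [hcell, hset]
    have h1 : ∀ᵐ x ∂(stdGaussian E), P226E.gap z i hne x ≠ 0 := by
      rw [ae_iff]; simpa using hnull 0
    filter_upwards [h1] with x hx
    refine propext ⟨fun h => le_of_lt h, fun h => lt_of_le_of_ne h (Ne.symm hx)⟩
  obtain ⟨a, α, ha, hα, hgain⟩ := P226E.cell_gain (hne := hne) hsum hobt
    (hz.trans (setIntegral_congr_set hae))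
  have hατ : α = -τ := by
    apply P226E.strictMono_Phi.injective
    rw [hα, ha, ← measureReal_congr hae, hτ, Q_eq_Phi_neg]
  have haQ : a = Q τ := by rw [ha, ← measureReal_congr hae, hτ]
  rw [hατ, haQ, gd_eq_phi, show phi (-τ) = phi τ by unfold phi; rw [neg_sq]] at hgain
  have hI1 := P226E.integrable_sup (E := E) (Finset.univ.erase i) hne z
  have hgapI : Integrable (fun x => max (P226E.gap z i hne x) 0) (stdGaussian E) :=
    P226E.integrable_gap.sup (integrable_zero _ _ _)
  have h1 : hval z = ∫ x, ((Finset.univ.erase i).sup' hne (fun j => inner ℝ x (z j)) +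
        max (P226E.gap z i hne x) 0) ∂(stdGaussian E) := by
    unfold hval
    congr 1
    ext x
    rw [← P226E.sup_eq_add_gap hne' x, Finset.sup'_univ_eq_ciSup]
    simp_rw [real_inner_comm]
  have h2 : hval (fun j : {j // j ≠ i} => z j) =
      ∫ x, (Finset.univ.erase i).sup' hne (fun j => inner ℝ x (z j)) ∂(stdGaussian E) := by
    unfold hval
    congr 1
    ext x
    rw [del_iSup_ne_eq_sup']
    simp_rw [real_inner_comm]
  rw [integral_add hI1 hgapI, ← h2] at h1
  rw [h1]
  have h3 : phi τ * (-τ * Q τ + phi τ) = phi τ * (phi τ - τ * Q τ) := by ring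
  rw [h3] at hgain
  linarith

omit [FiniteDimensional ℝ E] [BorelSpace E] in
theorem del_hval_comp_equiv [FiniteDimensional ℝ E] [BorelSpace E] {ι κ : Type*} (e : κ ≃ ι)
    (v : ι → E) : hval (fun a => v (e a)) = hval v := by
  unfold hval
  congr 1
  ext x
  exact e.iSup_comp (g := fun i => ⟪v i, x⟫)

omit [BorelSpace E] in
theorem del_hval_smul {ι : Type*} {c : ℝ} (hc : 0 ≤ c) (v : ι → E) :
    hval (fun a => c • v a) = c * hval v := by
  unfold hval
  rw [← integral_const_mul]
  congr 1
  ext x
  rw [Real.mul_iSup_of_nonneg hc]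
  congr 1
  ext a
  rw [inner_smul_left]
  rfl

theorem del_c0_pos : 0 < c0 := by unfold c0; positivity

theorem crit_del {ι : Type} [Fintype ι] {v : ι → E} {r : ℝ} (h : Crit v r) (i : ι) {τ : ℝ}
    (hτ : (stdGaussian E).real (cell v i) = Q τ) :
    r - (Fintype.card ι / (Fintype.card ι - 1) : ℝ) * (phi τ * (phi τ - τ * Q τ) / c0 ^ 2) / r ≤
      Real.sqrt (1 - (Fintype.card ι / (Fintype.card ι - 1) : ℝ) * ‖v i‖ ^ 2) := by
  classical
  have hr := h.one_lt
  have hc0 := del_c0_pos
  have hrc : 0 < r * c0 := by positivity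
  have hk4 := h.card
  let e : Fin (Fintype.card ι) ≃ ι := (Fintype.equivFin ι).symm
  set i' := e.symm i with hi'
  have hei : e i' = i := by simp [hi']
  set z : Fin (Fintype.card ι) → E := fun a => (r * c0) • v (e a) with hz
  have hsum : ∑ a, z a = 0 := by
    rw [hz]
    simp only
    rw [← Finset.smul_sum, Equiv.sum_comp e v, h.sum_zero, smul_zero]
  have hobt : ∀ a b, a ≠ b → inner ℝ (z a) (z b) < (0 : ℝ) := by
    intro a b hab
    have h1 := h.neg (e a) (e b) (fun h2 => hab (e.injective h2))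
    rw [hz]
    simp only [inner_smul_left, inner_smul_right, conj_trivial]
    nlinarith [mul_pos hrc hrc]
  have hcell : cell z i' = cell v i := by
    ext x
    simp only [cell, Set.mem_ofPred_eq, hz, inner_smul_left, conj_trivial, hei]
    constructor
    · intro h1 j hj
      have h2 := h1 (e.symm j) (fun h3 => hj (e.symm.injective h3))
      rw [e.apply_symm_apply] at h2
      exact lt_of_mul_lt_mul_left h2 hrc.le
    · intro h1 a ha
      exact mul_lt_mul_of_pos_left (h1 (e a) (fun h3 => ha (e.injective (h3.trans hei.symm)))) hrc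
  have hzi : z i' = ∫ x in cell z i', x ∂(stdGaussian E) := by
    rw [hcell, h.moment i]
    simp only [hz, hei]
  have hmain := del_fin (τ := τ) (by omega) hsum hobt hzi (by rw [hcell]; exact hτ)
  have h1 : hval z = (r * c0) * (r * c0) := by
    rw [hz, del_hval_smul hrc.le (fun a => v (e a)), del_hval_comp_equiv e v, h.val]
  have h2 : hval (fun a : {a // a ≠ i'} => z a) =
      (r * c0) * hval (fun j : {j // j ≠ i} => v j) := by
    rw [← del_hval_smul hrc.le]
    let e' : {a // a ≠ i'} ≃ {j // j ≠ i} :=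
      e.subtypeEquiv (fun a => by
        constructor
        · intro h3 h4; exact h3 (e.injective (h4.trans hei.symm))
        · intro h3 h4; exact h3 (by rw [h4, hei]))
    rw [← del_hval_comp_equiv e' (fun j : {j // j ≠ i} => (r * c0) • v j)]
    rfl
  rw [h1, h2] at hmain
  have h3 := h.del i
  set G := (Fintype.card ι / (Fintype.card ι - 1) : ℝ) * (phi τ * (phi τ - τ * Q τ)) with hG
  set R := Real.sqrt (1 - (Fintype.card ι / (Fintype.card ι - 1) : ℝ) * ‖v i‖ ^ 2) with hR
  have h4 : (r * c0) * (r * c0) ≤ (r * c0) * (c0 * R) + G := by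
    nlinarith
  have h5 : (Fintype.card ι / (Fintype.card ι - 1) : ℝ) *
      (phi τ * (phi τ - τ * Q τ) / c0 ^ 2) / r = G / (c0 ^ 2 * r) := by
    rw [hG]; field_simp
  rw [h5, sub_le_iff_le_add, ← sub_le_iff_le_add', le_div_iff₀ (by positivity)]
  nlinarith

end Vale.Agent.P226
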