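import Mathlib

open MeasureTheory ProbabilityTheory Set Filter Topology Function
open scoped RealInnerProductSpace

namespace Vale.Agent.P226

section general

variable {E : Type*} [NormedAddCommGroup E] [InnerProductSpace ℝ E]
    [FiniteDimensional ℝ E] [MeasurableSpace E] [BorelSpace E]

theorem integrable_id_std : Integrable (fun x : E => x) (stdGaussian E) :=
  IsGaussian.integrable_id

theorem integrable_inner_std (y : E) : Integrable (fun x : E => ⟪x, y⟫) (stdGaussian E) :=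
  integrable_id_std.inner_const y

/-- The unnormalised Gaussian first moment. -/
noncomputable def zmom (A : Set E) : E := ∫ x in A, x ∂(stdGaussian E)

/-- An exact measurable partition indexed by a type. -/
def IsPart {ι : Type*} (A : ι → Set E) : Prop :=
  (∀ i, MeasurableSet (A i)) ∧ Pairwise (Disjoint on A) ∧ ⋃ i, A i = univ

theorem inner_zmom (A : Set E) (y : E) :
    ⟪zmom A, y⟫ = ∫ x in A, ⟪x, y⟫ ∂(stdGaussian E) := by
  unfold zmom
  rw [real_inner_comm, ← integral_inner (integrable_id_std.integrableOn) y]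
  exact integral_congr_ae (ae_of_all _ fun x => real_inner_comm _ _)

theorem zmom_union {A B : Set E} (hB : MeasurableSet B) (h : Disjoint A B) :
    zmom (A ∪ B) = zmom A + zmom B :=
  setIntegral_union h hB integrable_id_std.integrableOn integrable_id_std.integrableOn

theorem zmom_univ : zmom (univ : Set E) = 0 := by
  unfold zmom
  rw [setIntegral_univ]
  exact integral_id_stdGaussian

theorem sum_zmom {ι : Type*} [Fintype ι] {A : ι → Set E} (hA : IsPart A) :
    ∑ i, zmom (A i) = 0 := by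
  obtain ⟨h1, h2, h3⟩ := hA
  have := integral_iUnion_fintype (μ := stdGaussian E) (f := fun x : E => x) h1 h2
    (fun i => integrable_id_std.integrableOn)
  rw [h3] at this
  have h4 := zmom_univ (E := E)
  unfold zmom at h4 ⊢
  rw [← this, h4]

/-- Expected maximum of a family of linear forms. -/
noncomputable def Emax {ι : Type*} (y : ι → E) : ℝ :=
  ∫ x, (⨆ i, ⟪x, y i⟫) ∂(stdGaussian E)

section fin

variable {ι : Type*} [Fintype ι] [Nonempty ι]

theorem continuous_sup (y : ι → E) : Continuous fun x : E => ⨆ i, ⟪x, y i⟫ := by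
  have : (fun x : E => ⨆ i, ⟪x, y i⟫) =
      fun x : E => Finset.univ.sup' Finset.univ_nonempty (fun i => ⟪x, y i⟫) := by
    funext x
    rw [Finset.sup'_univ_eq_ciSup]
  rw [this]
  exact Continuous.finset_sup'_apply _ fun i _ => by fun_prop

theorem le_sup (y : ι → E) (x : E) (i : ι) : ⟪x, y i⟫ ≤ ⨆ i, ⟪x, y i⟫ :=
  le_ciSup (Finite.bddAbove_range fun i => ⟪x, y i⟫) i

theorem abs_sup_le (y : ι → E) (x : E) : |⨆ i, ⟪x, y i⟫| ≤ ∑ i, |⟪x, y i⟫| := by
  obtain ⟨i, hi⟩ := exists_eq_ciSup_of_finite (f := fun i => ⟪x, y i⟫)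
  rw [← hi]
  exact Finset.single_le_sum (f := fun i => |⟪x, y i⟫|) (fun i _ => abs_nonneg _)
    (Finset.mem_univ i)

theorem integrable_sup (y : ι → E) :
    Integrable (fun x : E => ⨆ i, ⟪x, y i⟫) (stdGaussian E) := by
  refine Integrable.mono' (g := fun x => ∑ i, |⟪x, y i⟫|)
    (integrable_finsetSum _ fun i _ => (integrable_inner_std (y i)).abs)
    (continuous_sup y).aestronglyMeasurable (ae_of_all _ fun x => ?_)
  rw [Real.norm_eq_abs]
  exact abs_sup_le y x

theorem sum_inner_le_Emax {A : ι → Set E} (hA : IsPart A) (y : ι → E) :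
    ∑ i, ⟪zmom (A i), y i⟫ ≤ Emax y := by
  obtain ⟨h1, h2, h3⟩ := hA
  have h4 := integral_iUnion_fintype (μ := stdGaussian E)
    (f := fun x : E => ⨆ i, ⟪x, y i⟫) h1 h2 (fun i => (integrable_sup y).integrableOn)
  rw [h3, setIntegral_univ] at h4
  unfold Emax
  rw [h4]
  refine Finset.sum_le_sum fun i _ => ?_
  rw [inner_zmom]
  exact setIntegral_mono (integrable_inner_std _).integrableOn (integrable_sup y).integrableOn
    fun x => le_sup y x i

theorem Emax_eq_sum {A : ι → Set E} (hA : IsPart A) {y : ι → E}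
    (hy : ∀ i, ∀ x ∈ A i, ∀ j, ⟪x, y j⟫ ≤ ⟪x, y i⟫) :
    Emax y = ∑ i, ⟪zmom (A i), y i⟫ := by
  obtain ⟨h1, h2, h3⟩ := hA
  have h4 := integral_iUnion_fintype (μ := stdGaussian E)
    (f := fun x : E => ⨆ i, ⟪x, y i⟫) h1 h2 (fun i => (integrable_sup y).integrableOn)
  rw [h3, setIntegral_univ] at h4
  unfold Emax
  rw [h4]
  refine Finset.sum_congr rfl fun i _ => ?_
  rw [inner_zmom]
  refine setIntegral_congr_fun (h1 i) fun x hx => ?_
  exact le_antisymm (ciSup_le fun j => hy i x hx j) (le_sup y x i)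

theorem Emax_sub_const (y : ι → E) (v : E) : Emax (fun i => y i - v) = Emax y := by
  unfold Emax
  have h1 : ∀ x : E, (⨆ i, ⟪x, y i - v⟫) = (⨆ i, ⟪x, y i⟫) - ⟪x, v⟫ := by
    intro x
    apply le_antisymm
    · refine ciSup_le fun i => ?_
      rw [inner_sub_right]
      exact sub_le_sub_right (le_sup y x i) _
    · rw [sub_le_iff_le_add]
      refine ciSup_le fun i => ?_
      have := le_sup (fun i => y i - v) x i
      simp only [inner_sub_right] at this ⊢
      linarith
  simp only [h1]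
  rw [integral_sub (integrable_sup y) (integrable_inner_std v)]
  have h2 : ∫ x, ⟪x, v⟫ ∂(stdGaussian E) = 0 := by
    have := inner_zmom (univ : Set E) v
    rw [zmom_univ, inner_zero_left, setIntegral_univ] at this
    exact this.symm
  rw [h2, sub_zero]

theorem sup_smul (y : ι → E) (x : E) {c : ℝ} (hc : 0 ≤ c) :
    (⨆ i, ⟪x, c • y i⟫) = c * ⨆ i, ⟪x, y i⟫ := by
  simp only [inner_smul_right]
  rw [Real.mul_iSup_of_nonneg hc]

theorem Emax_smul (y : ι → E) {c : ℝ} (hc : 0 ≤ c) : Emax (fun i => c • y i) = c * Emax y := by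
  unfold Emax
  simp only [sup_smul y _ hc]
  rw [integral_const_mul]

theorem Emax_nonneg (y : ι → E) : 0 ≤ Emax y := by
  obtain ⟨i⟩ := ‹Nonempty ι›
  have h1 : ∫ x, ⟪x, y i⟫ ∂(stdGaussian E) ≤ Emax y :=
    integral_mono (integrable_inner_std _) (@integrable_sup E _ _ _ _ _ ι _ ⟨i⟩ y)
      fun x => @le_sup E _ _ _ _ _ ι _ ⟨i⟩ y x i
  have h2 : ∫ x, ⟪x, y i⟫ ∂(stdGaussian E) = 0 := by
    have := inner_zmom (univ : Set E) (y i)
    rw [zmom_univ, inner_zero_left, setIntegral_univ] at this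
    exact this.symm
  linarith

theorem Emax_lipschitz (y y' : ι → E) :
    Emax y ≤ Emax y' + ∑ i, ‖y i - y' i‖ * ∫ x, ‖x‖ ∂(stdGaussian E) := by
  have h0 : Integrable (fun x : E => ‖x‖) (stdGaussian E) := integrable_id_std.norm
  have h1 : ∀ x : E, (⨆ i, ⟪x, y i⟫) ≤ (⨆ i, ⟪x, y' i⟫) + ∑ i, ‖y i - y' i‖ * ‖x‖ := by
    intro x
    refine ciSup_le fun i => ?_
    have h2 : ⟪x, y i⟫ = ⟪x, y' i⟫ + ⟪x, y i - y' i⟫ := by rw [inner_sub_right]; ring
    have h3 : ⟪x, y i - y' i⟫ ≤ ‖y i - y' i‖ * ‖x‖ := by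
      rw [mul_comm]; exact real_inner_le_norm _ _
    have h4 : ‖y i - y' i‖ * ‖x‖ ≤ ∑ i, ‖y i - y' i‖ * ‖x‖ :=
      Finset.single_le_sum (f := fun i => ‖y i - y' i‖ * ‖x‖) (fun i _ => by positivity)
        (Finset.mem_univ i)
    have h5 := le_sup y' x i
    linarith
  have h6 : Integrable (fun x : E => ∑ i, ‖y i - y' i‖ * ‖x‖) (stdGaussian E) :=
    integrable_finsetSum _ fun i _ => h0.const_mul _
  have h7 := integral_mono (integrable_sup y) ((integrable_sup y').add h6) h1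
  refine h7.trans_eq ?_
  simp only [Pi.add_apply]
  rw [integral_add (integrable_sup y') h6, integral_finsetSum _ fun i _ => h0.const_mul _]
  simp only [integral_const_mul]
  rfl

theorem continuous_Emax : Continuous fun y : ι → E => Emax y := by
  rw [continuous_iff_continuousAt]
  intro y0
  set K := ∫ x, ‖x‖ ∂(stdGaussian E) with hK
  have hg : Tendsto (fun y : ι → E => ∑ i, ‖y i - y0 i‖ * K) (𝓝 y0) (𝓝 0) := by
    have hc : Continuous fun y : ι → E => ∑ i, ‖y i - y0 i‖ * K := by fun_prop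
    have := hc.tendsto y0
    simpa using this
  unfold ContinuousAt
  rw [tendsto_iff_norm_sub_tendsto_zero]
  refine squeeze_zero (fun _ => norm_nonneg _) (fun y => ?_) hg
  rw [Real.norm_eq_abs, abs_le]
  have h1 := Emax_lipschitz y y0
  have h2 := Emax_lipschitz y0 y
  simp only [norm_sub_rev (y0 _) (y _)] at h2
  constructor <;> linarith

end fin

/-- The argmax partition, ties broken by the order of the index set. -/
def amax {k : ℕ} (y : Fin k → E) (i : Fin k) : Set E :=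
  {x | (∀ j, ⟪x, y j⟫ ≤ ⟪x, y i⟫) ∧ ∀ j, j < i → ⟪x, y j⟫ < ⟪x, y i⟫}

theorem isPart_amax {k : ℕ} [NeZero k] (y : Fin k → E) : IsPart (amax y) := by
  refine ⟨fun i => ?_, ?_, ?_⟩
  · have h1 : amax y i = (⋂ j, {x : E | ⟪x, y j⟫ ≤ ⟪x, y i⟫}) ∩
        ⋂ j, {x : E | j < i → ⟪x, y j⟫ < ⟪x, y i⟫} := by
      ext x; simp [amax]
    rw [h1]
    refine (MeasurableSet.iInter fun j => ?_).inter (MeasurableSet.iInter fun j => ?_)
    · exact measurableSet_le (by fun_prop) (by fun_prop)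
    · by_cases hj : j < i
      · simp only [hj, true_imp_iff]
        exact measurableSet_lt (by fun_prop) (by fun_prop)
      · simp [hj]
  · intro i j hij
    rw [Function.onFun, Set.disjoint_left]
    rintro x ⟨h1, h2⟩ ⟨h3, h4⟩
    rcases lt_or_gt_of_ne hij with h | h
    · exact absurd (h4 i h) (not_lt.mpr (h1 j))
    · exact absurd (h2 j h) (not_lt.mpr (h3 i))
  · rw [eq_univ_iff_forall]
    intro x
    rw [mem_iUnion]
    have hne : (Finset.univ.filter fun i : Fin k => ∀ j, ⟪x, y j⟫ ≤ ⟪x, y i⟫).Nonempty := by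
      obtain ⟨i, hi⟩ := Finite.exists_max fun i => ⟪x, y i⟫
      exact ⟨i, by simpa using hi⟩
    refine ⟨(Finset.univ.filter fun i : Fin k => ∀ j, ⟪x, y j⟫ ≤ ⟪x, y i⟫).min' hne, ?_, ?_⟩
    · have := Finset.min'_mem _ hne
      simpa using this
    · intro j hj
      have hmem := Finset.min'_mem _ hne
      rw [Finset.mem_filter] at hmem
      refine lt_of_le_of_ne (hmem.2 j) fun heq => ?_
      have : j ∈ Finset.univ.filter fun i : Fin k => ∀ j, ⟪x, y j⟫ ≤ ⟪x, y i⟫ := by
        rw [Finset.mem_filter]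
        exact ⟨Finset.mem_univ _, fun l => heq ▸ hmem.2 l⟩
      exact absurd (Finset.min'_le _ _ this) (not_le.mpr hj)

theorem amax_le {k : ℕ} (y : Fin k → E) (i : Fin k) : ∀ x ∈ amax y i, ∀ j,
    ⟪x, y j⟫ ≤ ⟪x, y i⟫ := fun _ hx => hx.1

theorem null_hyperplane {v : E} (hv : v ≠ 0) : stdGaussian E {x : E | ⟪x, v⟫ = 0} = 0 := by
  have h1 : (stdGaussian E).map (innerSL ℝ v) = gaussianReal 0 (‖v‖₊ ^ 2) := by
    rw [IsGaussian.map_eq_gaussianReal]
    congr 1
    · exact integral_strongDual_stdGaussian _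
    · rw [variance_dual_stdGaussian]
      rw [innerSL_apply_norm]
      ext
      simp
  have h2 : {x : E | ⟪x, v⟫ = 0} = (innerSL ℝ v) ⁻¹' {0} := by
    ext x
    simp [real_inner_comm]
  rw [h2, ← Measure.map_apply (by fun_prop) (measurableSet_singleton _), h1]
  have h3 : (‖v‖₊ ^ 2 : NNReal) ≠ 0 := by simpa using hv
  have := nullSingletonClass_gaussianReal (μ := 0) h3
  exact measure_singleton _

/-- When the directions are distinct the argmax cell agrees a.e. with the closed cell. -/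
theorem zmom_amax {k : ℕ} {y : Fin k → E} (hy : Function.Injective y) (i : Fin k) :
    zmom (amax y i) = zmom {x : E | ∀ j, ⟪x, y j⟫ ≤ ⟪x, y i⟫} := by
  unfold zmom
  apply setIntegral_congr_set
  have h1 : ∀ j, j ≠ i → ∀ᵐ x ∂(stdGaussian E), ⟪x, y j - y i⟫ ≠ 0 := by
    intro j hj
    rw [ae_iff]
    simp only [not_not]
    exact null_hyperplane (sub_ne_zero.mpr fun h => hj (hy h))
  have h2 : ∀ᵐ x ∂(stdGaussian E), ∀ j, j ≠ i → ⟪x, y j - y i⟫ ≠ 0 := by
    rw [ae_all_iff]
    intro j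
    by_cases hj : j = i
    · simp [hj]
    · simpa [hj] using h1 j hj
  filter_upwards [h2] with x hx
  apply propext
  constructor
  · intro h; exact h.1
  · intro h
    refine ⟨h, fun j hj => lt_of_le_of_ne (h j) fun heq => ?_⟩
    apply hx j hj.ne
    rw [inner_sub_right, heq, sub_self]

end general

theorem sum_inner_le {E ι : Type*} [NormedAddCommGroup E] [InnerProductSpace ℝ E] [Fintype ι]
    (a b : ι → E) : ∑ i, ⟪a i, b i⟫ ≤ √(∑ i, ‖a i‖ ^ 2) * √(∑ i, ‖b i‖ ^ 2) :=
  (Finset.sum_le_sum fun i _ => real_inner_le_norm (a i) (b i)).trans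
    (Real.sum_mul_le_sqrt_mul_sqrt _ _ _)

/-- The bound for partitions into k cells, in all dimensions. -/
def Bd (k : ℕ) : Prop := ∀ (d : ℕ) (A : Fin k → Set (EuclideanSpace ℝ (Fin d))), IsPart A →
  ∑ i, ‖zmom (A i)‖ ^ 2 ≤ 9 / (8 * Real.pi)

theorem Bd_fintype {k : ℕ} (h : Bd k) {ι : Type*} [Fintype ι] (hι : Fintype.card ι = k)
    {d : ℕ} {A : ι → Set (EuclideanSpace ℝ (Fin d))} (hA : IsPart A) :
    ∑ i, ‖zmom (A i)‖ ^ 2 ≤ 9 / (8 * Real.pi) := by
  let e : ι ≃ Fin k := Fintype.equivFinOfCardEq hι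
  have hB : IsPart fun i => A (e.symm i) := by
    refine ⟨fun i => hA.1 _, fun i j hij => hA.2.1 (fun h => hij (e.symm.injective h)), ?_⟩
    rw [← hA.2.2]
    exact e.symm.surjective.iUnion_comp A
  have h1 := h d _ hB
  rwa [Equiv.sum_comp e.symm fun i => ‖zmom (A i)‖ ^ 2] at h1

theorem Emax_comp {E ι κ : Type*} [NormedAddCommGroup E] [InnerProductSpace ℝ E]
    [FiniteDimensional ℝ E] [MeasurableSpace E] [BorelSpace E] (e : κ ≃ ι) (y : ι → E) :
    Emax (fun i => y (e i)) = Emax y := by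
  unfold Emax
  congr 1
  funext x
  exact e.iSup_comp (g := fun i => ⟪x, y i⟫)

theorem Bd_dual {k : ℕ} (h : Bd k) {ι : Type*} [Fintype ι] [Nonempty ι]
    (hι : Fintype.card ι = k) {d : ℕ} (y : ι → EuclideanSpace ℝ (Fin d)) :
    Emax y ≤ √(9 / (8 * Real.pi)) * √(∑ i, ‖y i‖ ^ 2) := by
  let e : Fin k ≃ ι := (Fintype.equivFinOfCardEq hι).symm
  have : NeZero k := ⟨by rw [← hι]; exact Fintype.card_ne_zero⟩
  rw [← Emax_comp e y, ← Equiv.sum_comp e fun i => ‖y i‖ ^ 2,
    Emax_eq_sum (isPart_amax _) (amax_le _)]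
  refine (sum_inner_le _ _).trans ?_
  gcongr
  exact h d _ (isPart_amax _)

/-- A maximiser for k cells in dimension d beating the propeller, when k - 1 cells cannot. -/
structure Extremal {k d : ℕ} (z : Fin k → EuclideanSpace ℝ (Fin d)) : Prop where
  sum_zero : ∑ i, z i = 0
  obtuse : ∀ i j, i ≠ j → ⟪z i, z j⟫ < 0
  cell : ∀ i, z i = zmom {x | ∀ j, ⟪x, z j⟫ ≤ ⟪x, z i⟫}
  big : 9 / (8 * Real.pi) < ∑ i, ‖z i‖ ^ 2
  maxi : ∀ y : Fin k → EuclideanSpace ℝ (Fin d),
    Emax y ≤ √(∑ i, ‖z i‖ ^ 2) * √(∑ i, ‖y i‖ ^ 2)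

/-- Merging two cells. -/
theorem isPart_merge {α : Type*} [MeasurableSpace α] {k : ℕ} {A : Fin k → Set α}
    (h1 : ∀ i, MeasurableSet (A i)) (h2 : Pairwise (Disjoint on A)) (h3 : ⋃ i, A i = univ)
    {i j : Fin k} (hij : i ≠ j) :
    (∀ l : {l // l ≠ j}, MeasurableSet (if l.1 = i then A i ∪ A j else A l.1)) ∧
    Pairwise (Disjoint on fun l : {l // l ≠ j} => if l.1 = i then A i ∪ A j else A l.1) ∧
    ⋃ l : {l // l ≠ j}, (if l.1 = i then A i ∪ A j else A l.1) = univ := by
  refine ⟨fun l => ?_, ?_, ?_⟩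
  · split_ifs
    · exact (h1 _).union (h1 _)
    · exact h1 _
  · rintro ⟨l, hl⟩ ⟨m, hm⟩ hlm
    have hlm' : l ≠ m := fun h => hlm (Subtype.ext h)
    simp only [Function.onFun]
    split_ifs with ha hb hb
    · exact absurd (ha.trans hb.symm) hlm'
    · rw [Set.disjoint_union_left]
      exact ⟨h2 (fun h => hb h.symm), h2 (fun h => hm h.symm)⟩
    · rw [Set.disjoint_union_right]
      exact ⟨h2 ha, h2 hl⟩
    · exact h2 hlm'
  · rw [eq_univ_iff_forall]
    intro x
    have hx : x ∈ ⋃ i, A i := by rw [h3]; trivial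
    obtain ⟨m, hm⟩ := mem_iUnion.mp hx
    rw [mem_iUnion]
    by_cases hmj : m = j
    · exact ⟨⟨i, hij⟩, by simpa using Or.inr (hmj ▸ hm)⟩
    · refine ⟨⟨m, hmj⟩, ?_⟩
      by_cases hmi : m = i
      · subst hmi; simp [hm]
      · simp [hmi, hm]

theorem exists_extremal {k : ℕ} (hk : 1 ≤ k) (hprev : Bd (k - 1)) (hnot : ¬ Bd k) :
    ∃ (d : ℕ) (z : Fin k → EuclideanSpace ℝ (Fin d)), Extremal z := by
  unfold Bd at hnot
  push Not at hnot
  obtain ⟨d, A, hA, hAbig⟩ := hnot
  have : NeZero k := ⟨by omega⟩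
  have : Nonempty (Fin k) := ⟨0⟩
  have hc : 0 < 9 / (8 * Real.pi) := by positivity
  set S : Set (Fin k → EuclideanSpace ℝ (Fin d)) := {y | ∑ i, ‖y i‖ ^ 2 = 1} with hS
  have hScompact : IsCompact S := by
    refine Metric.isCompact_of_isClosed_isBounded (isClosed_eq (by fun_prop) (by fun_prop)) ?_
    refine (Metric.isBounded_closedBall (x := 0) (r := 1)).subset fun y hy => ?_
    rw [mem_closedBall_zero_iff, pi_norm_le_iff_of_nonneg zero_le_one]
    intro i
    have h1 : ‖y i‖ ^ 2 ≤ 1 := by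
      rw [← (show ∑ i, ‖y i‖ ^ 2 = 1 from hy)]
      exact Finset.single_le_sum (f := fun i => ‖y i‖ ^ 2) (fun i _ => by positivity)
        (Finset.mem_univ i)
    exact (sq_le_one_iff₀ (norm_nonneg _)).mp h1
  -- homogeneity
  have hhom : ∀ (v : Fin k → EuclideanSpace ℝ (Fin d)), v ∈ S → (∀ y ∈ S, Emax y ≤ Emax v) →
      ∀ y : Fin k → EuclideanSpace ℝ (Fin d), Emax y ≤ Emax v * √(∑ i, ‖y i‖ ^ 2) := by
    intro v hv hmax y
    set N := √(∑ i, ‖y i‖ ^ 2) with hN
    rcases (Real.sqrt_nonneg (∑ i, ‖y i‖ ^ 2)).eq_or_lt with h0 | h0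
    · have h1 : ∑ i, ‖y i‖ ^ 2 = 0 := by
        have := Real.sqrt_eq_zero (Finset.sum_nonneg (f := fun i => ‖y i‖ ^ 2)
          (s := Finset.univ) fun i _ => by positivity)
        exact this.mp h0.symm
      have h2 : ∀ i, y i = 0 := by
        intro i
        have := (Finset.sum_eq_zero_iff_of_nonneg fun i _ => by positivity).mp h1 i
          (Finset.mem_univ i)
        simpa using this
      have h3 : Emax y = 0 := by
        unfold Emax
        simp [h2]
      rw [h3]
      exact mul_nonneg (Emax_nonneg v) (Real.sqrt_nonneg _)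
    · have h1 : (fun i => N⁻¹ • y i) ∈ S := by
        show ∑ i, ‖N⁻¹ • y i‖ ^ 2 = 1
        simp only [norm_smul, mul_pow, ← Finset.mul_sum]
        rw [← Real.sq_sqrt (Finset.sum_nonneg (f := fun i => ‖y i‖ ^ 2)
          (s := Finset.univ) fun i _ => by positivity), ← hN, Real.norm_eq_abs, abs_inv,
          abs_of_pos h0, ← mul_pow, inv_mul_cancel₀ h0.ne', one_pow]
      have h2 := hmax _ h1
      rw [Emax_smul _ (inv_nonneg.mpr h0.le), inv_mul_le_iff₀ h0] at h2
      linarith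
  have hSne : S.Nonempty := by
    set N := √(∑ i, ‖zmom (A i)‖ ^ 2) with hN
    have h0 : 0 < N := Real.sqrt_pos.mpr (hc.trans hAbig)
    refine ⟨fun i => N⁻¹ • zmom (A i), ?_⟩
    show ∑ i, ‖N⁻¹ • zmom (A i)‖ ^ 2 = 1
    simp only [norm_smul, mul_pow, ← Finset.mul_sum]
    rw [← Real.sq_sqrt (Finset.sum_nonneg (f := fun i => ‖zmom (A i)‖ ^ 2)
      (s := Finset.univ) fun i _ => by positivity), ← hN, Real.norm_eq_abs, abs_inv,
      abs_of_pos h0, ← mul_pow, inv_mul_cancel₀ h0.ne', one_pow]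
  obtain ⟨v, hvS, hvmax⟩ := hScompact.exists_isMaxOn hSne (continuous_Emax.continuousOn)
  have hv1 : ∑ i, ‖v i‖ ^ 2 = 1 := hvS
  have hvmax' : ∀ y ∈ S, Emax y ≤ Emax v := fun y hy => hvmax hy
  have hall := hhom v hvS hvmax'
  set G := Emax v with hG
  have hG0 : 0 ≤ G := Emax_nonneg v
  -- every partition
  have hpart : ∀ B : Fin k → Set (EuclideanSpace ℝ (Fin d)), IsPart B →
      ∑ i, ‖zmom (B i)‖ ^ 2 ≤ G ^ 2 := by
    intro B hB
    have h1 := sum_inner_le_Emax hB fun i => zmom (B i)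
    simp only [real_inner_self_eq_norm_sq] at h1
    have h2 := h1.trans (hall _)
    set F := ∑ i, ‖zmom (B i)‖ ^ 2 with hF
    have hF0 : 0 ≤ F := Finset.sum_nonneg fun i _ => by positivity
    have h3 : √F * √F ≤ G * √F := by rwa [Real.mul_self_sqrt hF0]
    rcases (Real.sqrt_nonneg F).eq_or_lt with h0 | h0
    · have : F = 0 := (Real.sqrt_eq_zero hF0).mp h0.symm
      rw [this]; positivity
    · have h4 : √F ≤ G := le_of_mul_le_mul_right h3 h0
      calc F = √F ^ 2 := (Real.sq_sqrt hF0).symm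
        _ ≤ G ^ 2 := by gcongr
  have hGbig : 9 / (8 * Real.pi) < G ^ 2 := hAbig.trans_le (hpart A hA)
  have hGpos : 0 < G := by
    rcases hG0.eq_or_lt with h | h
    · rw [← h] at hGbig; norm_num at hGbig; linarith
    · exact h
  have hB := isPart_amax v
  have hGsum : G = ∑ i, ⟪zmom (amax v i), v i⟫ := Emax_eq_sum hB (amax_le v)
  have hzv : ∀ i, zmom (amax v i) = G • v i := by
    have h1 : ∑ i, ‖zmom (amax v i) - G • v i‖ ^ 2 ≤ 0 := by
      have h2 : ∀ i, ‖zmom (amax v i) - G • v i‖ ^ 2 = ‖zmom (amax v i)‖ ^ 2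
          - 2 * G * ⟪zmom (amax v i), v i⟫ + G ^ 2 * ‖v i‖ ^ 2 := by
        intro i
        rw [norm_sub_sq_real, inner_smul_right, norm_smul, Real.norm_eq_abs, mul_pow, sq_abs]
        ring
      simp only [h2, Finset.sum_add_distrib, Finset.sum_sub_distrib, ← Finset.mul_sum]
      rw [← hGsum, hv1]
      have := hpart _ hB
      nlinarith
    intro i
    have h2 := (Finset.sum_eq_zero_iff_of_nonneg fun i _ => by positivity).mp
      (le_antisymm h1 (Finset.sum_nonneg fun i _ => by positivity)) i (Finset.mem_univ i)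
    rw [sq_eq_zero_iff, norm_eq_zero, sub_eq_zero] at h2
    exact h2
  set z : Fin k → EuclideanSpace ℝ (Fin d) := fun i => G • v i with hz
  have hamax : amax z = amax v := by
    funext i
    ext x
    simp only [amax, hz, mem_ofPred_eq, inner_smul_right, mul_le_mul_iff_right₀ hGpos,
      mul_lt_mul_iff_right₀ hGpos]
  have hzF : ∑ i, ‖z i‖ ^ 2 = G ^ 2 := by
    simp only [hz, norm_smul, mul_pow, ← Finset.mul_sum, hv1, Real.norm_eq_abs, sq_abs, mul_one]
  have hsum : ∑ i, z i = 0 := by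
    rw [← sum_zmom hB]
    exact Finset.sum_congr rfl fun i _ => (hzv i).symm
  have hobt : ∀ i j, i ≠ j → ⟪z i, z j⟫ < 0 := by
    intro i j hij
    by_contra hneg
    push Not at hneg
    have hm := isPart_merge hB.1 hB.2.1 hB.2.2 hij
    have hcard : Fintype.card {l : Fin k // l ≠ j} = k - 1 := by
      rw [Fintype.card_subtype_compl]
      simp
    have h1 := Bd_fintype hprev hcard hm
    have h2 : ∀ l : {l : Fin k // l ≠ j},
        ‖zmom (if l.1 = i then amax v i ∪ amax v j else amax v l.1)‖ ^ 2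
        = ‖z l.1‖ ^ 2 + (if l.1 = i then 2 * ⟪z i, z j⟫ + ‖z j‖ ^ 2 else 0) := by
      intro l
      split_ifs with h
      · rw [zmom_union (hB.1 j) (hB.2.1 hij), hzv, hzv, h]
        rw [norm_add_sq_real]
        ring
      · rw [hzv, add_zero]
    rw [Finset.sum_congr rfl fun l _ => h2 l] at h1
    rw [Finset.sum_add_distrib] at h1
    have h3 : ∑ l : {l : Fin k // l ≠ j}, ‖z l.1‖ ^ 2 = (∑ l, ‖z l‖ ^ 2) - ‖z j‖ ^ 2 := by
      have h4 : ∑ l ∈ Finset.univ.erase j, ‖z l‖ ^ 2 =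
          ∑ l : {l : Fin k // l ≠ j}, ‖z l.1‖ ^ 2 :=
        Finset.sum_subtype _ (fun x => by simp) _
      rw [← h4, ← Finset.add_sum_erase _ _ (Finset.mem_univ j)]
      ring
    have h5 : ∑ l : {l : Fin k // l ≠ j}, (if l.1 = i then 2 * ⟪z i, z j⟫ + ‖z j‖ ^ 2 else 0)
        = 2 * ⟪z i, z j⟫ + ‖z j‖ ^ 2 := by
      have h4 : ∑ l ∈ Finset.univ.erase j, (if l = i then 2 * ⟪z i, z j⟫ + ‖z j‖ ^ 2 else 0) =
          ∑ l : {l : Fin k // l ≠ j}, (if l.1 = i then 2 * ⟪z i, z j⟫ + ‖z j‖ ^ 2 else 0) :=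
        Finset.sum_subtype _ (fun x => by simp) _
      rw [← h4, Finset.sum_ite_eq']
      simp [hij]
    rw [h3, h5, hzF] at h1
    linarith
  have hinj : Function.Injective z := by
    intro i j hij
    by_contra hne
    have := hobt i j hne
    rw [hij, real_inner_self_eq_norm_sq] at this
    have h2 : 0 ≤ ‖z j‖ ^ 2 := by positivity
    linarith
  refine ⟨d, z, hsum, hobt, fun i => ?_, by rw [hzF]; exact hGbig, fun y => ?_⟩
  · rw [← zmom_amax hinj i, hamax]
    exact (hzv i).symm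
  · rw [hzF, Real.sqrt_sq hG0]
    exact hall y

namespace Extremal

variable {k d : ℕ} {z : Fin k → EuclideanSpace ℝ (Fin d)}

theorem injective (h : Extremal z) : Function.Injective z := by
  intro i j hij
  by_contra hne
  have := h.obtuse i j hne
  rw [hij, real_inner_self_eq_norm_sq] at this
  have h2 : 0 ≤ ‖z j‖ ^ 2 := by positivity
  linarith

theorem pos_k (h : Extremal z) : 0 < k := by
  rcases Nat.eq_zero_or_pos k with h0 | h0
  · subst h0
    have := h.big
    simp only [Finset.univ_eq_empty, Finset.sum_empty] at this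
    have hc : 0 < 9 / (8 * Real.pi) := by positivity
    linarith
  · exact h0

/-- The value of the maximiser. -/
theorem Emax_eq (h : Extremal z) : Emax z = ∑ i, ‖z i‖ ^ 2 := by
  have : NeZero k := ⟨h.pos_k.ne'⟩
  have : Nonempty (Fin k) := ⟨0⟩
  rw [Emax_eq_sum (isPart_amax z) (amax_le z)]
  refine Finset.sum_congr rfl fun i _ => ?_
  rw [zmom_amax h.injective, ← h.cell i, real_inner_self_eq_norm_sq]

/-- A linear relation with nonnegative coefficients, one of which is zero, is trivial. -/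
theorem nonneg_relation (h : Extremal z) {c : Fin k → ℝ} (hc : ∀ i, 0 ≤ c i)
    (hsum : ∑ i, c i • z i = 0) {l : Fin k} (hl : c l = 0) : ∀ i, c i = 0 := by
  have h1 : ∑ i, c i * ⟪z i, z l⟫ = 0 := by
    have := congrArg (fun w => ⟪w, z l⟫) hsum
    simp only [sum_inner, inner_zero_left, real_inner_smul_left] at this
    exact this
  have h2 : ∀ i, c i * ⟪z i, z l⟫ ≤ 0 := by
    intro i
    by_cases hi : i = l
    · rw [hi, hl, zero_mul]
    · exact mul_nonpos_of_nonneg_of_nonpos (hc i) (h.obtuse i l hi).le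
  have h3 := (Finset.sum_eq_zero_iff_of_nonpos fun i _ => h2 i).mp h1
  intro i
  by_cases hi : i = l
  · rw [hi, hl]
  · have h4 := h3 i (Finset.mem_univ i)
    rcases mul_eq_zero.mp h4 with h5 | h5
    · exact h5
    · exact absurd h5 (h.obtuse i l hi).ne

/-- All linear relations among the z i are multiples of the sum. -/
theorem relation_const (h : Extremal z) {c : Fin k → ℝ}
    (hsum : ∑ i, c i • z i = 0) (i j : Fin k) : c i = c j := by
  have : Nonempty (Fin k) := ⟨i⟩
  obtain ⟨l, hl⟩ := Finite.exists_min c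
  have h1 : ∑ i, (c i - c l) • z i = 0 := by
    simp only [sub_smul, Finset.sum_sub_distrib, hsum, ← Finset.smul_sum, h.sum_zero, smul_zero,
      sub_zero]
  have h2 := h.nonneg_relation (c := fun i => c i - c l) (fun i => sub_nonneg.mpr (hl i)) h1
    (l := l) (sub_self _)
  have h3 := h2 i
  have h4 := h2 j
  linarith

/-- The differences z i - z j, j different from i, are linearly independent. -/
theorem linearIndependent_sub (h : Extremal z) (i : Fin k) :
    LinearIndependent ℝ (fun j : {j : Fin k // j ≠ i} => z i - z j) := by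
  rw [Fintype.linearIndependent_iff]
  intro g hg
  -- extend the coefficients
  set C := ∑ j : {j : Fin k // j ≠ i}, g j with hC
  set c : Fin k → ℝ := fun j => if hj : j ≠ i then - g ⟨j, hj⟩ else C with hcdef
  have h1 : ∑ j, c j • z j = 0 := by
    rw [← Finset.add_sum_erase _ _ (Finset.mem_univ i)]
    have h4 : ∑ j ∈ Finset.univ.erase i, c j • z j =
        ∑ j : {j : Fin k // j ≠ i}, c j • z j :=
      Finset.sum_subtype _ (fun x => by simp) _
    rw [h4]
    have h5 : ∀ j : {j : Fin k // j ≠ i}, c j • z j = - (g j • z j) := by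
      intro j
      simp only [hcdef, ne_eq, j.2, not_false_eq_true, dite_true, neg_smul]
    have h6 : c i = C := by simp [hcdef]
    rw [Finset.sum_congr rfl fun j _ => h5 j, h6, Finset.sum_neg_distrib, ← sub_eq_add_neg,
      hC, Finset.sum_smul, ← Finset.sum_sub_distrib]
    simpa only [smul_sub] using hg
  have h2 := h.relation_const h1
  have h3 : ∀ j : {j : Fin k // j ≠ i}, g j = - C := by
    intro j
    have := h2 j i
    simp only [hcdef, ne_eq, j.2, not_false_eq_true, dite_true, not_true_eq_false,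
      dite_false] at this
    linarith
  have h4 : C = (Fintype.card {j : Fin k // j ≠ i}) * (-C) := by
    conv_lhs => rw [hC, Finset.sum_congr rfl fun j _ => h3 j]
    rw [Finset.sum_const, Finset.card_univ, nsmul_eq_mul]
  have h5 : C = 0 := by
    have h6 : (0 : ℝ) ≤ Fintype.card {j : Fin k // j ≠ i} := by positivity
    have h7 : C * (1 + Fintype.card {j : Fin k // j ≠ i}) = 0 := by linarith
    rcases mul_eq_zero.mp h7 with h8 | h8
    · exact h8
    · linarith
  intro j
  rw [h3 j, h5, neg_zero]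

/-- The dual vector of a cell. -/
theorem exists_dual (h : Extremal z) (i : Fin k) :
    ∃ ξ : EuclideanSpace ℝ (Fin d), ∀ j, j ≠ i → ⟪z i - z j, ξ⟫ = 1 := by
  have hli := h.linearIndependent_sub i
  -- extend to a functional
  obtain ⟨L, hL⟩ : ∃ L : EuclideanSpace ℝ (Fin d) →ₗ[ℝ] ℝ,
      ∀ j : {j : Fin k // j ≠ i}, L (z i - z j) = 1 := by
    let b := Module.Basis.extend hli.linearIndepOn_id
    refine ⟨b.constr ℝ (fun _ => (1 : ℝ)), fun j => ?_⟩
    have hj : z i - z j ∈ hli.linearIndepOn_id.extend (Set.subset_univ _) :=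
      hli.linearIndepOn_id.subset_extend _ ⟨j, rfl⟩
    have h1 : b ⟨_, hj⟩ = z i - z j := Module.Basis.extend_apply_self _ _
    rw [← h1, Module.Basis.constr_basis]
  refine ⟨(InnerProductSpace.toDual ℝ _).symm (LinearMap.toContinuousLinearMap L), fun j hj => ?_⟩
  rw [real_inner_comm, InnerProductSpace.toDual_symm_apply]
  exact hL ⟨j, hj⟩

/-- The dual vector satisfies the normalisation identity. -/
theorem inner_dual (h : Extremal z) {i : Fin k} {ξ : EuclideanSpace ℝ (Fin d)}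
    (hξ : ∀ j, j ≠ i → ⟪z i - z j, ξ⟫ = 1) : (k : ℝ) * ⟪z i, ξ⟫ = k - 1 := by
  have h1 : ∑ j ∈ Finset.univ.erase i, ⟪z i - z j, ξ⟫ = k - 1 := by
    rw [Finset.sum_congr rfl fun j hj => hξ j (Finset.ne_of_mem_erase hj), Finset.sum_const,
      Finset.card_erase_of_mem (Finset.mem_univ i), Finset.card_univ, Fintype.card_fin,
      nsmul_eq_mul, mul_one, Nat.cast_sub h.pos_k, Nat.cast_one]
  have h2 : ∑ j, ⟪z i - z j, ξ⟫ = k * ⟪z i, ξ⟫ := by
    simp only [inner_sub_left, Finset.sum_sub_distrib, Finset.sum_const, Finset.card_univ,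
      Fintype.card_fin, nsmul_eq_mul, ← sum_inner, h.sum_zero, inner_zero_left, sub_zero]
  rw [← h2, ← h1, ← Finset.add_sum_erase _ _ (Finset.mem_univ i), sub_self, inner_zero_left,
    zero_add]

/-- Bound for the maximum over the other cells, after recentring. -/
theorem del_dual (h : Extremal z) (hk : 2 ≤ k) (hprev : Bd (k - 1)) (i : Fin k) :
    Emax (fun j : {j : Fin k // j ≠ i} => z j) ≤
      √(9 / (8 * Real.pi)) * √((∑ j, ‖z j‖ ^ 2) - k / (k - 1) * ‖z i‖ ^ 2) := by
  have hcard : Fintype.card {l : Fin k // l ≠ i} = k - 1 := by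
    rw [Fintype.card_subtype_compl]
    simp
  have : Nonempty {l : Fin k // l ≠ i} := by
    rw [← Fintype.card_pos_iff, hcard]; omega
  have hk1 : (0 : ℝ) < k - 1 := by
    have : (2 : ℝ) ≤ k := by exact_mod_cast hk
    linarith
  set v : EuclideanSpace ℝ (Fin d) := - ((1 / ((k : ℝ) - 1)) • z i) with hv
  have h1 := Bd_dual hprev hcard (fun j : {j : Fin k // j ≠ i} => z j - v)
  rw [Emax_sub_const] at h1
  refine h1.trans_eq ?_
  congr 2
  have h2 : ∑ j : {j : Fin k // j ≠ i}, ‖z j - v‖ ^ 2 = ∑ j ∈ Finset.univ.erase i,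
      ‖z j - v‖ ^ 2 :=
    (Finset.sum_subtype (Finset.univ.erase i) (fun x => by simp)
      (fun j => ‖z j - v‖ ^ 2)).symm
  have h3 : ∑ j, ‖z j - v‖ ^ 2 = (∑ j, ‖z j‖ ^ 2) + k * ‖v‖ ^ 2 := by
    simp only [norm_sub_sq_real, Finset.sum_add_distrib, Finset.sum_sub_distrib,
      ← Finset.mul_sum, ← sum_inner, h.sum_zero, inner_zero_left, mul_zero, sub_zero,
      Finset.sum_const, Finset.card_univ, Fintype.card_fin, nsmul_eq_mul]
  have h4 : z i - v = (k / ((k : ℝ) - 1)) • z i := by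
    rw [hv, sub_neg_eq_add]
    nth_rewrite 1 [← one_smul ℝ (z i)]
    rw [← add_smul]
    congr 1
    field_simp
    ring
  rw [h2]
  have h5 := Finset.add_sum_erase Finset.univ (fun j => ‖z j - v‖ ^ 2) (Finset.mem_univ i)
  rw [h3, h4, norm_smul, mul_pow, Real.norm_eq_abs, sq_abs] at h5
  have h6 : ‖v‖ ^ 2 = (1 / ((k : ℝ) - 1)) ^ 2 * ‖z i‖ ^ 2 := by
    rw [hv, norm_neg, norm_smul, mul_pow, Real.norm_eq_abs, sq_abs]
  rw [h6] at h5
  have h7 : ∑ x ∈ Finset.univ.erase i, ‖z x - v‖ ^ 2 = (∑ j, ‖z j‖ ^ 2) +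
      k * ((1 / ((k : ℝ) - 1)) ^ 2 * ‖z i‖ ^ 2) - (k / ((k : ℝ) - 1)) ^ 2 * ‖z i‖ ^ 2 := by
    linarith
  rw [h7]
  field_simp
  ring

end Extremal

end Vale.Agent.P226
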