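import Vale.Agent.Lib.P226.Sector

/-!
P226, job J5 (Facet.lean).  Lower bound for a facet density by a union bound
(uses `sector` as a black box).

Sketch: put `e = n/‖n‖`.  (1) the image of `γ₁ ⊗ γ` under `(s,y) ↦ s e + (y - ⟪e,y⟫e)` is `γ`
(characteristic functions).  (2) for `0 < s ≤ δ` and
`y ∈ B_δ = {0 < ⟪f,y⟫, ∀ i, δ |⟪e,q i⟫| < ⟪q_i^H,y⟫}` the image lies in the cell, so the facet
density is at least `φ(t/‖n‖)/‖n‖ · γ(B_δ)`.  (3) `γ(B_δ)` increases to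
`γ {0 < ⟪f,y⟫, ∀ i, 0 < ⟪q_i^H,y⟫} ≥ 1/2 - ∑ angle/(2π)` by the union bound.
-/

open MeasureTheory ProbabilityTheory Filter
open scoped RealInnerProductSpace Topology

namespace Vale.Agent.P226

variable {E : Type*} [NormedAddCommGroup E] [InnerProductSpace ℝ E]
  [FiniteDimensional ℝ E] [MeasurableSpace E] [BorelSpace E]

/-- Gaussian decomposition along a unit vector. -/
theorem facet_decomp {e : E} (he : ‖e‖ = 1) :
    ((gaussianReal 0 1).prod (stdGaussian E)).map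
      (fun z : ℝ × E => z.1 • e + (z.2 - ⟪e, z.2⟫ • e)) = stdGaussian E := by
  have hee : ⟪e, e⟫ = (1 : ℝ) := by rw [real_inner_self_eq_norm_sq, he]; norm_num
  apply Measure.ext_of_charFun
  ext t
  have hmeas : Measurable (fun z : ℝ × E => z.1 • e + (z.2 - ⟪e, z.2⟫ • e)) := by fun_prop
  rw [charFun_apply, integral_map hmeas.aemeasurable (by fun_prop)]
  set u : E := t - ⟪e, t⟫ • e with hu
  have h1 : ∀ z : ℝ × E, Complex.exp ((⟪z.1 • e + (z.2 - ⟪e, z.2⟫ • e), t⟫ : ℝ) * Complex.I) =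
      Complex.exp ((⟪z.1, ⟪e, t⟫⟫ : ℝ) * Complex.I) * Complex.exp ((⟪z.2, u⟫ : ℝ) * Complex.I) := by
    intro z
    rw [← Complex.exp_add, ← add_mul, ← Complex.ofReal_add]
    congr 3
    rw [hu, inner_add_left, inner_sub_left, inner_sub_right, real_inner_smul_left,
      real_inner_smul_left, real_inner_smul_right, real_inner_comm z.2 e]
    simp [mul_comm]
  simp_rw [h1]
  rw [integral_prod_mul (fun s : ℝ => Complex.exp ((⟪s, ⟪e, t⟫⟫ : ℝ) * Complex.I))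
    (fun y : E => Complex.exp ((⟪y, u⟫ : ℝ) * Complex.I)), ← charFun_apply, ← charFun_apply,
    charFun_stdGaussian, charFun_stdGaussian, charFun_gaussianReal, ← Complex.exp_add]
  congr 1
  have h2 : ‖u‖ ^ 2 = ‖t‖ ^ 2 - ⟪e, t⟫ ^ 2 := by
    rw [hu, ← real_inner_self_eq_norm_sq, inner_sub_left, inner_sub_right, inner_sub_right,
      real_inner_smul_left, real_inner_smul_left, real_inner_smul_right, real_inner_smul_right,
      hee, real_inner_self_eq_norm_sq, real_inner_comm e t]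
    ring
  have h3 : ((‖u‖ : ℂ)) ^ 2 = (‖t‖ : ℂ) ^ 2 - (⟪e, t⟫ : ℂ) ^ 2 := by exact_mod_cast h2
  rw [h3]
  push_cast
  ring

/-- a half space through the origin has Gaussian measure one half -/
theorem facet_half {f : E} (hf : f ≠ 0) : (stdGaussian E).real {x | 0 < ⟪f, x⟫} = 1 / 2 := by
  have h := sector f (-f) hf (neg_ne_zero.2 hf)
  rw [InnerProductGeometry.angle_neg_right, InnerProductGeometry.angle_self hf] at h
  have h1 : {x : E | 0 < ⟪f, x⟫ ∧ ⟪-f, x⟫ < 0} = {x | 0 < ⟪f, x⟫} := by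
    ext x
    simp only [Set.mem_ofPred_eq, inner_neg_left]
    constructor
    · exact fun h => h.1
    · exact fun h => ⟨h, by linarith⟩
  rw [h1] at h
  rw [h]
  have := Real.pi_pos
  field_simp
  ring

theorem facet_measurable_pos (f : E) : MeasurableSet {x : E | 0 < ⟪f, x⟫} :=
  measurableSet_lt measurable_const (by fun_prop)

/-- Gaussian measure of a sector with one closed side -/
theorem facet_sector_le {f q : E} (hf : f ≠ 0) (hq : q ≠ 0) :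
    (stdGaussian E).real {x | 0 < ⟪f, x⟫ ∧ ⟪q, x⟫ ≤ 0} =
      InnerProductGeometry.angle f q / (2 * Real.pi) := by
  have h := sector f (-q) hf (neg_ne_zero.2 hq)
  rw [InnerProductGeometry.angle_neg_right] at h
  have h1 : {x : E | 0 < ⟪f, x⟫ ∧ ⟪-q, x⟫ < 0} = {x | 0 < ⟪f, x⟫} ∩ {x | 0 < ⟪q, x⟫} := by
    ext x
    simp only [Set.mem_ofPred_eq, inner_neg_left, Set.mem_inter_iff]
    constructor
    · exact fun h => ⟨h.1, by linarith [h.2]⟩
    · exact fun h => ⟨h.1, by linarith [h.2]⟩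
  have h2 : {x : E | 0 < ⟪f, x⟫ ∧ ⟪q, x⟫ ≤ 0} = {x | 0 < ⟪f, x⟫} \ {x | 0 < ⟪q, x⟫} := by
    ext x
    simp only [Set.mem_ofPred_eq, Set.mem_sdiff, not_lt]
  have h3 := measureReal_inter_add_sdiff (μ := stdGaussian E) (s := {x : E | 0 < ⟪f, x⟫})
    (facet_measurable_pos q)
  rw [← h1, ← h2, h, facet_half hf] at h3
  have := Real.pi_pos
  have h4 : (Real.pi - InnerProductGeometry.angle f q) / (2 * Real.pi) =
      1 / 2 - InnerProductGeometry.angle f q / (2 * Real.pi) := by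
    field_simp
  rw [h4] at h3
  linarith

/-- the union bound -/
theorem facet_union {f : E} (hf : f ≠ 0) {κ : Type} [Fintype κ] (r : κ → E)
    (hr : ∀ i, r i ≠ 0) :
    1 / 2 - ∑ i, InnerProductGeometry.angle f (r i) / (2 * Real.pi) ≤
      (stdGaussian E).real {x | 0 < ⟪f, x⟫ ∧ ∀ i, 0 < ⟪r i, x⟫} := by
  have h1 : {x : E | 0 < ⟪f, x⟫} ⊆ {x | 0 < ⟪f, x⟫ ∧ ∀ i, 0 < ⟪r i, x⟫} ∪
      ⋃ i, {x | 0 < ⟪f, x⟫ ∧ ⟪r i, x⟫ ≤ 0} := by
    intro x hx
    by_cases h : ∀ i, 0 < ⟪r i, x⟫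
    · exact Or.inl ⟨hx, h⟩
    · push Not at h
      obtain ⟨i, hi⟩ := h
      exact Or.inr (Set.mem_iUnion.2 ⟨i, hx, hi⟩)
  have h2 := measureReal_mono (μ := stdGaussian E) h1
  have h3 := measureReal_union_le (μ := stdGaussian E)
    {x : E | 0 < ⟪f, x⟫ ∧ ∀ i, 0 < ⟪r i, x⟫} (⋃ i, {x | 0 < ⟪f, x⟫ ∧ ⟪r i, x⟫ ≤ 0})
  have h4 := measureReal_iUnion_fintype_le (μ := stdGaussian E)
    (fun i => {x : E | 0 < ⟪f, x⟫ ∧ ⟪r i, x⟫ ≤ 0})
  rw [facet_half hf] at h2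
  have h5 : ∑ i, (stdGaussian E).real {x : E | 0 < ⟪f, x⟫ ∧ ⟪r i, x⟫ ≤ 0} =
      ∑ i, InnerProductGeometry.angle f (r i) / (2 * Real.pi) :=
    Finset.sum_congr rfl fun i _ => facet_sector_le hf (hr i)
  rw [h5] at h4
  linarith

/-- one-dimensional Gaussian mass of a short interval at the origin -/
theorem facet_Ioc {δ : ℝ} (hδ : 0 < δ) :
    δ * phi δ ≤ (gaussianReal 0 1).real (Set.Ioc 0 δ) := by
  have h1 : (gaussianReal 0 1).real (Set.Ioc 0 δ) =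
      ∫ x in Set.Ioc 0 δ, gaussianPDFReal 0 1 x := by
    rw [measureReal_def, gaussianReal_apply_eq_integral 0 one_ne_zero,
      ENNReal.toReal_ofReal]
    exact integral_nonneg fun x => gaussianPDFReal_nonneg _ _ _
  rw [h1]
  have h2 : ∫ _x in Set.Ioc 0 δ, phi δ = δ * phi δ := by
    rw [setIntegral_const, measureReal_def, Real.volume_Ioc]
    simp [hδ.le]
  rw [← h2]
  refine setIntegral_mono_on ?_ ((integrable_gaussianPDFReal 0 1).integrableOn)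
    measurableSet_Ioc ?_
  · exact (continuous_const.integrableOn_Ioc)
  · intro x hx
    unfold phi gaussianPDFReal
    have hx1 : x ^ 2 ≤ δ ^ 2 := pow_le_pow_left₀ hx.1.le hx.2 2
    have h3 : Real.exp (-δ ^ 2 / 2) ≤ Real.exp (-x ^ 2 / 2) := Real.exp_le_exp.2 (by linarith)
    simp only [NNReal.coe_one, mul_one, sub_zero]
    rw [div_eq_inv_mul]
    exact mul_le_mul_of_nonneg_left h3 (by positivity)

theorem facet_coverage {n f : E} (hn : n ≠ 0) (hf : f ≠ 0) (hnf : ⟪n, f⟫ = 0)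
    {κ : Type} [Fintype κ] (q : κ → E) (hq : ∀ i, q i - (⟪n, q i⟫ / ‖n‖ ^ 2) • n ≠ 0)
    {w : ℝ}
    (hlim : Tendsto (fun t : ℝ => (stdGaussian E).real
      {x | 0 < ⟪n, x⟫ ∧ ⟪n, x⟫ ≤ t ∧ ∀ i, 0 < ⟪q i, x⟫} / t) (𝓝[>] 0) (𝓝 w)) :
    Real.pi - ∑ i, InnerProductGeometry.angle f (q i - (⟪n, q i⟫ / ‖n‖ ^ 2) • n) ≤
      2 * Real.pi * Real.sqrt (2 * Real.pi) * ‖n‖ * w := by
  have hN : 0 < ‖n‖ := norm_pos_iff.2 hn
  set e : E := ‖n‖⁻¹ • n with he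
  have he1 : ‖e‖ = 1 := by
    rw [he, norm_smul, norm_inv, norm_norm, inv_mul_cancel₀ hN.ne']
  set r : κ → E := fun i => q i - (⟪n, q i⟫ / ‖n‖ ^ 2) • n with hr
  -- the increasing sets
  set B : ℝ → Set E := fun δ => {y | 0 < ⟪f, y⟫ ∧ ∀ i, δ * |⟪e, q i⟫| < ⟪r i, y⟫} with hB
  have hBmeas : ∀ δ, MeasurableSet (B δ) := by
    intro δ
    have h1 : B δ = {y | 0 < ⟪f, y⟫} ∩ ⋂ i, {y | δ * |⟪e, q i⟫| < ⟪r i, y⟫} := by
      ext y
      simp [hB]
    rw [h1]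
    exact (facet_measurable_pos f).inter (MeasurableSet.iInter fun i =>
      measurableSet_lt measurable_const (by fun_prop))
  have hne : ⟪n, e⟫ = ‖n‖ := by
    rw [he, real_inner_smul_right, real_inner_self_eq_norm_sq]
    field_simp
  have hproj : ∀ (i : κ) (s : ℝ) (y : E), ⟪q i, s • e + (y - ⟪e, y⟫ • e)⟫ =
      s * ⟪e, q i⟫ + ⟪r i, y⟫ := by
    intro i s y
    have h1 : ⟪e, y⟫ = ‖n‖⁻¹ * ⟪n, y⟫ := by rw [he, real_inner_smul_left]
    have h2 : ⟪e, q i⟫ = ‖n‖⁻¹ * ⟪n, q i⟫ := by rw [he, real_inner_smul_left]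
    have h3 : ⟪q i, e⟫ = ‖n‖⁻¹ * ⟪n, q i⟫ := by rw [real_inner_comm, h2]
    have a1 : ⟪q i, s • e⟫ = s * ⟪q i, e⟫ := real_inner_smul_right _ _ _
    have a2 : ⟪q i, ⟪e, y⟫ • e⟫ = ⟪e, y⟫ * ⟪q i, e⟫ := real_inner_smul_right _ _ _
    have a3 : ⟪r i, y⟫ = ⟪q i, y⟫ - (⟪n, q i⟫ / ‖n‖ ^ 2) * ⟪n, y⟫ := by
      simp only [hr]
      rw [inner_sub_left, real_inner_smul_left]
    rw [inner_add_right, inner_sub_right, a1, a2, a3, h3, h1, h2]
    field_simp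
  -- the pointwise lower bound
  have hlow : ∀ δ₀ : ℝ, 0 < δ₀ → ∀ t : ℝ, 0 < t → t / ‖n‖ ≤ δ₀ →
      (t / ‖n‖ * phi (t / ‖n‖)) * (stdGaussian E).real (B δ₀) ≤
      (stdGaussian E).real {x | 0 < ⟪n, x⟫ ∧ ⟪n, x⟫ ≤ t ∧ ∀ i, 0 < ⟪q i, x⟫} := by
    intro δ₀ hδ₀ t ht htδ
    have hmeas : Measurable (fun z : ℝ × E => z.1 • e + (z.2 - ⟪e, z.2⟫ • e)) := by fun_prop
    have hSmeas : MeasurableSet {x : E | 0 < ⟪n, x⟫ ∧ ⟪n, x⟫ ≤ t ∧ ∀ i, 0 < ⟪q i, x⟫} := by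
      have h1 : {x : E | 0 < ⟪n, x⟫ ∧ ⟪n, x⟫ ≤ t ∧ ∀ i, 0 < ⟪q i, x⟫} =
          {x | 0 < ⟪n, x⟫} ∩ ({x | ⟪n, x⟫ ≤ t} ∩ ⋂ i, {x | 0 < ⟪q i, x⟫}) := by
        ext x
        simp
      rw [h1]
      exact (facet_measurable_pos n).inter ((measurableSet_le (by fun_prop)
        measurable_const).inter (MeasurableSet.iInter fun i => facet_measurable_pos (q i)))
    have h1 : (stdGaussian E).real {x | 0 < ⟪n, x⟫ ∧ ⟪n, x⟫ ≤ t ∧ ∀ i, 0 < ⟪q i, x⟫} =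
        ((gaussianReal 0 1).prod (stdGaussian E)).real
          ((fun z : ℝ × E => z.1 • e + (z.2 - ⟪e, z.2⟫ • e)) ⁻¹'
            {x | 0 < ⟪n, x⟫ ∧ ⟪n, x⟫ ≤ t ∧ ∀ i, 0 < ⟪q i, x⟫}) := by
      conv_lhs => rw [← facet_decomp he1]
      rw [map_measureReal_apply hmeas hSmeas]
    rw [h1]
    have hδ : 0 < t / ‖n‖ := div_pos ht hN
    have h2 : (Set.Ioc 0 (t / ‖n‖)) ×ˢ (B δ₀) ⊆
        ((fun z : ℝ × E => z.1 • e + (z.2 - ⟪e, z.2⟫ • e)) ⁻¹'
            {x | 0 < ⟪n, x⟫ ∧ ⟪n, x⟫ ≤ t ∧ ∀ i, 0 < ⟪q i, x⟫}) := by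
      rintro ⟨s, y⟩ ⟨⟨hs0, hs1⟩, hy⟩
      simp only at hs0 hs1 hy
      have h3 : ⟪n, s • e + (y - ⟪e, y⟫ • e)⟫ = s * ‖n‖ := by
        have h4 : ⟪e, y⟫ = ‖n‖⁻¹ * ⟪n, y⟫ := by rw [he, real_inner_smul_left]
        have a1 : ⟪n, s • e⟫ = s * ⟪n, e⟫ := real_inner_smul_right _ _ _
        have a2 : ⟪n, ⟪e, y⟫ • e⟫ = ⟪e, y⟫ * ⟪n, e⟫ := real_inner_smul_right _ _ _
        rw [inner_add_right, inner_sub_right, a1, a2, hne, h4]
        field_simp
        ring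
      refine ⟨?_, ?_, fun i => ?_⟩
      · rw [h3]
        positivity
      · rw [h3]
        rwa [le_div_iff₀ hN] at hs1
      · rw [hproj]
        have h4 := hy.2 i
        have h5 : -(s * ⟪e, q i⟫) ≤ δ₀ * |⟪e, q i⟫| := by
          calc -(s * ⟪e, q i⟫) ≤ |s * ⟪e, q i⟫| := neg_le_abs _
            _ = s * |⟪e, q i⟫| := by rw [abs_mul, abs_of_pos hs0]
            _ ≤ δ₀ * |⟪e, q i⟫| :=
              mul_le_mul_of_nonneg_right (hs1.trans htδ) (abs_nonneg _)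
        linarith
    have h3 := measureReal_mono (μ := (gaussianReal 0 1).prod (stdGaussian E)) h2
    rw [measureReal_prod_prod] at h3
    exact (mul_le_mul_of_nonneg_right (facet_Ioc hδ) measureReal_nonneg).trans h3
  -- passing to the limit in `t`
  have hw : ∀ δ₀ : ℝ, 0 < δ₀ →
      (‖n‖⁻¹ * phi 0) * (stdGaussian E).real (B δ₀) ≤ w := by
    intro δ₀ hδ₀
    have hcont : Tendsto (fun t : ℝ => (‖n‖⁻¹ * phi (t / ‖n‖)) * (stdGaussian E).real (B δ₀))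
        (𝓝[>] 0) (𝓝 ((‖n‖⁻¹ * phi 0) * (stdGaussian E).real (B δ₀))) := by
      have hc : Continuous (fun t : ℝ => (‖n‖⁻¹ * phi (t / ‖n‖)) *
          (stdGaussian E).real (B δ₀)) := by
        unfold phi
        fun_prop
      have := hc.tendsto 0
      simp only [zero_div] at this
      exact this.mono_left nhdsWithin_le_nhds
    refine le_of_tendsto_of_tendsto hcont hlim ?_
    have hev : ∀ᶠ t : ℝ in 𝓝[>] 0, t < δ₀ * ‖n‖ :=
      nhdsWithin_le_nhds (Iio_mem_nhds (by positivity))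
    filter_upwards [hev, self_mem_nhdsWithin] with t ht1 ht0
    have ht0' : (0 : ℝ) < t := ht0
    rw [le_div_iff₀ ht0']
    refine le_trans (le_of_eq ?_) (hlow δ₀ hδ₀ t ht0' ?_)
    · field_simp
    · rw [div_le_iff₀ hN]
      exact ht1.le
  -- passing to the limit in `δ₀`
  have hlim2 : Tendsto (fun k : ℕ => (stdGaussian E).real (B (1 / ((k : ℝ) + 1)))) atTop
      (𝓝 ((stdGaussian E).real {x | 0 < ⟪f, x⟫ ∧ ∀ i, 0 < ⟪r i, x⟫})) := by
    have hmono : Monotone (fun k : ℕ => B (1 / ((k : ℝ) + 1))) := by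
      intro k l hkl y hy
      refine ⟨hy.1, fun i => lt_of_le_of_lt ?_ (hy.2 i)⟩
      exact mul_le_mul_of_nonneg_right (Nat.one_div_le_one_div hkl) (abs_nonneg _)
    have hun : ⋃ k : ℕ, B (1 / ((k : ℝ) + 1)) = {x | 0 < ⟪f, x⟫ ∧ ∀ i, 0 < ⟪r i, x⟫} := by
      ext y
      simp only [Set.mem_iUnion, Set.mem_ofPred_eq, hB]
      constructor
      · rintro ⟨k, hk, hk'⟩
        exact ⟨hk, fun i => lt_of_le_of_lt (by positivity) (hk' i)⟩
      · rintro ⟨hy, hy'⟩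
        have hev : ∀ i, ∀ᶠ k : ℕ in atTop, 1 / ((k : ℝ) + 1) * |⟪e, q i⟫| < ⟪r i, y⟫ := by
          intro i
          have h1 : Tendsto (fun k : ℕ => 1 / ((k : ℝ) + 1) * |⟪e, q i⟫|) atTop (𝓝 0) := by
            have := (tendsto_one_div_add_atTop_nhds_zero_nat (𝕜 := ℝ)).mul_const |⟪e, q i⟫|
            simpa using this
          exact h1.eventually (Iio_mem_nhds (hy' i))
        obtain ⟨k, hk⟩ := (eventually_all.2 hev).exists
        exact ⟨k, hy, hk⟩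
    have h1 := tendsto_measure_iUnion_atTop (μ := stdGaussian E) hmono
    rw [hun] at h1
    exact (ENNReal.tendsto_toReal (measure_ne_top _ _)).comp h1
  have hfin : (‖n‖⁻¹ * phi 0) *
      (stdGaussian E).real {x | 0 < ⟪f, x⟫ ∧ ∀ i, 0 < ⟪r i, x⟫} ≤ w := by
    refine le_of_tendsto (hlim2.const_mul (‖n‖⁻¹ * phi 0)) (Eventually.of_forall fun k => ?_)
    exact hw _ Nat.one_div_pos_of_nat
  have hu := facet_union hf r hq
  have hphi : phi 0 = 1 / Real.sqrt (2 * Real.pi) := by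
    unfold phi
    simp
  rw [hphi] at hfin
  set G := (stdGaussian E).real {x | 0 < ⟪f, x⟫ ∧ ∀ i, 0 < ⟪r i, x⟫} with hG
  have hsq : 0 < Real.sqrt (2 * Real.pi) := Real.sqrt_pos.2 (by positivity)
  have hpi := Real.pi_pos
  have h1 : G ≤ Real.sqrt (2 * Real.pi) * ‖n‖ * w := by
    have h2 := mul_le_mul_of_nonneg_left hfin (mul_pos hsq hN).le
    refine le_trans (le_of_eq ?_) h2
    field_simp
  have h3 : 2 * Real.pi * (1 / 2 - ∑ i, InnerProductGeometry.angle f (r i) / (2 * Real.pi)) =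
      Real.pi - ∑ i, InnerProductGeometry.angle f (r i) := by
    rw [← Finset.sum_div]
    field_simp
  rw [← h3]
  calc 2 * Real.pi * (1 / 2 - ∑ i, InnerProductGeometry.angle f (r i) / (2 * Real.pi))
      ≤ 2 * Real.pi * G := mul_le_mul_of_nonneg_left hu (by positivity)
    _ ≤ 2 * Real.pi * (Real.sqrt (2 * Real.pi) * ‖n‖ * w) :=
        mul_le_mul_of_nonneg_left h1 (by positivity)
    _ = _ := by ring

end Vale.Agent.P226
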