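import Vale.Agent.Lib.P226.NumRegion

/-!
P226, job J11c (Num5.lean).  The numerical lemma for five cells (`c = 5/4`).

`x i = s i ^ 2`, `a i = Q (τ i)`; `b₁ b₂ b₃` from `region`, the other two are `4, 5` with `s₅ ≤ s₄`;
`B = {b₁,b₂,b₃}`, `X = x₄ + x₅`.  Ratio: `4/9 ≤ 5 * 0.13`.
* Case I (`x b₃ ≤ 0.2`): fact15 for `b₁,b₂`, fact16 for `b₃`: summing,
  `(a₄ - 0.7 x₄) + (a₅ - 0.7 x₅) ≤ 0.3 - 0.1355 - 0.0828 = 0.0817`.  If `x₄ ≥ 0.105` (and `x₄ ≤ x b₃ ≤ 0.2`)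
  fact17 gives `a₄ - 0.7 x₄ ≥ 0.0819`, and `a₅ ≥ 0.7 x₅` (fact1): contradiction.  So `x₄ < 0.105`, then fact14
  gives `0.78 X ≤ 0.0817`, so `X ≤ 0.1048` and `∑_{4,5} (a - 0.6 x) ≤ 0.0817 + 0.1 X ≤ 0.0922`.
* Case II (`x b₃ ≥ 0.2`): fact18 three times: `∑_{4,5} (a - 0.6 x) ≤ 0.4 - 0.3084 = 0.0916`; `x₄ ≥ 0.105`
  contradicts fact19 (`x₄ ≤ 1/4`) and fact1 for `x₅`.
So `x₄ < 0.105`, `∑_{4,5} (a - 0.6 x) ≤ 0.0922`.
* Final inequality.  `L² ∈ [5/9 - X, 1 - X]`.  `√X ≤ s₄ + s₅/2`.  `r ≤ 1 + 1.25 * 2.7926 a_i²` for i = 4, 5.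
  (a) `s₄ ≤ 0.125`: (all crude, margin 0.2).  `min a ≤ 0.056`.
  (b) `0.125 ≤ s₄ ≤ 0.2`: fact6 for 4, then `a₅ - 0.6 x₅ ≤ 0.08 - 0.283 s₄ < 0.0447`, so `s₅ < 0.125` (fact6 again)
      and fact5: `0.381 s₅ ≤ 0.08 - 0.283 s₄`.
  (c) `0.2 ≤ s₄`: fact7: `0.381 s₅ ≤ a₅ - 0.6 x₅ ≤ 0.0597 - 0.182 s₄` (and `s₅ < 0.125` by fact6, fact7).
  In (b), (c) use `arcsin t ≤ π/(2√2) t` (`t = 2√X/(√3 L) ≤ 0.6`), `arctan w ≤ π/4 + (w-1)/2` for 4 and
  `arctan w ≤ w` for 5; after multiplying by `L` it is enough that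
  `3.0146 s₄ + 4.105 s₅ < (2.85619 - 1.88496 r L) L`, concave in `L` so check `L = √(5/9-X)` (≥ 0.66) and
  `L = √(1-X)`: there the right side is at least `0.9712 + 0.4154 X - 1.885 (r-1)`; the left side is at most
  `0.8619 - 0.034 s₄` in (b) and `0.6432 + 1.0537 s₄` in (c), `s₄ ≤ 0.32404`.  Margins 0.03.
-/

open MeasureTheory ProbabilityTheory Filter
open scoped RealInnerProductSpace Topology

namespace Vale.Agent.P226


/-- the trigonometric part of the final inequality -/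
private theorem trig5 {s₄ s₅ L r : ℝ} (h4 : 0 < s₄) (h5 : 0 < s₅) (h54 : s₅ ≤ s₄) (hL : 0 < L)
    (hr : 0 < r) (hX : 4 * (s₄ ^ 2 + s₅ ^ 2) ≤ 3 / 2 * L ^ 2) (hrL : r * L ≤ 5 / 4)
    (main : 3.0147 * s₄ + 4.1055 * s₅ < (2.85619 - 1.88496 * (r * L)) * L) :
    Real.arcsin (2 * Real.sqrt (s₄ ^ 2 + s₅ ^ 2) / (Real.sqrt 3 * L)) +
      (Real.arctan (2 * Real.sqrt 3 * s₄ / L) + Real.arctan (2 * Real.sqrt 3 * s₅ / L)) <
      Real.pi * (1 - 3 * r * L / 5) := by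
  have h3pos : 0 < Real.sqrt 3 := Real.sqrt_pos.mpr (by norm_num)
  have h3sq : Real.sqrt 3 ^ 2 = 3 := Real.sq_sqrt (by norm_num)
  have h2pos : 0 < Real.sqrt 2 := Real.sqrt_pos.mpr (by norm_num)
  have h2sq : Real.sqrt 2 ^ 2 = 2 := Real.sq_sqrt (by norm_num)
  have h3u : Real.sqrt 3 ≤ 1.7321 := by
    rw [Real.sqrt_le_left (by norm_num)]; norm_num
  have h3l : 1.73205 ≤ Real.sqrt 3 := Real.le_sqrt_of_sq_le (by norm_num)
  have h2l : 1.41421 ≤ Real.sqrt 2 := Real.le_sqrt_of_sq_le (by norm_num)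
  have hpl : 3.14159 < Real.pi := by
    have := Real.pi_gt_d6; linarith
  have hpu : Real.pi < 3.1416 := by
    have := Real.pi_lt_d4; linarith
  -- the square root
  have hsq : Real.sqrt (s₄ ^ 2 + s₅ ^ 2) ≤ s₄ + s₅ / 2 := by
    apply Real.sqrt_le_iff.mpr
    constructor
    · positivity
    · nlinarith
  have hsq0 : 0 ≤ Real.sqrt (s₄ ^ 2 + s₅ ^ 2) := Real.sqrt_nonneg _
  set Y := Real.sqrt (s₄ ^ 2 + s₅ ^ 2) with hY
  have hYsq : Y ^ 2 = s₄ ^ 2 + s₅ ^ 2 := Real.sq_sqrt (by positivity)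
  have ht0 : 0 ≤ 2 * Y / (Real.sqrt 3 * L) := by positivity
  have ht1 : 2 * Y / (Real.sqrt 3 * L) ≤ Real.sqrt 2 / 2 := by
    rw [div_le_iff₀ (by positivity)]
    rw [← sq_le_sq₀ (by positivity) (by positivity)]
    have e : (Real.sqrt 2 / 2 * (Real.sqrt 3 * L)) ^ 2 =
        Real.sqrt 2 ^ 2 * Real.sqrt 3 ^ 2 * L ^ 2 / 4 := by ring
    rw [e, h2sq, h3sq, mul_pow, hYsq]
    linarith
  have hA := arcsin_K2 ht0 ht1
  have hB := arctan_T2 (w := 2 * Real.sqrt 3 * s₄ / L) (by positivity)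
  have hC := arctan_le_self' (w := 2 * Real.sqrt 3 * s₅ / L) (by positivity)
  have hA' : Real.pi / (2 * Real.sqrt 2) * (2 * Y / (Real.sqrt 3 * L)) ≤
      1.2826 * (s₄ + s₅ / 2) / L := by
    have e : Real.pi / (2 * Real.sqrt 2) * (2 * Y / (Real.sqrt 3 * L)) =
        (Real.pi / (Real.sqrt 2 * Real.sqrt 3)) * Y / L := by
      field_simp
    rw [e]
    have h6 : Real.pi / (Real.sqrt 2 * Real.sqrt 3) ≤ 1.2826 := by
      rw [div_le_iff₀ (by positivity)]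
      nlinarith
    gcongr
  have hB' : (2 * Real.sqrt 3 * s₄ / L - 1) / 2 ≤ 1.7321 * s₄ / L - 1 / 2 := by
    have e : (2 * Real.sqrt 3 * s₄ / L - 1) / 2 = Real.sqrt 3 * s₄ / L - 1 / 2 := by ring
    rw [e]
    gcongr
  have hC' : 2 * Real.sqrt 3 * s₅ / L ≤ 3.4642 * s₅ / L := by
    gcongr
    linarith
  have hM : 3.0147 * s₄ / L + 4.1055 * s₅ / L < 2.85619 - 1.88496 * (r * L) := by
    rw [← add_div, div_lt_iff₀ hL]
    exact main
  have hfin : 2.85619 - 1.88496 * (r * L) ≤ Real.pi * (3 / 4 - 3 * (r * L) / 5) + 1 / 2 := by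
    have hneg : 0 < r * L := by positivity
    nlinarith
  have hs4 : 1.2826 * (s₄ + s₅ / 2) / L + 1.7321 * s₄ / L + 3.4642 * s₅ / L =
      3.0147 * s₄ / L + 4.1055 * s₅ / L := by ring
  have e2 : Real.pi * (1 - 3 * r * L / 5) = Real.pi * (3 / 4 - 3 * (r * L) / 5) + Real.pi / 4 := by
    ring
  rw [e2]
  linarith


private theorem rhs5 {L r : ℝ} (h1 : L ≤ 1) (h2 : 0.66 ≤ L) (hr : r ≤ 1.011) :
    0.9504 ≤ (2.85619 - 1.88496 * (r * L)) * L := by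
  have h : r * L ^ 2 ≤ 1.011 * L ^ 2 := by gcongr
  have h3 : 0 ≤ (1 - L) * (L - 0.66) := mul_nonneg (by linarith) (by linarith)
  nlinarith

private theorem rle5 {a b r : ℝ} (ha : 0 < a) (hab : a ≤ b) (h : r ≤ 1 + 3.49075 * a ^ 2) :
    r ≤ 1 + 3.49075 * b ^ 2 := by
  have : a ^ 2 ≤ b ^ 2 := by gcongr
  linarith

private theorem sq5 {s b : ℝ} (hs : 0 < s) (hsb : s ≤ b) : s ^ 2 ≤ b * s := by
  nlinarith

private theorem final5c {s L r : ℝ} (hs : 0.2 ≤ s) (hs' : s ^ 2 ≤ 0.105) (h1 : L ^ 2 ≤ 1 - s ^ 2)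
    (h2 : 0.66 ≤ L) (hr : r ≤ 1.0024) :
    0.643304 + 1.053542 * s < (2.85619 - 1.88496 * (r * L)) * L := by
  have h4' : s ≤ 0.3241 := by nlinarith
  have hM : L ≤ 1 - s ^ 2 / 2 := by
    by_contra hcon
    push Not at hcon
    nlinarith
  have h : r * L ^ 2 ≤ 1.0024 * L ^ 2 := by gcongr
  set q := s ^ 2 with hq
  have hM1 : 0.9475 ≤ 1 - q / 2 := by linarith
  have h3 : 0 ≤ ((1 - q / 2) - L) * (1.889484 * (L + (1 - q / 2)) - 2.85619) :=
    mul_nonneg (by linarith) (by linarith)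
  have hq0 : 0 ≤ q := by positivity
  have h4 : 0.9667 + 0.4117 * q ≤ 2.85619 * (1 - q / 2) - 1.889484 * (1 - q / 2) ^ 2 := by
    nlinarith
  have h5 : 2.85619 * (1 - q / 2) - 1.889484 * (1 - q / 2) ^ 2 ≤
      2.85619 * L - 1.889484 * L ^ 2 := by
    have e : 2.85619 * L - 1.889484 * L ^ 2 -
      (2.85619 * (1 - q / 2) - 1.889484 * (1 - q / 2) ^ 2) =
      ((1 - q / 2) - L) * (1.889484 * (L + (1 - q / 2)) - 2.85619) := by ring
    linarith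
  have h6 : 0.643304 + 1.053542 * s < 0.9667 + 0.4117 * q := by
    rw [hq]; nlinarith
  have e7 : (2.85619 - 1.88496 * (r * L)) * L = 2.85619 * L - 1.88496 * (r * L ^ 2) := by ring
  have h8 : 0 ≤ L ^ 2 := by positivity
  rw [e7]
  linarith

private theorem main5 {s₄ s₅ a₄ a₅ L r : ℝ} (h4 : 0 < s₄) (h5 : 0 < s₅) (h54 : s₅ ≤ s₄)
    (hL : 0 < L)
    (hT : (a₄ - 0.6 * s₄ ^ 2) + (a₅ - 0.6 * s₅ ^ 2) ≤ 0.0922)
    (ha4 : 0 < a₄) (ha5 : 0 < a₅)
    (f54 : s₄ ≤ 0.125 → 0.6 * s₄ ^ 2 + 0.381 * s₄ ≤ a₄)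
    (f55 : s₅ ≤ 0.125 → 0.6 * s₅ ^ 2 + 0.381 * s₅ ≤ a₅)
    (f64 : 0.125 ≤ s₄ → s₄ ≤ 0.2 → 0.6 * s₄ ^ 2 + 0.283 * s₄ + 0.0122 ≤ a₄)
    (f65 : 0.125 ≤ s₅ → s₅ ≤ 0.2 → 0.6 * s₅ ^ 2 + 0.283 * s₅ + 0.0122 ≤ a₅)
    (f74 : 0.2 ≤ s₄ → s₄ ≤ 0.33 → 0.6 * s₄ ^ 2 + 0.182 * s₄ + 0.0325 ≤ a₄)
    (f75 : 0.2 ≤ s₅ → s₅ ≤ 0.33 → 0.6 * s₅ ^ 2 + 0.182 * s₅ + 0.0325 ≤ a₅)
    (hx : s₄ ^ 2 ≤ 0.105)
    (hr4 : r ≤ 1 + 3.49075 * a₄ ^ 2) (hr5 : r ≤ 1 + 3.49075 * a₅ ^ 2)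
    (hL1 : L ^ 2 ≤ 1 - (s₄ ^ 2 + s₅ ^ 2)) (hL2 : 0.4456 ≤ L ^ 2) :
    3.0147 * s₄ + 4.1055 * s₅ < (2.85619 - 1.88496 * (r * L)) * L ∧ r ≤ 1.011 := by
  have hp4 : 0 < s₄ ^ 2 := by positivity
  have hp5 : 0 < s₅ ^ 2 := by positivity
  have hL3 : L ≤ 1 := by
    by_contra hcon
    push Not at hcon
    nlinarith only [hcon, hL1, hp4, hp5]
  have hL4 : 0.66 ≤ L := by
    by_contra hcon
    push Not at hcon
    nlinarith only [hcon, hL2, hL]
  have h4' : s₄ ≤ 0.3241 := by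
    by_contra hcon
    push Not at hcon
    nlinarith only [hcon, hx]
  rcases le_total s₄ 0.125 with hs | hs
  · -- case (a)
    have f4 := f54 hs
    have f5 := f55 (h54.trans hs)
    have hsum : s₄ + s₅ ≤ 0.242 := by linarith
    have hq4 : s₄ ^ 2 ≤ 0.125 * s₄ := sq5 h4 hs
    have hq5 : s₅ ^ 2 ≤ 0.125 * s₅ := sq5 h5 (h54.trans hs)
    have hmin : r ≤ 1.011 := by
      rcases le_total a₄ a₅ with h | h
      · have : a₄ ≤ 0.0553 := by linarith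
        have := rle5 ha4 this hr4
        linarith
      · have : a₅ ≤ 0.0553 := by linarith
        have := rle5 ha5 this hr5
        linarith
    refine ⟨lt_of_lt_of_le ?_ (rhs5 hL3 hL4 hmin), hmin⟩
    linarith
  rcases le_total s₄ 0.2 with hs' | hs'
  · -- case (b)
    have f4 := f64 hs hs'
    have hs5 : s₅ < 0.125 := by
      by_contra hcon
      push Not at hcon
      have := f65 hcon (h54.trans hs')
      linarith
    have f5 := f55 hs5.le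
    have hq5 : s₅ ≤ 0.1172 := by linarith
    have hq5' := sq5 h5 hq5
    have hmin : r ≤ 1.011 := by
      have : a₅ ≤ 0.0530 := by linarith
      have := rle5 ha5 this hr5
      linarith
    refine ⟨lt_of_lt_of_le ?_ (rhs5 hL3 hL4 hmin), hmin⟩
    linarith
  · -- case (c)
    have f4 := f74 hs' (by linarith)
    have hs5 : s₅ < 0.125 := by
      by_contra hcon
      push Not at hcon
      rcases le_total s₅ 0.2 with h | h
      · have := f65 hcon h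
        linarith
      · have := f75 h (by linarith)
        linarith
    have f5 := f55 hs5.le
    have hq5 : s₅ ≤ 0.0612 := by linarith
    have hq5' := sq5 h5 hq5
    have hmin : r ≤ 1.0024 := by
      have : a₅ ≤ 0.0256 := by linarith
      have := rle5 ha5 this hr5
      linarith
    refine ⟨lt_of_le_of_lt ?_ (final5c hs' hx (by linarith) hL4 hmin), by linarith⟩
    linarith

theorem numeric5 {ι : Type} [Fintype ι] [DecidableEq ι] {s τ : ι → ℝ} {r : ℝ}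
    (h : NumHyp s τ r) (hk : Fintype.card ι = 5) : NumConcl s r := by
  obtain ⟨b₁, b₂, b₃, h12, h13, h23, s21, s32, hrest, hb2, hb3, hle⟩ := region h
  have hBcard : ({b₁, b₂, b₃} : Finset ι).card = 3 := Finset.card_eq_three.mpr
    ⟨b₁, b₂, b₃, h12, h13, h23, rfl⟩
  have hCcard : (Finset.univ \ ({b₁, b₂, b₃} : Finset ι)).card = 2 := by
    rw [Finset.card_sdiff_of_subset (Finset.subset_univ _), hBcard, Finset.card_univ, hk]
  obtain ⟨b₄, b₅, h45, hS, s54⟩ : ∃ b₄ b₅ : ι, b₄ ≠ b₅ ∧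
      Finset.univ \ ({b₁, b₂, b₃} : Finset ι) = {b₄, b₅} ∧ s b₅ ≤ s b₄ := by
    obtain ⟨p, q, hpq, hS⟩ := Finset.card_eq_two.mp hCcard
    rcases le_total (s q) (s p) with hle' | hle'
    · exact ⟨p, q, hpq, hS, hle'⟩
    · exact ⟨q, p, hpq.symm, by rw [hS, Finset.pair_comm], hle'⟩
  have hsumB : ∀ f : ι → ℝ, ∑ i ∈ ({b₁, b₂, b₃} : Finset ι), f i = f b₁ + f b₂ + f b₃ := by
    intro f
    rw [Finset.sum_insert (by simp [h12, h13]), Finset.sum_pair h23, add_assoc]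
  have hsumC : ∀ f : ι → ℝ, ∑ i ∈ Finset.univ \ ({b₁, b₂, b₃} : Finset ι), f i =
      f b₄ + f b₅ := by
    intro f
    rw [hS, Finset.sum_pair h45]
  have hsum : ∀ f : ι → ℝ, ∑ i, f i = f b₁ + f b₂ + f b₃ + (f b₄ + f b₅) := by
    intro f
    rw [← hsumB, ← hsumC, add_comm]
    exact (Finset.sum_sdiff (Finset.subset_univ _)).symm
  have hmem : ∀ i, i ∈ ({b₄, b₅} : Finset ι) → s i ≤ s b₃ := by
    intro i hi
    rw [← hS] at hi
    simp only [Finset.mem_sdiff, Finset.mem_univ, true_and, Finset.mem_insert,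
      Finset.mem_singleton, not_or] at hi
    exact hrest i hi.1 hi.2.1 hi.2.2
  have s43 : s b₄ ≤ s b₃ := hmem b₄ (by simp)
  have e1 := h.sum_sq
  have e2 := h.sum_Q
  rw [hsum] at e1 e2
  have p1 := h.s_pos b₁
  have p2 := h.s_pos b₂
  have p3 := h.s_pos b₃
  have p4 := h.s_pos b₄
  have p5 := h.s_pos b₅
  have x21 : s b₂ ^ 2 ≤ s b₁ ^ 2 := by gcongr
  have x32 : s b₃ ^ 2 ≤ s b₂ ^ 2 := by gcongr
  have x43 : s b₄ ^ 2 ≤ s b₃ ^ 2 := by gcongr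
  have x54 : s b₅ ^ 2 ≤ s b₄ ^ 2 := by gcongr
  have hadm : ∀ i, Adm (5 / 4) (τ i) (s i ^ 2) := by
    intro i
    have := h.adm i
    rw [hk] at this
    have e : ((5 : ℕ) : ℝ) / (((5 : ℕ) : ℝ) - 1) = 5 / 4 := by norm_num
    rwa [e] at this
  have hadm1 : ∀ i, Adm 1 (τ i) (s i ^ 2) := fun i => Adm.mono (by norm_num) (hadm i)
  have hr : ∀ i, r ≤ 1 + 3.49075 * Q (τ i) ^ 2 := by
    intro i
    have h1 := h.r_le i
    rw [hk] at h1
    have e : ((5 : ℕ) : ℝ) / (((5 : ℕ) : ℝ) - 1) = 5 / 4 := by norm_num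
    rw [e] at h1
    have h2 := yy_le_sq (h.tau_nonneg i)
    linarith
  -- the two remaining cells
  have key : s b₄ ^ 2 ≤ 0.105 ∧
      (Q (τ b₄) - 0.6 * s b₄ ^ 2) + (Q (τ b₅) - 0.6 * s b₅ ^ 2) ≤ 0.0922 := by
    have g5 : 1.1 * s b₅ ^ 2 ≤ Q (τ b₅) := fact1 (hadm1 b₅) (by linarith)
    have g50 : 0 < s b₅ ^ 2 := by positivity
    rcases le_total (s b₃ ^ 2) 0.2 with hc | hc
    · have f1 := fact15 (hadm b₁) (by linarith)
      have f2 := fact15 (hadm b₂) (by linarith)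
      have f3 := fact16 (hadm b₃) hb3 hc
      have hx4 : s b₄ ^ 2 < 0.105 := by
        by_contra hcon
        push Not at hcon
        have := fact17 (hadm b₄) hcon (by linarith)
        linarith
      have f4 := fact14 (hadm b₄) hx4.le
      have f5 := fact14 (hadm b₅) (by linarith)
      refine ⟨hx4.le, ?_⟩
      linarith
    · have f1 := fact18 (hadm b₁) (by linarith)
      have f2 := fact18 (hadm b₂) (by linarith)
      have f3 := fact18 (hadm b₃) hc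
      have hx4 : s b₄ ^ 2 < 0.105 := by
        by_contra hcon
        push Not at hcon
        have := fact19 (hadm b₄) hcon (by linarith)
        linarith
      refine ⟨hx4.le, ?_⟩
      linarith
  obtain ⟨hx4, hT⟩ := key
  have hX : s b₄ ^ 2 + s b₅ ^ 2 ≤ 0.1048 := by
    have f4 := fact14 (hadm b₄) hx4
    have f5 := fact14 (hadm b₅) (x54.trans hx4)
    linarith
  refine ⟨{b₁, b₂, b₃}, hBcard, ?_, ?_⟩
  · intro i hi j hj
    have h1 := hle i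
    have h2 : 0.13 ≤ s j ^ 2 := by
      simp only [Finset.mem_insert, Finset.mem_singleton] at hj
      rcases hj with rfl | rfl | rfl <;> linarith
    linarith
  · intro j hj l hl hjl L hL hL1 hL2
    rw [hsumB] at hL2
    rw [hsumC, hsumC, hk]
    have hL3 : 5 / 9 - 0.1048 ≤ L ^ 2 := by
      have l1 := hle b₁
      have l2 := hle b₂
      have l3 := hle b₃
      simp only [Finset.mem_insert, Finset.mem_singleton] at hj hl
      rcases hj with rfl | rfl | rfl <;> rcases hl with rfl | rfl | rfl <;>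
        first
        | exact absurd rfl hjl
        | linarith
    have hL4 : L ^ 2 ≤ 1 - (s b₄ ^ 2 + s b₅ ^ 2) := by linarith
    refine ⟨by linarith, ?_⟩
    obtain ⟨hmain, hr'⟩ := main5 (s₄ := s b₄) (s₅ := s b₅) (a₄ := Q (τ b₄)) (a₅ := Q (τ b₅))
      (L := L) (r := r) p4 p5 s54 hL hT (Q_pos _) (Q_pos _)
      (fun h' => fact5 (hadm1 b₄) p4 h') (fun h' => fact5 (hadm1 b₅) p5 h')
      (fun h' h'' => fact6 (hadm1 b₄) h' h'') (fun h' h'' => fact6 (hadm1 b₅) h' h'')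
      (fun h' h'' => fact7 (hadm1 b₄) h' h'') (fun h' h'' => fact7 (hadm1 b₅) h' h'')
      hx4 (hr b₄) (hr b₅) hL4 (by linarith)
    have hr1 := h.one_lt
    have q4 : 0 < s b₄ ^ 2 := by positivity
    have q5 : 0 < s b₅ ^ 2 := by positivity
    have hL5 : L ≤ 1 := by
      by_contra hcon
      push Not at hcon
      nlinarith only [hcon, hL4, q4, q5]
    have hrL : r * L ≤ 5 / 4 := by nlinarith only [hL5, hL, hr', hr1]
    have := trig5 (L := L) (r := r) p4 p5 s54 hL (by linarith) (by linarith) hrL hmain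
    simpa using this

end Vale.Agent.P226
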