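import Vale.Agent.Lib.P226.NumRegion

/-!
P226, job J11d (Num67.lean).  The numerical lemma for six or seven cells (`c ≥ 7/6`).

`x i = s i ^ 2`, `a i = Q (τ i)`; `b₁ b₂ b₃` from `region`, `B = {b₁,b₂,b₃}`, `S` the complement (3 or 4
elements), `4` the index of the largest `s` in `S`, `R = ∑_{S, i ≠ 4} s i`, `X = ∑_S x`.
* `x₄ < 0.16`: otherwise fact13c for the four largest: `1 ≥ 4 * 0.0983 + 0.608 > 1` (the others: `a ≥ 0.608 x`
  by fact1, since `x ≤ 0.2`: at most 1/5).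
* `∑_S (a - 0.6 x) ≤ 0.4 - 2 * 0.1011 - 0.0965 = 0.1013` (fact13a for `b₁ b₂`, fact13b for `b₃`).
* fact5 and fact6 give `0.344 s ≤ a - 0.6 x` for `s ≤ 0.2`.
* Final inequality: `π (1 - 3 r L/k) ≥ π (1 - r L/2)`; `L² ∈ [5/9 - X, 1 - X]`, `√X ≤ s₄ + R/2`,
  `r ≤ 1 + 1.2 * 2.7926 a_i²` for every `i`.
  (a) `s₄ ≤ 0.2`: `∑_S s ≤ 0.1013/0.344 ≤ 0.2945`, `X ≤ 0.2 * 0.2945`; use `arctan w ≤ w` for all and
      `arcsin t ≤ π/3 t`; some `a_i ≤ 0.0456`.  Margin 0.16.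
  (b) `0.2 ≤ s₄ ≤ 0.3`: fact8: the others satisfy `∑ (a - 0.6x) ≤ 0.0716 - 0.196 s₄ < 0.0447`, so (fact6) each
      `s_i < 0.125` and `0.381 R ≤ 0.0716 - 0.196 s₄`.  Margin 0.28.
  (c) `0.3 ≤ s₄ ≤ 0.4`: fact9: `0.381 R ≤ 0.044 - 0.104 s₄`.
      For `L ≥ 0.8`: `arcsin t ≤ π/(2√2) t`, `arctan w ≤ π/4 + (w-1)/2` for 4:
      `3.0146 s₄ + 4.105 R < (2.85619 - 1.5708 r L) L`, left at most 1.2317, right at least 1.27.
      For `L ≤ 0.8`: `arcsin t ≤ 2π/(3√3) t`, `arctan w ≤ π/3 + (w-√3)/4` for 4: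
      `2.2623 s₄ + 4.162 R < (2.5274 - 1.5708 r L) L`, left at most 0.9312, right at least 0.96 (`L ≥ 0.628`).
      Margin 0.05.
-/

open MeasureTheory ProbabilityTheory Filter
open scoped RealInnerProductSpace Topology

namespace Vale.Agent.P226

namespace N67

theorem s3a : 1.73205 < Real.sqrt 3 := by
  rw [Real.lt_sqrt (by norm_num)]; norm_num

theorem s3b : Real.sqrt 3 < 1.732051 := by
  rw [Real.sqrt_lt' (by norm_num)]; norm_num

theorem s3sq : Real.sqrt 3 * Real.sqrt 3 = 3 := Real.mul_self_sqrt (by norm_num)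

theorem s2a : 1.41421 < Real.sqrt 2 := by
  rw [Real.lt_sqrt (by norm_num)]; norm_num

theorem s2b : Real.sqrt 2 < 1.414214 := by
  rw [Real.sqrt_lt' (by norm_num)]; norm_num

theorem pia : 3.141592 < Real.pi := Real.pi_gt_d6

theorem pib : Real.pi < 3.141593 := Real.pi_lt_d6

/-- the three bounds for the arcsine term, `q = √X` -/
theorem asin1 {q L : ℝ} (hq : 0 ≤ q) (hL : 0 < L) (h : 4 * q ≤ 1.73205 * L) :
    Real.arcsin (2 * q / (Real.sqrt 3 * L)) ≤ 1.2093 * q / L := by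
  have h3 := s3a
  have h3' := s3b
  have hp := pib
  have hp' := pia
  have hs : 0 < Real.sqrt 3 * L := by positivity
  refine (arcsin_K1 (by positivity) ?_).trans ?_
  · rw [div_le_iff₀ hs]
    nlinarith
  · have e : Real.pi / 3 * (2 * q / (Real.sqrt 3 * L)) =
        (2 * Real.pi / (3 * Real.sqrt 3)) * (q / L) := by
      field_simp
    rw [e, mul_div_assoc (1.2093 : ℝ) q L]
    apply mul_le_mul_of_nonneg_right _ (by positivity)
    rw [div_le_iff₀ (by positivity)]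
    nlinarith

theorem asin2 {q L : ℝ} (hq : 0 ≤ q) (hL : 0 < L) (h : 2 * q ≤ 1.2247 * L) :
    Real.arcsin (2 * q / (Real.sqrt 3 * L)) ≤ 1.28256 * q / L := by
  have h3 := s3a
  have h3' := s3b
  have h2 := s2a
  have h2' := s2b
  have hp := pib
  have hp' := pia
  have hs : 0 < Real.sqrt 3 * L := by positivity
  have h6 : 2.44948 < Real.sqrt 2 * Real.sqrt 3 := by nlinarith
  refine (arcsin_K2 (by positivity) ?_).trans ?_
  · rw [div_le_iff₀ hs]
    nlinarith [mul_pos hL (sub_pos.2 h6)]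
  · have e : Real.pi / (2 * Real.sqrt 2) * (2 * q / (Real.sqrt 3 * L)) =
        (Real.pi / (Real.sqrt 2 * Real.sqrt 3)) * (q / L) := by
      field_simp
    rw [e, mul_div_assoc (1.28256 : ℝ) q L]
    apply mul_le_mul_of_nonneg_right _ (by positivity)
    rw [div_le_iff₀ (by positivity)]
    nlinarith

theorem asin3 {q L : ℝ} (hq : 0 ≤ q) (hL : 0 < L) (h : 4 * q ≤ 3 * L) :
    Real.arcsin (2 * q / (Real.sqrt 3 * L)) ≤ 1.39627 * q / L := by
  have h3 := s3a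
  have h3' := s3b
  have hsq := s3sq
  have hp := pib
  have hp' := pia
  have hs : 0 < Real.sqrt 3 * L := by positivity
  refine (arcsin_K3 (by positivity) ?_).trans ?_
  · rw [div_le_iff₀ hs]
    have : Real.sqrt 3 / 2 * (Real.sqrt 3 * L) = 3 * L / 2 := by
      rw [show Real.sqrt 3 / 2 * (Real.sqrt 3 * L) = Real.sqrt 3 * Real.sqrt 3 * L / 2 by ring, hsq]
    rw [this]
    linarith
  · have e : 2 * Real.pi / (3 * Real.sqrt 3) * (2 * q / (Real.sqrt 3 * L)) =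
        (4 * Real.pi / 9) * (q / L) := by
      rw [div_mul_div_comm, div_mul_div_comm, div_eq_div_iff (by positivity) (by positivity)]
      rw [show 3 * Real.sqrt 3 * (Real.sqrt 3 * L) = 3 * (Real.sqrt 3 * Real.sqrt 3) * L by ring, hsq]
      ring
    rw [e, mul_div_assoc (1.39627 : ℝ) q L]
    apply mul_le_mul_of_nonneg_right _ (by positivity)
    linarith

theorem atan1 {s L : ℝ} (hs : 0 ≤ s) (hL : 0 < L) :
    Real.arctan (2 * Real.sqrt 3 * s / L) ≤ 3.46411 * s / L := by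
  have h3' := s3b
  refine (arctan_le_self' (by positivity)).trans ?_
  apply div_le_div_of_nonneg_right _ hL.le
  nlinarith

theorem atan2 {s L : ℝ} (hs : 0 ≤ s) (hL : 0 < L) :
    Real.arctan (2 * Real.sqrt 3 * s / L) ≤ Real.pi / 4 - 1 / 2 + 1.732051 * s / L := by
  have h3' := s3b
  refine (arctan_T2 (by positivity)).trans ?_
  have : 2 * Real.sqrt 3 * s / L ≤ 2 * (1.732051 * s / L) := by
    rw [← mul_div_assoc]
    apply div_le_div_of_nonneg_right _ hL.le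
    nlinarith
  linarith

theorem atan3 {s L : ℝ} (hs : 0 ≤ s) (hL : 0 < L) :
    Real.arctan (2 * Real.sqrt 3 * s / L) ≤
      Real.pi / 3 - Real.sqrt 3 / 4 + 0.8660255 * s / L := by
  have h3' := s3b
  refine (arctan_T3 (by positivity)).trans ?_
  have : 2 * Real.sqrt 3 * s / L ≤ 4 * (0.8660255 * s / L) := by
    rw [← mul_div_assoc]
    apply div_le_div_of_nonneg_right _ hL.le
    nlinarith
  linarith

theorem concl {A T V L r k : ℝ} (h : A + T ≤ V / L) (hL : 0 < L) (hk : 6 ≤ k) (hr : 0 ≤ r)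
    (key : V < Real.pi * ((1 - r * L / 2) * L)) : A + T < Real.pi * (1 - 3 * r * L / k) := by
  have h1 : V / L < Real.pi * (1 - r * L / 2) := by
    rw [div_lt_iff₀ hL, mul_assoc]
    exact key
  have h2 : 3 * r * L / k ≤ r * L / 2 := by
    rw [div_le_div_iff₀ (by linarith) (by norm_num)]
    have := mul_nonneg hr hL.le
    nlinarith
  have h3 : Real.pi * (1 - r * L / 2) ≤ Real.pi * (1 - 3 * r * L / k) :=
    mul_le_mul_of_nonneg_left (by linarith) Real.pi_pos.le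
  linarith

/-- lower bound for the right hand side -/
theorem rhs {L r ρ l l' : ℝ} (hl : 0 < l) (hL0 : l ≤ L) (hL1 : L ≤ l') (hl' : l' ≤ 1)
    (hr : r ≤ ρ) (hρ0 : 0 ≤ ρ) (hρ : ρ ≤ 1.1) :
    3.141592 * (L - ρ / 2 * ((l + l') * L - l * l')) ≤ Real.pi * ((1 - r * L / 2) * L) ∧
      Real.pi * L ≤ 3.141593 * L := by
  have hL : 0 < L := hl.trans_le hL0
  have hp := pia
  have hp' := pib
  have h0 : 0 ≤ (L - l) * (l' - L) := mul_nonneg (by linarith) (by linarith)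
  have h1 : L - ρ / 2 * L ^ 2 ≤ (1 - r * L / 2) * L := by
    have : 0 ≤ (ρ - r) * L ^ 2 := mul_nonneg (by linarith) (by positivity)
    nlinarith
  have h2 : 0 ≤ L - ρ / 2 * L ^ 2 := by
    have : ρ * L ≤ 1.1 * L := by nlinarith
    nlinarith [mul_nonneg hL.le (show (0:ℝ) ≤ 1 - L by linarith)]
  refine ⟨?_, by nlinarith⟩
  have h3 : L - ρ / 2 * ((l + l') * L - l * l') ≤ L - ρ / 2 * L ^ 2 := by
    have : 0 ≤ ρ * ((L - l) * (l' - L)) := mul_nonneg hρ0 h0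
    nlinarith
  calc 3.141592 * (L - ρ / 2 * ((l + l') * L - l * l')) ≤ 3.141592 * ((1 - r * L / 2) * L) := by
        linarith
    _ ≤ Real.pi * ((1 - r * L / 2) * L) :=
        mul_le_mul_of_nonneg_right hp.le (h2.trans h1)

theorem keyA {q T₀ L r : ℝ} (hq : q ≤ 0.2427) (hS : T₀ ≤ 0.2945) (hL0 : 0.7 ≤ L) (hL1 : L ≤ 1)
    (hr : r ≤ 1.063) : 1.2093 * q + 3.46411 * T₀ < Real.pi * ((1 - r * L / 2) * L) := by
  obtain ⟨h1, -⟩ := rhs (by norm_num : (0:ℝ) < 0.7) hL0 hL1 le_rfl hr (by norm_num) (by norm_num)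
  linarith

theorem keyB {q s R L r : ℝ} (hq : q ≤ s + R / 2) (hs1 : s ≤ 0.3)
    (hR : 0.381 * R ≤ 0.0716 - 0.196 * s) (hL0 : 0.67 ≤ L) (hL1 : L ≤ 1) (hr : r ≤ 1.006) :
    1.28256 * q + (Real.pi / 4 - 1 / 2) * L + 1.732051 * s + 3.46411 * R <
      Real.pi * ((1 - r * L / 2) * L) := by
  obtain ⟨h1, h2⟩ := rhs (by norm_num : (0:ℝ) < 0.67) hL0 hL1 le_rfl hr (by norm_num) (by norm_num)
  linarith

theorem keyC1 {q s R L r : ℝ} (hq : q ≤ s + R / 2) (hs1 : s ≤ 0.4)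
    (hR : 0.381 * R ≤ 0.044 - 0.104 * s) (hL0 : 0.8 ≤ L) (hL1 : L ≤ 1) (hr : r ≤ 1.0008) :
    1.28256 * q + (Real.pi / 4 - 1 / 2) * L + 1.732051 * s + 3.46411 * R <
      Real.pi * ((1 - r * L / 2) * L) := by
  obtain ⟨h1, h2⟩ := rhs (by norm_num : (0:ℝ) < 0.8) hL0 hL1 le_rfl hr (by norm_num) (by norm_num)
  linarith

theorem keyC2 {q s R L r : ℝ} (hq : q ≤ s + R / 2) (hs1 : s ≤ 0.4)
    (hR : 0.381 * R ≤ 0.044 - 0.104 * s) (hL0 : 0.6269 ≤ L) (hL1 : L ≤ 0.8) (hr : r ≤ 1.0008) :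
    1.39627 * q + (Real.pi / 3 - Real.sqrt 3 / 4) * L + 0.8660255 * s + 3.46411 * R <
      Real.pi * ((1 - r * L / 2) * L) := by
  obtain ⟨h1, h2⟩ := rhs (by norm_num : (0:ℝ) < 0.6269) hL0 hL1 (by norm_num) hr (by norm_num)
    (by norm_num)
  have h3 : 1.73205 * L ≤ Real.sqrt 3 * L :=
    mul_le_mul_of_nonneg_right s3a.le (by linarith)
  linarith

theorem sq_le {a b : ℝ} (hb : 0 ≤ b) (h : a ^ 2 ≤ b ^ 2) : a ≤ b :=
  le_of_abs_le (abs_le_of_sq_le_sq h hb)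

theorem mul_self_bound {a b : ℝ} (ha : 0 < a) (h : a ≤ b) : a ^ 2 ≤ b * a := by nlinarith

/-- the processed situation: `S` is the complement of the three largest, `m` the index of the largest
element of `S`, `j₀` another one -/
structure Data {ι : Type} [DecidableEq ι] (S : Finset ι) (m j₀ : ι) (s τ : ι → ℝ) (r : ℝ) :
    Prop where
  mem : m ∈ S
  mem' : j₀ ∈ S.erase m
  max : ∀ i ∈ S, s i ≤ s m
  pos : ∀ i, 0 < s i
  adm : ∀ i, Adm 1 (τ i) (s i ^ 2)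
  bud : ∑ i ∈ S, (Q (τ i) - 0.6 * s i ^ 2) ≤ 0.1013
  nn : ∀ i ∈ S, 0 ≤ Q (τ i) - 0.6 * s i ^ 2
  sm : s m ≤ 0.4
  r0 : 0 ≤ r
  hr : ∀ i, r ≤ 1 + 3.35112 * Q (τ i) ^ 2

namespace Data

variable {ι : Type} [DecidableEq ι] {S : Finset ι} {m j₀ : ι} {s τ : ι → ℝ} {r : ℝ}

theorem split (d : Data S m j₀ s τ r) (f : ι → ℝ) :
    ∑ i ∈ S, f i = f m + ∑ i ∈ S.erase m, f i :=
  (Finset.add_sum_erase S f d.mem).symm

theorem R0 (d : Data S m j₀ s τ r) : 0 ≤ ∑ i ∈ S.erase m, s i :=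
  Finset.sum_nonneg fun i _ => (d.pos i).le

theorem XR (d : Data S m j₀ s τ r) :
    ∑ i ∈ S, s i ^ 2 ≤ (s m + (∑ i ∈ S.erase m, s i) / 2) ^ 2 := by
  have e1 : ∑ i ∈ S.erase m, s i ^ 2 ≤ s m * ∑ i ∈ S.erase m, s i := by
    rw [Finset.mul_sum]
    apply Finset.sum_le_sum
    intro i hi
    exact mul_self_bound (d.pos i) (d.max i (Finset.mem_of_mem_erase hi))
  have e2 := d.split (fun i => s i ^ 2)
  generalize ∑ i ∈ S.erase m, s i = R at *
  rw [e2, show (s m + R / 2) ^ 2 = s m ^ 2 + (s m * R + R ^ 2 / 4) by ring]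
  linarith [sq_nonneg R]

theorem qR (d : Data S m j₀ s τ r) :
    Real.sqrt (∑ i ∈ S, s i ^ 2) ≤ s m + (∑ i ∈ S.erase m, s i) / 2 := by
  rw [Real.sqrt_le_iff]
  exact ⟨by linarith [d.pos m, d.R0], d.XR⟩

theorem sumT (d : Data S m j₀ s τ r) {L : ℝ} (hL : 0 < L) (U : Finset ι) :
    ∑ i ∈ U, Real.arctan (2 * Real.sqrt 3 * s i / L) ≤ 3.46411 * (∑ i ∈ U, s i) / L := by
  rw [mul_div_assoc, Finset.sum_div, Finset.mul_sum]
  exact Finset.sum_le_sum fun i _ => by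
    have := atan1 (d.pos i).le hL
    rwa [mul_div_assoc (3.46411 : ℝ)] at this

theorem caseA (d : Data S m j₀ s τ r) {L k : ℝ} (hL : 0 < L) (hk : 6 ≤ k)
    (hLlow : 5 / 9 - ∑ i ∈ S, s i ^ 2 ≤ L ^ 2) (hLup : L ≤ 1) (ha : s m ≤ 0.2) :
    4 * ∑ i ∈ S, s i ^ 2 ≤ 3 * L ^ 2 ∧
      Real.arcsin (2 * Real.sqrt (∑ i ∈ S, s i ^ 2) / (Real.sqrt 3 * L)) +
        ∑ i ∈ S, Real.arctan (2 * Real.sqrt 3 * s i / L) < Real.pi * (1 - 3 * r * L / k) := by
  have hs' : ∀ i ∈ S, 0.344 * s i ≤ Q (τ i) - 0.6 * s i ^ 2 := by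
    intro i hi
    have h1 := d.max i hi
    rcases le_or_gt (s i) 0.125 with h2 | h2
    · have := fact5 (d.adm i) (d.pos i) h2
      linarith [d.pos i]
    · have := fact6 (d.adm i) h2.le (h1.trans ha)
      linarith
  have hsum : ∑ i ∈ S, s i ≤ 0.2945 := by
    have h1 := Finset.sum_le_sum hs'
    have h2 := d.bud
    rw [← Finset.mul_sum] at h1
    linarith
  have hXs : ∑ i ∈ S, s i ^ 2 ≤ 0.2 * ∑ i ∈ S, s i := by
    rw [Finset.mul_sum]
    apply Finset.sum_le_sum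
    intro i hi
    exact mul_self_bound (d.pos i) ((d.max i hi).trans ha)
  have hT := d.sumT hL S
  have hX : ∑ i ∈ S, s i ^ 2 ≤ 0.0589 := by linarith
  have hQm : Q (τ m) ≤ 0.1253 := by
    have h1 := Finset.single_le_sum (f := fun i => Q (τ i) - 0.6 * s i ^ 2) d.nn d.mem
    have h2 : s m ^ 2 ≤ 0.2 ^ 2 := pow_le_pow_left₀ (d.pos m).le ha 2
    have h3 := d.bud
    linarith
  have hr' : r ≤ 1.063 := by
    have := d.hr m
    have h2 : Q (τ m) ^ 2 ≤ 0.1253 ^ 2 := pow_le_pow_left₀ (Q_pos _).le hQm 2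
    linarith
  generalize ∑ i ∈ S, s i ^ 2 = X at *
  generalize ∑ i ∈ S, s i = T₀ at *
  have hq' : Real.sqrt X ≤ 0.2427 := by
    rw [Real.sqrt_le_iff]
    exact ⟨by norm_num, by linarith⟩
  have hL0 : 0.7 ≤ L := sq_le hL.le (by norm_num; linarith)
  refine ⟨by linarith, ?_⟩
  refine concl ?_ hL hk d.r0 (keyA hq' hsum hL0 hLup hr')
  have e1 := asin1 (Real.sqrt_nonneg X) hL (by linarith)
  rw [add_div]
  exact add_le_add e1 hT

theorem others (d : Data S m j₀ s τ r) {β : ℝ} (hβ : β ≤ 0.0324)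
    (hsumβ : ∑ i ∈ S.erase m, (Q (τ i) - 0.6 * s i ^ 2) ≤ β) :
    0.381 * (∑ i ∈ S.erase m, s i) ≤ β ∧ Q (τ j₀) ≤ β + 0.075 * ∑ i ∈ S.erase m, s i := by
  have hg : ∀ i ∈ S.erase m, Q (τ i) - 0.6 * s i ^ 2 ≤ β := fun i hi =>
    (Finset.single_le_sum (f := fun i => Q (τ i) - 0.6 * s i ^ 2)
      (fun i hi => d.nn i (Finset.mem_of_mem_erase hi)) hi).trans hsumβ
  have hsm : ∀ i ∈ S.erase m, s i < 0.125 := by
    intro i hi
    by_contra hcon
    rw [not_lt] at hcon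
    have h1 := hg i hi
    have h2 := (d.max i (Finset.mem_of_mem_erase hi)).trans d.sm
    rcases le_or_gt (s i) 0.2 with h3 | h3
    · have := fact6 (d.adm i) hcon h3
      linarith
    rcases le_or_gt (s i) 0.3 with h4 | h4
    · have := fact8 (d.adm i) h3.le h4
      linarith
    · have := fact9 (d.adm i) h4.le h2
      linarith
  constructor
  · refine le_trans ?_ hsumβ
    rw [Finset.mul_sum]
    apply Finset.sum_le_sum
    intro i hi
    have := fact5 (d.adm i) (d.pos i) (hsm i hi).le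
    linarith
  · have h1 := hg j₀ d.mem'
    have h2 := hsm j₀ d.mem'
    have h3 : s j₀ ≤ ∑ i ∈ S.erase m, s i :=
      Finset.single_le_sum (fun i _ => (d.pos i).le) d.mem'
    have h4 := mul_self_bound (d.pos j₀) h2.le
    linarith

theorem bud' (d : Data S m j₀ s τ r) : ∑ i ∈ S.erase m, (Q (τ i) - 0.6 * s i ^ 2) ≤
    0.1013 - (Q (τ m) - 0.6 * s m ^ 2) := by
  have h1 := d.split (fun i => Q (τ i) - 0.6 * s i ^ 2)
  have h2 := d.bud
  linarith

theorem sumTm (d : Data S m j₀ s τ r) {L : ℝ} (hL : 0 < L) :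
    ∑ i ∈ S, Real.arctan (2 * Real.sqrt 3 * s i / L) ≤
      Real.arctan (2 * Real.sqrt 3 * s m / L) + 3.46411 * (∑ i ∈ S.erase m, s i) / L := by
  rw [d.split]
  have := d.sumT hL (S.erase m)
  linarith

theorem rj (d : Data S m j₀ s τ r) {ρ : ℝ} (hρ : Q (τ j₀) ≤ ρ) : r ≤ 1 + 3.35112 * ρ ^ 2 := by
  have := d.hr j₀
  have h2 : Q (τ j₀) ^ 2 ≤ ρ ^ 2 := pow_le_pow_left₀ (Q_pos _).le hρ 2
  linarith

theorem caseB (d : Data S m j₀ s τ r) {L k : ℝ} (hL : 0 < L) (hk : 6 ≤ k)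
    (hLlow : 5 / 9 - ∑ i ∈ S, s i ^ 2 ≤ L ^ 2) (hLup : L ≤ 1) (ha : 0.2 ≤ s m)
    (hb : s m ≤ 0.3) :
    4 * ∑ i ∈ S, s i ^ 2 ≤ 3 * L ^ 2 ∧
      Real.arcsin (2 * Real.sqrt (∑ i ∈ S, s i ^ 2) / (Real.sqrt 3 * L)) +
        ∑ i ∈ S, Real.arctan (2 * Real.sqrt 3 * s i / L) < Real.pi * (1 - 3 * r * L / k) := by
  have e0 := fact8 (d.adm m) ha hb
  have hbm := d.bud'
  obtain ⟨hR1, hj1⟩ := d.others (β := 0.0716 - 0.196 * s m) (by linarith) (by linarith)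
  have hT := d.sumTm hL
  have hXR := d.XR
  have hqR := d.qR
  have hR0 := d.R0
  have hs := d.pos m
  clear e0 hbm
  generalize ∑ i ∈ S, s i ^ 2 = X at *
  generalize ∑ i ∈ S.erase m, s i = R at *
  generalize ∑ i ∈ S, Real.arctan (2 * Real.sqrt 3 * s i / L) = T at *
  have hq' : s m + R / 2 ≤ 0.3168 := by linarith
  have hX' : X ≤ 0.3168 ^ 2 := hXR.trans (pow_le_pow_left₀ (by linarith) hq' 2)
  have hL0 : 0.67 ≤ L := sq_le hL.le (by norm_num; linarith)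
  have hr' : r ≤ 1.006 := by
    have := d.rj (ρ := 0.0388) (by linarith)
    linarith
  refine ⟨by linarith, ?_⟩
  refine concl ?_ hL hk d.r0 (keyB hqR hb hR1 hL0 hLup hr')
  have e1 := asin2 (Real.sqrt_nonneg X) hL (by linarith)
  have e2 := atan2 hs.le hL
  rw [add_div, add_div, add_div, mul_div_assoc (Real.pi / 4 - 1 / 2), div_self hL.ne', mul_one]
  linarith

theorem caseC (d : Data S m j₀ s τ r) {L k : ℝ} (hL : 0 < L) (hk : 6 ≤ k)
    (hLlow : 5 / 9 - ∑ i ∈ S, s i ^ 2 ≤ L ^ 2) (hLup : L ≤ 1) (hb : 0.3 ≤ s m) :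
    4 * ∑ i ∈ S, s i ^ 2 ≤ 3 * L ^ 2 ∧
      Real.arcsin (2 * Real.sqrt (∑ i ∈ S, s i ^ 2) / (Real.sqrt 3 * L)) +
        ∑ i ∈ S, Real.arctan (2 * Real.sqrt 3 * s i / L) < Real.pi * (1 - 3 * r * L / k) := by
  have e0 := fact9 (d.adm m) hb d.sm
  have hbm := d.bud'
  obtain ⟨hR1, hj1⟩ := d.others (β := 0.044 - 0.104 * s m) (by linarith) (by linarith)
  have hT := d.sumTm hL
  have hXR := d.XR
  have hqR := d.qR
  have hR0 := d.R0
  have hs := d.pos m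
  have hsm := d.sm
  clear e0 hbm
  generalize ∑ i ∈ S, s i ^ 2 = X at *
  generalize ∑ i ∈ S.erase m, s i = R at *
  generalize ∑ i ∈ S, Real.arctan (2 * Real.sqrt 3 * s i / L) = T at *
  have hq' : s m + R / 2 ≤ 0.40315 := by linarith
  have hX' : X ≤ 0.40315 ^ 2 := hXR.trans (pow_le_pow_left₀ (by linarith) hq' 2)
  have hL0 : 0.6269 ≤ L := sq_le hL.le (by norm_num; linarith)
  have hr' : r ≤ 1.0008 := by
    have := d.rj (ρ := 0.01533) (by linarith)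
    linarith
  refine ⟨by linarith, ?_⟩
  rcases le_or_gt 0.8 L with h8 | h8
  · refine concl ?_ hL hk d.r0 (keyC1 hqR hsm hR1 h8 hLup hr')
    have e1 := asin2 (Real.sqrt_nonneg X) hL (by linarith)
    have e2 := atan2 hs.le hL
    rw [add_div, add_div, add_div, mul_div_assoc (Real.pi / 4 - 1 / 2), div_self hL.ne', mul_one]
    linarith
  · refine concl ?_ hL hk d.r0 (keyC2 hqR hsm hR1 hL0 h8.le hr')
    have e1 := asin3 (Real.sqrt_nonneg X) hL (by linarith)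
    have e2 := atan3 hs.le hL
    rw [add_div, add_div, add_div, mul_div_assoc (Real.pi / 3 - Real.sqrt 3 / 4),
      div_self hL.ne', mul_one]
    linarith

end Data

end N67

open N67 in
theorem numeric67 {ι : Type} [Fintype ι] [DecidableEq ι] {s τ : ι → ℝ} {r : ℝ}
    (h : NumHyp s τ r) (hk : 6 ≤ Fintype.card ι) (hk' : Fintype.card ι ≤ 7) : NumConcl s r := by
  obtain ⟨b₁, b₂, b₃, h12, h13, h23, hs21, hs32, hrest, hx2, hx3, hx49⟩ := region h
  have hs := h.s_pos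
  have hkr : (6:ℝ) ≤ Fintype.card ι := by exact_mod_cast hk
  have hkr' : (Fintype.card ι : ℝ) ≤ 7 := by exact_mod_cast hk'
  have hc1 : (7 / 6 : ℝ) ≤ Fintype.card ι / (Fintype.card ι - 1) := by
    rw [div_le_div_iff₀ (by norm_num) (by linarith)]
    linarith
  have hc2 : (Fintype.card ι / (Fintype.card ι - 1) : ℝ) ≤ 1.2 := by
    rw [div_le_iff₀ (by linarith)]
    linarith
  have hA : ∀ i, Adm (7 / 6) (τ i) (s i ^ 2) := fun i => (h.adm i).mono hc1
  have hA1 : ∀ i, Adm 1 (τ i) (s i ^ 2) := fun i => (hA i).mono (by norm_num)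
  have hr0 : 0 ≤ r := (zero_lt_one.trans h.one_lt).le
  have hr : ∀ i, r ≤ 1 + 3.35112 * Q (τ i) ^ 2 := by
    intro i
    have h1 := h.r_le i
    have h2 := yy_le_sq (h.tau_nonneg i)
    have h3 := yy_nonneg (h.tau_nonneg i)
    have h4 : (Fintype.card ι / (Fintype.card ι - 1) : ℝ) * yy (τ i) ≤ 1.2 * yy (τ i) :=
      mul_le_mul_of_nonneg_right hc2 h3
    linarith
  clear hc1 hc2
  obtain ⟨B, hB⟩ : ∃ B : Finset ι, B = {b₁, b₂, b₃} := ⟨_, rfl⟩
  have hBc : B.card = 3 := by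
    rw [hB, Finset.card_eq_three]
    exact ⟨b₁, b₂, b₃, h12, h13, h23, rfl⟩
  obtain ⟨S, hS⟩ : ∃ S : Finset ι, S = Finset.univ \ B := ⟨_, rfl⟩
  have hBsum : ∀ f : ι → ℝ, ∑ i ∈ B, f i = f b₁ + f b₂ + f b₃ := by
    intro f
    rw [hB, Finset.sum_insert (by simp [h12, h13]), Finset.sum_insert (by simp [h23]),
      Finset.sum_singleton]
    ring
  have hsplit : ∀ f : ι → ℝ, ∑ i, f i = f b₁ + f b₂ + f b₃ + ∑ i ∈ S, f i := by
    intro f
    rw [← Finset.sum_sdiff (Finset.subset_univ B), hBsum, hS]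
    ring
  have hScard : 3 ≤ S.card := by
    rw [hS, Finset.card_sdiff_of_subset (Finset.subset_univ B), hBc, Finset.card_univ]
    omega
  have hSne : S.Nonempty := Finset.card_pos.1 (by omega)
  obtain ⟨m, hmS, hmax⟩ := S.exists_max_image s hSne
  have hmem : ∀ i ∈ S, i ≠ b₁ ∧ i ≠ b₂ ∧ i ≠ b₃ := by
    intro i hi
    rw [hS, Finset.mem_sdiff, hB] at hi
    simpa using hi.2
  have hsplit' : ∀ f : ι → ℝ, ∑ i ∈ S, f i = f m + ∑ i ∈ S.erase m, f i := fun f =>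
    (Finset.add_sum_erase S f hmS).symm
  obtain ⟨j₀, hj₀⟩ : (S.erase m).Nonempty := by
    rw [← Finset.card_pos, Finset.card_erase_of_mem hmS]
    omega
  have hmb := hmem m hmS
  have hsm3 : s m ≤ s b₃ := hrest m hmb.1 hmb.2.1 hmb.2.2
  have hsq := h.sum_sq
  have hQs := h.sum_Q
  rw [hsplit] at hsq hQs
  have hle : ∀ i ∈ S, s i ^ 2 ≤ s m ^ 2 := fun i hi =>
    pow_le_pow_left₀ (hs i).le (hmax i hi) 2
  have hm3 : s m ^ 2 ≤ s b₃ ^ 2 := pow_le_pow_left₀ (hs m).le hsm3 2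
  have h32 : s b₃ ^ 2 ≤ s b₂ ^ 2 := pow_le_pow_left₀ (hs _).le hs32 2
  have h21 : s b₂ ^ 2 ≤ s b₁ ^ 2 := pow_le_pow_left₀ (hs _).le hs21 2
  clear hrest hs21 hs32 hsm3 hkr' hmem hmb
  -- the fourth is small
  have hxm : s m ^ 2 < 0.16 := by
    by_contra hcon
    rw [not_lt] at hcon
    have e1 := fact13c (hA b₁) (by linarith)
    have e2 := fact13c (hA b₂) (by linarith)
    have e3 := fact13c (hA b₃) (by linarith)
    have e4 := fact13c (hA m) hcon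
    have hoth : ∀ i ∈ S.erase m, 0.608 * s i ^ 2 ≤ Q (τ i) := by
      intro i hi
      have hiS := Finset.mem_of_mem_erase hi
      have h5 : s i ^ 2 ≤ ∑ i ∈ S.erase m, s i ^ 2 :=
        Finset.single_le_sum (f := fun i => s i ^ 2) (fun i _ => sq_nonneg _) hi
      have h6 := hle i hiS
      have h7 := hsplit' (fun i => s i ^ 2)
      have h8 := fact1 (hA1 i) (by linarith)
      linarith [sq_nonneg (s i)]
    have h5 := Finset.sum_le_sum hoth
    rw [← Finset.mul_sum] at h5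
    have h7 := hsplit' (fun i => s i ^ 2)
    have h8 := hsplit' (fun i => Q (τ i))
    linarith
  have hsm4 : s m ≤ 0.4 := sq_le (by norm_num) (hxm.le.trans (by norm_num))
  -- the budget
  have hbud : ∑ i ∈ S, (Q (τ i) - 0.6 * s i ^ 2) ≤ 0.1013 := by
    have e1 := fact13a (hA b₁) (by linarith)
    have e2 := fact13a (hA b₂) hx2
    have e3 := fact13b (hA b₃) hx3
    rw [Finset.sum_sub_distrib, ← Finset.mul_sum]
    linarith
  have hnn : ∀ i ∈ S, 0 ≤ Q (τ i) - 0.6 * s i ^ 2 := by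
    intro i hi
    have := fact1 (hA1 i) (by linarith [hle i hi])
    linarith [sq_nonneg (s i)]
  have d : Data S m j₀ s τ r :=
    ⟨hmS, hj₀, hmax, hs, hA1, hbud, hnn, hsm4, hr0, hr⟩
  refine ⟨B, hBc, ?_, ?_⟩
  · intro i _ j hj
    have : 0.13 ≤ s j ^ 2 := by
      rw [hB] at hj
      simp only [Finset.mem_insert, Finset.mem_singleton] at hj
      rcases hj with rfl | rfl | rfl <;> linarith
    linarith [hx49 i]
  intro j hj l hl hjl L hL hL1 hL2
  rw [← hS]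
  have hLlow : 5 / 9 - ∑ i ∈ S, s i ^ 2 ≤ L ^ 2 := by
    have g1 := hx49 b₁
    have g2 := hx49 b₂
    have g3 := hx49 b₃
    rw [hB] at hj hl
    simp only [Finset.mem_insert, Finset.mem_singleton] at hj hl
    rcases hj with rfl | rfl | rfl <;> rcases hl with rfl | rfl | rfl <;>
      first | exact absurd rfl hjl | linarith
  have hLup : L ≤ 1 := by
    have hX0 : 0 ≤ ∑ i ∈ S, s i ^ 2 := Finset.sum_nonneg fun i _ => sq_nonneg _
    rw [hBsum] at hL2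
    exact sq_le zero_le_one (by rw [one_pow]; linarith)
  rcases le_or_gt (s m) 0.2 with ha | ha
  · exact d.caseA hL hkr hLlow hLup ha
  rcases le_or_gt (s m) 0.3 with hb | hb
  · exact d.caseB hL hkr hLlow hLup ha.le hb
  · exact d.caseC hL hkr hLlow hLup hb.le

end Vale.Agent.P226
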