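import Vale.Agent.Lib.P226.NumRegion

/-!
P226, job J11e (Num8.lean).  The numerical lemma for at least eight cells (`c ≥ 1`, `c ≤ 8/7`).

`x i = s i ^ 2`, `a i = Q (τ i)`; `b₁ b₂ b₃` from `region`, `B = {b₁,b₂,b₃}`, `S` the complement (at least 5
elements), `4` the index of the largest `s` in `S`, `R = ∑_{S, i ≠ 4} s i`, `X = ∑_S x`.
-/

open MeasureTheory ProbabilityTheory Filter
open scoped RealInnerProductSpace Topology

namespace Vale.Agent.P226

/-- lower bounds for `d = Q τ - 0.6 s²` -/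
theorem num8_small {τ s : ℝ} (h : Adm 1 τ (s ^ 2)) (h0 : 0 < s) (h1 : s ≤ 0.2) :
    0.344 * s ≤ Q τ - 0.6 * s ^ 2 := by
  rcases le_total s 0.125 with h2 | h2
  · have := fact5 h h0 h2
    linarith
  · have := fact6 h h2 h1
    linarith

theorem num8_big {τ s : ℝ} (h : Adm 1 τ (s ^ 2)) (h0 : 0.125 ≤ s) (h1 : s ≤ 0.5) :
    0.0475 ≤ Q τ - 0.6 * s ^ 2 := by
  rcases le_total s 0.2 with h2 | h2
  · have := fact6 h h0 h2
    linarith
  rcases le_total s 0.3 with h3 | h3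
  · have := fact8 h h2 h3
    linarith
  rcases le_total s 0.4 with h4 | h4
  · have := fact9 h h3 h4
    linarith
  · have := fact10 h h4 h1
    linarith

theorem num8_tiny {τ s : ℝ} (h : Adm 1 τ (s ^ 2)) (h0 : 0 < s) (h1 : s ≤ 0.5)
    (hd : Q τ - 0.6 * s ^ 2 < 0.0475) : 0.381 * s ≤ Q τ - 0.6 * s ^ 2 := by
  have h2 : s ≤ 0.125 := by
    by_contra hc
    have := num8_big h (not_le.1 hc).le h1
    linarith
  have := fact5 h h0 h2
  linarith

theorem num8_nonneg {τ s : ℝ} (h : Adm 1 τ (s ^ 2)) (h0 : 0 < s) :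
    0 ≤ Q τ - 0.6 * s ^ 2 := by
  rcases le_total s 0.5 with h1 | h1
  · rcases le_total s 0.125 with h2 | h2
    · have := fact5 h h0 h2
      linarith
    · have := num8_big h h2 h1
      linarith
  · have := fact11a h (by nlinarith)
    linarith

/-- from the last cell to the final bound -/
theorem num8_final {k r L V A : ℝ} (hk : 8 ≤ k) (hr : 0 < r) (hL : 0 < L) (hV : V * L ≤ A)
    (hA : A < Real.pi * L * (1 - 0.375 * r * L)) : V < Real.pi * (1 - 3 * r * L / k) := by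
  have h1 : V * L < (Real.pi * (1 - 0.375 * r * L)) * L := by
    calc V * L ≤ A := hV
      _ < _ := hA
      _ = _ := by ring
  have h2 : V < Real.pi * (1 - 0.375 * r * L) := lt_of_mul_lt_mul_right h1 hL.le
  refine h2.trans_le (mul_le_mul_of_nonneg_left ?_ Real.pi_pos.le)
  have h3 : 3 * r * L / k ≤ 0.375 * r * L := by
    rw [div_le_iff₀ (by linarith)]
    have : 0 < r * L := mul_pos hr hL
    nlinarith
  linarith

theorem sqrt3_bounds : (1.732 : ℝ) ≤ Real.sqrt 3 ∧ Real.sqrt 3 ≤ 1.7321 := by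
  constructor
  · exact Real.le_sqrt_of_sq_le (by norm_num)
  · rw [Real.sqrt_le_left (by norm_num)]
    norm_num

theorem sqrt3_sq : Real.sqrt 3 * Real.sqrt 3 = 3 := Real.mul_self_sqrt (by norm_num)

/-- the bound used when the largest `s` of the complement is at most `0.2` -/
theorem num8_caseA {ι : Type} {s : ι → ℝ} (S : Finset ι) (hs : ∀ i, 0 < s i)
    {L r : ℝ} (hL : 0 < L) (hL1 : L ^ 2 ≤ 1) (hr1 : 1 < r) (hr : r ≤ 1.0031)
    (hT : ∑ i ∈ S, s i ≤ 0.3144) (hs2 : ∀ i ∈ S, s i ≤ 0.2)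
    (hL2 : 5 / 9 - ∑ i ∈ S, s i ^ 2 ≤ L ^ 2) {k : ℝ} (hk : 8 ≤ k) :
    4 * ∑ i ∈ S, s i ^ 2 ≤ 3 * L ^ 2 ∧
        Real.arcsin (2 * Real.sqrt (∑ i ∈ S, s i ^ 2) / (Real.sqrt 3 * L)) +
          ∑ i ∈ S, Real.arctan (2 * Real.sqrt 3 * s i / L) <
        Real.pi * (1 - 3 * r * L / k) := by
  set X := ∑ i ∈ S, s i ^ 2 with hX
  set T := ∑ i ∈ S, s i with hTdef
  have hX0 : 0 ≤ X := Finset.sum_nonneg fun i _ => sq_nonneg _
  have hT0 : 0 ≤ T := Finset.sum_nonneg fun i _ => (hs i).le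
  have hXT : X ≤ 0.2 * T := by
    rw [hX, hTdef, Finset.mul_sum]
    refine Finset.sum_le_sum fun i hi => ?_
    have := mul_le_mul_of_nonneg_right (hs2 i hi) (hs i).le
    rw [pow_two]
    exact this
  have hX1 : X ≤ 0.063 := by linarith
  have hsX : Real.sqrt X ≤ 0.251 := by
    rw [Real.sqrt_le_left (by norm_num)]
    linarith
  have hLlow : 0.7 ≤ L := by nlinarith
  have hLhigh : L ≤ 1 := by nlinarith
  obtain ⟨q1, q2⟩ := sqrt3_bounds
  have q0 : 0 < Real.sqrt 3 := by positivity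
  have hsX0 := Real.sqrt_nonneg X
  have ht : 2 * Real.sqrt X / (Real.sqrt 3 * L) ≤ 1 / 2 := by
    rw [div_le_iff₀ (by positivity)]
    nlinarith
  have ht0 : 0 ≤ 2 * Real.sqrt X / (Real.sqrt 3 * L) := by positivity
  refine ⟨by nlinarith, ?_⟩
  have hpi1 := Real.pi_gt_d4
  have hpi2 := Real.pi_lt_d4
  refine num8_final hk (by linarith) hL
    (A := Real.pi / 3 * (2 * Real.sqrt X / Real.sqrt 3) + 2 * Real.sqrt 3 * T) ?_ ?_
  · rw [add_mul]
    refine add_le_add ?_ ?_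
    · have h1 := mul_le_mul_of_nonneg_right (arcsin_K1 ht0 ht) hL.le
      refine h1.trans (le_of_eq ?_)
      field_simp
    · have h1 : ∑ i ∈ S, Real.arctan (2 * Real.sqrt 3 * s i / L) ≤
          ∑ i ∈ S, 2 * Real.sqrt 3 * s i / L :=
        Finset.sum_le_sum fun i _ => arctan_le_self' (by have := hs i; positivity)
      refine (mul_le_mul_of_nonneg_right h1 hL.le).trans (le_of_eq ?_)
      rw [Finset.sum_mul, hTdef, Finset.mul_sum]
      refine Finset.sum_congr rfl fun i _ => ?_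
      field_simp
  · have h1 : Real.pi / 3 * (2 * Real.sqrt X / Real.sqrt 3) ≤ 0.3036 := by
      have h2 : 2 * Real.sqrt X / Real.sqrt 3 ≤ 0.28985 := by
        rw [div_le_iff₀ q0]
        nlinarith
      have h3 : 0 ≤ 2 * Real.sqrt X / Real.sqrt 3 := by positivity
      calc Real.pi / 3 * (2 * Real.sqrt X / Real.sqrt 3) ≤ (3.1416 / 3) * 0.28985 :=
            mul_le_mul (by linarith) h2 h3 (by norm_num)
        _ ≤ 0.3036 := by norm_num
    have h4 : 2 * Real.sqrt 3 * T ≤ 1.0893 := by nlinarith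
    have h5 : 1.6 ≤ Real.pi * L * (1 - 0.375 * r * L) := by
      have h6 : 0.51 ≤ L * (1 - 0.375 * r * L) := by
        have h7 : 0 ≤ (L - 0.7) * (1 - L) := mul_nonneg (by linarith) (by linarith)
        have h8 : r * L ^ 2 ≤ 1.0031 * L ^ 2 := mul_le_mul_of_nonneg_right hr (sq_nonneg L)
        nlinarith
      rw [mul_assoc]
      nlinarith
    linarith

/-- the bound used when the largest `s` of the complement is at least `0.2` -/
theorem num8_caseB {ι : Type} [DecidableEq ι] {s : ι → ℝ} (S : Finset ι) (hs : ∀ i, 0 < s i)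
    {i4 : ι} (hi4 : i4 ∈ S) (hmax : ∀ i ∈ S, s i ≤ s i4)
    {L r : ℝ} (hL : 0 < L) (hL1 : L ^ 2 ≤ 1) (hr1 : 1 < r) (hr : r ≤ 1.001)
    (h34 : 4 * (s i4 + (∑ i ∈ S.erase i4, s i) / 2) ≤ 3 * L)
    (hfin : 2.26233 * s i4 + 4.16234 * (∑ i ∈ S.erase i4, s i) < L * (2.52733 - 1.1793 * L))
    {k : ℝ} (hk : 8 ≤ k) :
    4 * ∑ i ∈ S, s i ^ 2 ≤ 3 * L ^ 2 ∧
        Real.arcsin (2 * Real.sqrt (∑ i ∈ S, s i ^ 2) / (Real.sqrt 3 * L)) +
          ∑ i ∈ S, Real.arctan (2 * Real.sqrt 3 * s i / L) <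
        Real.pi * (1 - 3 * r * L / k) := by
  set X := ∑ i ∈ S, s i ^ 2 with hX
  set R := ∑ i ∈ S.erase i4, s i with hR
  have h40 := hs i4
  have hX0 : 0 ≤ X := Finset.sum_nonneg fun i _ => sq_nonneg _
  have hR0 : 0 ≤ R := Finset.sum_nonneg fun i _ => (hs i).le
  have hXR : X ≤ (s i4 + R / 2) ^ 2 := by
    have h1 : X = s i4 ^ 2 + ∑ i ∈ S.erase i4, s i ^ 2 := (Finset.add_sum_erase S _ hi4).symm
    have h2 : ∑ i ∈ S.erase i4, s i ^ 2 ≤ s i4 * R := by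
      rw [hR, Finset.mul_sum]
      refine Finset.sum_le_sum fun i hi => ?_
      rw [pow_two]
      exact mul_le_mul_of_nonneg_right (hmax i (Finset.mem_of_mem_erase hi)) (hs i).le
    rw [h1]
    nlinarith
  have hsX : Real.sqrt X ≤ s i4 + R / 2 := by
    rw [Real.sqrt_le_left (by positivity)]
    exact hXR
  have hLhigh : L ≤ 1 := by nlinarith
  obtain ⟨q1, q2⟩ := sqrt3_bounds
  have q0 : 0 < Real.sqrt 3 := by positivity
  have q3 := sqrt3_sq
  have hsX0 := Real.sqrt_nonneg X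
  have ht : 2 * Real.sqrt X / (Real.sqrt 3 * L) ≤ Real.sqrt 3 / 2 := by
    rw [div_le_iff₀ (by positivity)]
    have : Real.sqrt 3 / 2 * (Real.sqrt 3 * L) = 3 / 2 * L := by
      rw [show Real.sqrt 3 / 2 * (Real.sqrt 3 * L) = (Real.sqrt 3 * Real.sqrt 3) / 2 * L by ring, q3]
    rw [this]
    linarith
  have ht0 : 0 ≤ 2 * Real.sqrt X / (Real.sqrt 3 * L) := by positivity
  refine ⟨?_, ?_⟩
  · have h1 : (4 * (s i4 + R / 2)) ^ 2 ≤ (3 * L) ^ 2 := pow_le_pow_left₀ (by positivity) h34 2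
    nlinarith
  have hpi1 := Real.pi_gt_d4
  have hpi2 := Real.pi_lt_d4
  refine num8_final hk (by linarith) hL
    (A := 4 * Real.pi / 9 * Real.sqrt X + ((Real.pi / 3 - Real.sqrt 3 / 4) * L +
      Real.sqrt 3 / 2 * s i4 + 2 * Real.sqrt 3 * R)) ?_ ?_
  · rw [add_mul]
    refine add_le_add ?_ ?_
    · have h1 := mul_le_mul_of_nonneg_right (arcsin_K3 ht0 ht) hL.le
      refine h1.trans (le_of_eq ?_)
      have : 2 * Real.pi / (3 * Real.sqrt 3) * (2 * Real.sqrt X / (Real.sqrt 3 * L)) * L =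
          4 * Real.pi * Real.sqrt X / (3 * (Real.sqrt 3 * Real.sqrt 3)) := by
        field_simp
        ring
      rw [this, q3]
      ring
    · have h1 : ∑ i ∈ S.erase i4, Real.arctan (2 * Real.sqrt 3 * s i / L) ≤
          ∑ i ∈ S.erase i4, 2 * Real.sqrt 3 * s i / L :=
        Finset.sum_le_sum fun i _ => arctan_le_self' (by have := hs i; positivity)
      have h2 : (∑ i ∈ S.erase i4, 2 * Real.sqrt 3 * s i / L) * L = 2 * Real.sqrt 3 * R := by
        rw [Finset.sum_mul, hR, Finset.mul_sum]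
        refine Finset.sum_congr rfl fun i _ => ?_
        field_simp
      have h3 := arctan_T3 (w := 2 * Real.sqrt 3 * s i4 / L) (by positivity)
      have h4 := mul_le_mul_of_nonneg_right h3 hL.le
      have h5 := mul_le_mul_of_nonneg_right h1 hL.le
      rw [h2] at h5
      rw [← Finset.add_sum_erase S _ hi4, add_mul]
      refine add_le_add (h4.trans (le_of_eq ?_)) h5
      field_simp
      ring
  · have h1 : 4 * Real.pi / 9 * Real.sqrt X ≤ 1.39628 * (s i4 + R / 2) :=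
      mul_le_mul (by linarith) hsX hsX0 (by norm_num)
    have h2 : Real.sqrt 3 / 2 * s i4 ≤ 0.86605 * s i4 :=
      mul_le_mul_of_nonneg_right (by linarith) h40.le
    have h3 : 2 * Real.sqrt 3 * R ≤ 3.4642 * R :=
      mul_le_mul_of_nonneg_right (by linarith) hR0
    have h4 : Real.pi * L * (1 - 0.375 * r * L) - (Real.pi / 3 - Real.sqrt 3 / 4) * L ≥
        L * (2.52733 - 1.1793 * L) := by
      have e1 : Real.pi * L * (1 - 0.375 * r * L) - (Real.pi / 3 - Real.sqrt 3 / 4) * L =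
        L * ((2 * Real.pi / 3 + Real.sqrt 3 / 4) - 0.375 * Real.pi * r * L) := by ring
      rw [e1]
      refine mul_le_mul_of_nonneg_left ?_ hL.le
      have e2 : 0.375 * Real.pi * r ≤ 1.1793 := by
        have : Real.pi * r ≤ 3.1416 * 1.001 := mul_le_mul hpi2.le hr (by linarith) (by norm_num)
        nlinarith
      have e3 : 0.375 * Real.pi * r * L ≤ 1.1793 * L := mul_le_mul_of_nonneg_right e2 hL.le
      linarith
    linarith

/-- the common hypotheses of the last step -/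
structure Num8Hyp {ι : Type} [DecidableEq ι] (s τ : ι → ℝ) (S : Finset ι) (i4 : ι) (L r : ℝ) :
    Prop where
  hs : ∀ i, 0 < s i
  hadm : ∀ i, Adm 1 (τ i) (s i ^ 2)
  hi4 : i4 ∈ S
  hmax : ∀ i ∈ S, s i ≤ s i4
  hcard : 4 ≤ (S.erase i4).card
  hs4 : s i4 < 0.4691
  hD : (Q (τ i4) - 0.6 * s i4 ^ 2) + ∑ i ∈ S.erase i4, (Q (τ i) - 0.6 * s i ^ 2) ≤ 0.1081
  hD' : 0.4 ≤ s i4 →
    (Q (τ i4) - 0.6 * s i4 ^ 2) + ∑ i ∈ S.erase i4, (Q (τ i) - 0.6 * s i ^ 2) ≤ 0.106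
  hr1 : 1 < r
  hrle : ∀ i, r ≤ 1 + 8 / 7 * (2.7926 * Q (τ i) ^ 2)
  hL : 0 < L
  hL1 : L ^ 2 ≤ 1
  hLx4 : 2 * s i4 ^ 2 ≤ L ^ 2
  hLX : 5 / 9 - ∑ i ∈ S, s i ^ 2 ≤ L ^ 2

theorem Num8Hyp.exists_small {ι : Type} [DecidableEq ι] {s τ : ι → ℝ} {S : Finset ι} {i4 : ι}
    {L r : ℝ} (H : Num8Hyp s τ S i4 L r) : ∃ i ∈ S.erase i4, Q (τ i) - 0.6 * s i ^ 2 ≤
      (∑ i ∈ S.erase i4, (Q (τ i) - 0.6 * s i ^ 2)) / 4 := by
  set D := ∑ i ∈ S.erase i4, (Q (τ i) - 0.6 * s i ^ 2) with hD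
  have hcard := H.hcard
  have hS'ne : (S.erase i4).Nonempty := Finset.card_pos.1 (by omega)
  have hD0 : 0 ≤ D := Finset.sum_nonneg fun i _ => num8_nonneg (H.hadm i) (H.hs i)
  by_contra hc
  push Not at hc
  have e1 : ∑ i ∈ S.erase i4, (D / 4) < D := Finset.sum_lt_sum_of_nonempty hS'ne hc
  rw [Finset.sum_const, nsmul_eq_mul] at e1
  have e2 : (4 : ℝ) ≤ ((S.erase i4).card : ℝ) := by exact_mod_cast hcard
  nlinarith

theorem Num8Hyp.caseA {ι : Type} [DecidableEq ι] {s τ : ι → ℝ} {S : Finset ι} {i4 : ι}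
    {L r : ℝ} (H : Num8Hyp s τ S i4 L r) (hcase : s i4 ≤ 0.2) {k : ℝ} (hk : 8 ≤ k) :
    4 * ∑ i ∈ S, s i ^ 2 ≤ 3 * L ^ 2 ∧
        Real.arcsin (2 * Real.sqrt (∑ i ∈ S, s i ^ 2) / (Real.sqrt 3 * L)) +
          ∑ i ∈ S, Real.arctan (2 * Real.sqrt 3 * s i / L) <
        Real.pi * (1 - 3 * r * L / k) := by
  have hs := H.hs
  have hadm := H.hadm
  have hDtot := H.hD
  obtain ⟨i0, hi0, hi0d⟩ := H.exists_small
  have hi0S : i0 ∈ S := Finset.mem_of_mem_erase hi0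
  have hsm : ∀ i ∈ S, s i ≤ 0.2 := fun i hi => (H.hmax i hi).trans hcase
  have hT : ∑ i ∈ S, s i ≤ 0.3144 := by
    have e1 : ∑ i ∈ S, 0.344 * s i ≤ ∑ i ∈ S, (Q (τ i) - 0.6 * s i ^ 2) :=
      Finset.sum_le_sum fun i hi => num8_small (hadm i) (hs i) (hsm i hi)
    rw [← Finset.mul_sum, ← Finset.add_sum_erase S _ H.hi4,
      ← Finset.add_sum_erase S (fun i => Q (τ i) - 0.6 * s i ^ 2) H.hi4] at e1
    rw [← Finset.add_sum_erase S _ H.hi4]
    linarith
  have hr : r ≤ 1.0031 := by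
    have e1 := num8_small (hadm i0) (hs i0) (hsm i0 hi0S)
    have e0 := num8_nonneg (hadm i4) (hs i4)
    have e2 : Q (τ i0) - 0.6 * s i0 ^ 2 ≤ 0.027025 := by linarith
    have e3 : s i0 ≤ 0.0786 := by linarith
    have e4 : s i0 ^ 2 ≤ 0.0786 ^ 2 := pow_le_pow_left₀ (hs i0).le e3 2
    have e5 : Q (τ i0) ≤ 0.03074 := by
      norm_num at e4
      linarith
    have e6 : Q (τ i0) ^ 2 ≤ 0.03074 ^ 2 := pow_le_pow_left₀ (Q_pos _).le e5 2
    have e7 := H.hrle i0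
    norm_num at e6
    linarith
  exact num8_caseA S hs H.hL H.hL1 H.hr1 hr hT hsm H.hLX hk

theorem Num8Hyp.sum_sq_le {ι : Type} [DecidableEq ι] {s τ : ι → ℝ} {S : Finset ι} {i4 : ι}
    {L r : ℝ} (H : Num8Hyp s τ S i4 L r) :
    ∑ i ∈ S, s i ^ 2 ≤ (s i4 + (∑ i ∈ S.erase i4, s i) / 2) ^ 2 := by
  have h1 : ∑ i ∈ S, s i ^ 2 = s i4 ^ 2 + ∑ i ∈ S.erase i4, s i ^ 2 :=
    (Finset.add_sum_erase S _ H.hi4).symm
  have h2 : ∑ i ∈ S.erase i4, s i ^ 2 ≤ s i4 * ∑ i ∈ S.erase i4, s i := by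
    rw [Finset.mul_sum]
    refine Finset.sum_le_sum fun i hi => ?_
    rw [pow_two]
    exact mul_le_mul_of_nonneg_right (H.hmax i (Finset.mem_of_mem_erase hi)) (H.hs i).le
  rw [h1]
  nlinarith [sq_nonneg (∑ i ∈ S.erase i4, s i)]

theorem Num8Hyp.gen {ι : Type} [DecidableEq ι] {s τ : ι → ℝ} {S : Finset ι} {i4 : ι}
    {L r : ℝ} (H : Num8Hyp s τ S i4 L r)
    (hDs : ∑ i ∈ S.erase i4, (Q (τ i) - 0.6 * s i ^ 2) ≤ 0.0392) :
    0.381 * ∑ i ∈ S.erase i4, s i ≤ ∑ i ∈ S.erase i4, (Q (τ i) - 0.6 * s i ^ 2) ∧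
      r ≤ 1.001 := by
  have hs := H.hs
  have hadm := H.hadm
  have hs4 := H.hs4
  have hsle : ∀ i ∈ S, s i ≤ 0.5 := fun i hi => (H.hmax i hi).trans (by linarith)
  constructor
  · rw [Finset.mul_sum]
    refine Finset.sum_le_sum fun i hi => ?_
    have e1 : Q (τ i) - 0.6 * s i ^ 2 ≤ ∑ i ∈ S.erase i4, (Q (τ i) - 0.6 * s i ^ 2) :=
      Finset.single_le_sum (f := fun i => Q (τ i) - 0.6 * s i ^ 2)
        (fun i _ => num8_nonneg (hadm i) (hs i)) hi
    exact num8_tiny (hadm i) (hs i) (hsle i (Finset.mem_of_mem_erase hi)) (by linarith)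
  · obtain ⟨i0, hi0, hi0d⟩ := H.exists_small
    have hi0S : i0 ∈ S := Finset.mem_of_mem_erase hi0
    have e2 : Q (τ i0) - 0.6 * s i0 ^ 2 ≤ 0.0098 := by linarith
    have e1 := num8_tiny (hadm i0) (hs i0) (hsle i0 hi0S) (by linarith)
    have e3 : s i0 ≤ 0.0258 := by linarith
    have e4 : s i0 ^ 2 ≤ 0.0258 ^ 2 := pow_le_pow_left₀ (hs i0).le e3 2
    have e5 : Q (τ i0) ≤ 0.0102 := by
      norm_num at e4
      linarith
    have e6 : Q (τ i0) ^ 2 ≤ 0.0102 ^ 2 := pow_le_pow_left₀ (Q_pos _).le e5 2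
    have e7 := H.hrle i0
    norm_num at e6
    linarith

/-- real number part of case (b) -/
theorem num8_real_b {u L R X : ℝ} (h1 : 0.2 ≤ u) (h2 : u ≤ 0.3) (hR0 : 0 ≤ R)
    (hR : 0.381 * R ≤ 0.0784 - 0.196 * u) (hX : X ≤ (u + R / 2) ^ 2) (hLX : 5 / 9 - X ≤ L ^ 2)
    (hL : 0 < L) (hL1 : L ≤ 1) :
    4 * (u + R / 2) ≤ 3 * L ∧ 2.26233 * u + 4.16234 * R < L * (2.52733 - 1.1793 * L) := by
  have hu : u + R / 2 ≤ 0.3258 := by linarith
  have hX1 : X ≤ 0.3258 ^ 2 := hX.trans (pow_le_pow_left₀ (by positivity) hu 2)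
  have hLlow : 0.67 ≤ L := by
    by_contra hc
    rw [not_le] at hc
    norm_num at hX1
    nlinarith
  refine ⟨by linarith, ?_⟩
  have e1 : 0 ≤ (L - 0.67) * (1 - L) := mul_nonneg (by linarith) (by linarith)
  nlinarith

/-- real number part of case (c) -/
theorem num8_real_c {u L R X : ℝ} (h1 : 0.3 ≤ u) (h2 : u ≤ 0.4) (hR0 : 0 ≤ R)
    (hR : 0.381 * R ≤ 0.0508 - 0.104 * u) (hX : X ≤ (u + R / 2) ^ 2) (hLX : 5 / 9 - X ≤ L ^ 2)
    (hL : 0 < L) (hL1 : L ≤ 1) :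
    4 * (u + R / 2) ≤ 3 * L ∧ 2.26233 * u + 4.16234 * R < L * (2.52733 - 1.1793 * L) := by
  have hu : u + R / 2 ≤ 0.4121 := by linarith
  have hX1 : X ≤ 0.4121 ^ 2 := hX.trans (pow_le_pow_left₀ (by positivity) hu 2)
  have hLlow : 0.621 ≤ L := by
    by_contra hc
    rw [not_le] at hc
    norm_num at hX1
    nlinarith
  refine ⟨by linarith, ?_⟩
  have e1 : 0 ≤ (L - 0.621) * (1 - L) := mul_nonneg (by linarith) (by linarith)
  nlinarith

/-- real number part of case (d) -/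
theorem num8_real_d {u L R : ℝ} (h1 : 0.4 ≤ u) (h2 : u ≤ 0.4691)
    (hR : 0.381 * R ≤ 0.0158 - 0.022 * u) (hLu : 2 * u ^ 2 ≤ L ^ 2)
    (hL : 0 < L) (hL1 : L ≤ 1) :
    4 * (u + R / 2) ≤ 3 * L ∧ 2.26233 * u + 4.16234 * R < L * (2.52733 - 1.1793 * L) := by
  have hLs : 1.4142 * u ≤ L := by
    by_contra hc
    rw [not_le] at hc
    nlinarith
  refine ⟨by linarith, ?_⟩
  have e2 : 0 ≤ (L - 1.4142 * u) * (2.52733 - 1.1793 * (L + 1.4142 * u)) := by
    refine mul_nonneg (by linarith) ?_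
    linarith
  have e3 : 0 ≤ (u - 0.4) * (0.4691 - u) := mul_nonneg (by linarith) (by linarith)
  nlinarith

theorem Num8Hyp.caseB {ι : Type} [DecidableEq ι] {s τ : ι → ℝ} {S : Finset ι} {i4 : ι}
    {L r : ℝ} (H : Num8Hyp s τ S i4 L r) (hcase : 0.2 ≤ s i4) {k : ℝ} (hk : 8 ≤ k) :
    4 * ∑ i ∈ S, s i ^ 2 ≤ 3 * L ^ 2 ∧
        Real.arcsin (2 * Real.sqrt (∑ i ∈ S, s i ^ 2) / (Real.sqrt 3 * L)) +
          ∑ i ∈ S, Real.arctan (2 * Real.sqrt 3 * s i / L) <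
        Real.pi * (1 - 3 * r * L / k) := by
  have hR0 : 0 ≤ ∑ i ∈ S.erase i4, s i := Finset.sum_nonneg fun i _ => (H.hs i).le
  have hXR := H.sum_sq_le
  have hDtot := H.hD
  have hL := H.hL
  have hL1 := H.hL1
  have hLle : L ≤ 1 := by nlinarith
  have hLX := H.hLX
  have hs4 := H.hs4
  rcases le_total (s i4) 0.3 with hcase2 | hcase2
  · have f := fact8 (H.hadm i4) hcase hcase2
    obtain ⟨g1, g2⟩ := H.gen (by linarith)
    obtain ⟨a1, a2⟩ := num8_real_b hcase hcase2 hR0 (by linarith) hXR hLX hL hLle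
    exact num8_caseB S H.hs H.hi4 H.hmax hL hL1 H.hr1 g2 a1 a2 hk
  rcases le_total (s i4) 0.4 with hcase3 | hcase3
  · have f := fact9 (H.hadm i4) hcase2 hcase3
    obtain ⟨g1, g2⟩ := H.gen (by linarith)
    obtain ⟨a1, a2⟩ := num8_real_c hcase2 hcase3 hR0 (by linarith) hXR hLX hL hLle
    exact num8_caseB S H.hs H.hi4 H.hmax hL hL1 H.hr1 g2 a1 a2 hk
  · have f := fact10 (H.hadm i4) hcase3 (by linarith)
    have hDtot' := H.hD' hcase3
    obtain ⟨g1, g2⟩ := H.gen (by linarith)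
    obtain ⟨a1, a2⟩ := num8_real_d (R := ∑ i ∈ S.erase i4, s i) hcase3 hs4.le (by linarith)
      H.hLx4 hL hLle
    exact num8_caseB S H.hs H.hi4 H.hmax hL hL1 H.hr1 g2 a1 a2 hk

theorem numeric8 {ι : Type} [Fintype ι] [DecidableEq ι] {s τ : ι → ℝ} {r : ℝ}
    (h : NumHyp s τ r) (hk : 8 ≤ Fintype.card ι) : NumConcl s r := by
  obtain ⟨b₁, b₂, b₃, h12, h13, h23, hs21, hs32, hoth, hb2, hb3, hx49⟩ := region h
  have hs := h.s_pos
  have hkR : (8 : ℝ) ≤ Fintype.card ι := by exact_mod_cast hk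
  have hc1 : (1 : ℝ) ≤ Fintype.card ι / (Fintype.card ι - 1) := by
    rw [le_div_iff₀ (by linarith)]
    linarith
  have hc2 : (Fintype.card ι / (Fintype.card ι - 1) : ℝ) ≤ 8 / 7 := by
    rw [div_le_iff₀ (by linarith)]
    linarith
  have hadm : ∀ i, Adm 1 (τ i) (s i ^ 2) := fun i => Adm.mono hc1 (h.adm i)
  set B : Finset ι := {b₁, b₂, b₃} with hB
  have hBcard : B.card = 3 := Finset.card_eq_three.2 ⟨b₁, b₂, b₃, h12, h13, h23, rfl⟩
  have hBsum : ∀ g : ι → ℝ, ∑ i ∈ B, g i = g b₁ + g b₂ + g b₃ := fun g => by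
    rw [hB, Finset.sum_insert (by simp [h12, h13]), Finset.sum_insert (by simp [h23]),
      Finset.sum_singleton]
    ring
  set S : Finset ι := Finset.univ \ B with hS
  have hScard : 5 ≤ S.card := by
    have := Finset.card_sdiff_add_card_eq_card (Finset.subset_univ B)
    rw [hBcard, Finset.card_univ, ← hS] at this
    omega
  have hSne : S.Nonempty := Finset.card_pos.1 (by omega)
  obtain ⟨i4, hi4, hmax⟩ := S.exists_max_image s hSne
  have hsplit : ∀ g : ι → ℝ, ∑ i, g i = (g b₁ + g b₂ + g b₃) + (g i4 + ∑ i ∈ S.erase i4, g i) := by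
    intro g
    rw [Finset.add_sum_erase S g hi4, ← hBsum g, hS,
      add_comm, Finset.sum_sdiff (Finset.subset_univ B)]
  have hSb : ∀ i ∈ S, s i ≤ s b₃ := by
    intro i hi
    have hiB : i ∉ B := (Finset.mem_sdiff.1 hi).2
    simp only [hB, Finset.mem_insert, Finset.mem_singleton, not_or] at hiB
    exact hoth i hiB.1 hiB.2.1 hiB.2.2
  have h4b3 : s i4 ≤ s b₃ := hSb i4 hi4
  have hb1sq : s b₂ ^ 2 ≤ s b₁ ^ 2 := pow_le_pow_left₀ (hs _).le hs21 2
  have hb2sq : s b₃ ^ 2 ≤ s b₂ ^ 2 := pow_le_pow_left₀ (hs _).le hs32 2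
  have hb3sq : s i4 ^ 2 ≤ s b₃ ^ 2 := pow_le_pow_left₀ (hs _).le h4b3 2
  -- the fourth value
  have hx4 : s i4 ^ 2 < 0.22 := by
    by_contra hc
    rw [not_lt] at hc
    have e1 := hsplit (fun i => Q (τ i) - 0.572 * s i ^ 2)
    have e2 : ∑ i, (Q (τ i) - 0.572 * s i ^ 2) = 1 - 0.572 := by
      rw [Finset.sum_sub_distrib, ← Finset.mul_sum, h.sum_Q, h.sum_sq]
      norm_num
    have e3 : 0 ≤ ∑ i ∈ S.erase i4, (Q (τ i) - 0.572 * s i ^ 2) := by
      refine Finset.sum_nonneg fun i hi => ?_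
      have e4 := hsplit (fun i => s i ^ 2)
      rw [h.sum_sq] at e4
      have e5 : s i ^ 2 ≤ ∑ i ∈ S.erase i4, s i ^ 2 :=
        Finset.single_le_sum (f := fun i => s i ^ 2) (fun i _ => sq_nonneg _) hi
      have e6 : s i ^ 2 ≤ 0.2 := by
        linarith
      have e7 := fact1 (hadm i) e6
      have e8 : 0 ≤ s i ^ 2 := sq_nonneg _
      linarith
    have f1 := fact12 (hadm b₁) (by linarith)
    have f2 := fact12 (hadm b₂) (by linarith)
    have f3 := fact12 (hadm b₃) (by linarith)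
    have f4 := fact12 (hadm i4) hc
    rw [e2] at e1
    linarith
  have hs4 : s i4 < 0.4691 := by
    by_contra hc
    rw [not_lt] at hc
    nlinarith
  -- the differences
  have hd := hsplit (fun i => Q (τ i) - 0.6 * s i ^ 2)
  have hd0 : ∑ i, (Q (τ i) - 0.6 * s i ^ 2) = 0.4 := by
    rw [Finset.sum_sub_distrib, ← Finset.mul_sum, h.sum_Q, h.sum_sq]
    norm_num
  rw [hd0] at hd
  have g1 := fact11a (hadm b₁) (by linarith)
  have g2 := fact11a (hadm b₂) (by linarith)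
  have g3 := fact11b (hadm b₃) (by linarith)
  have g3' : 0.4 ≤ s i4 → 0.6 * s b₃ ^ 2 + 0.098 ≤ Q (τ b₃) := fun hc =>
    fact11a (hadm b₃) (by nlinarith)
  have hrle : ∀ i, r ≤ 1 + 8 / 7 * (2.7926 * Q (τ i) ^ 2) := by
    intro i
    have e1 := h.r_le i
    have e2 := yy_le_sq (h.tau_nonneg i)
    have e3 := yy_nonneg (h.tau_nonneg i)
    have e4 : (Fintype.card ι / (Fintype.card ι - 1) : ℝ) * yy (τ i) ≤
        8 / 7 * (2.7926 * Q (τ i) ^ 2) := mul_le_mul hc2 e2 e3 (by norm_num)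
    linarith
  have hcardE : 4 ≤ (S.erase i4).card := by
    rw [Finset.card_erase_of_mem hi4]
    omega
  -- sums of squares
  have hXsum : ∑ i ∈ B, s i ^ 2 = 1 - ∑ i ∈ S, s i ^ 2 := by
    have := Finset.sum_sdiff (Finset.subset_univ B) (f := fun i => s i ^ 2)
    rw [h.sum_sq] at this
    rw [hS]
    linarith
  refine ⟨B, hBcard, ?_, ?_⟩
  · intro i _ j hj
    have e1 := hx49 i
    have e2 : 0.13 ≤ s j ^ 2 := by
      simp only [hB, Finset.mem_insert, Finset.mem_singleton] at hj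
      rcases hj with rfl | rfl | rfl
      · linarith
      · linarith
      · exact hb3
    linarith
  intro j hj l hl hjl L hL hL1 hL2
  have hmemB : ∀ i ∈ B, s b₃ ^ 2 ≤ s i ^ 2 := by
    intro i hi
    simp only [hB, Finset.mem_insert, Finset.mem_singleton] at hi
    rcases hi with rfl | rfl | rfl
    · linarith
    · exact hb2sq
    · exact le_rfl
  have hLx4 : 2 * s i4 ^ 2 ≤ L ^ 2 := by
    have e1 := hmemB j hj
    have e2 := hmemB l hl
    linarith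
  have hLX : 5 / 9 - ∑ i ∈ S, s i ^ 2 ≤ L ^ 2 := by
    have e1 : ∑ i ∈ B, s i ^ 2 ≤ s j ^ 2 + s l ^ 2 + 4 / 9 := by
      have e2 : ({j, l} : Finset ι) ⊆ B := by
        intro i hi
        simp only [Finset.mem_insert, Finset.mem_singleton] at hi
        rcases hi with rfl | rfl
        · exact hj
        · exact hl
      have e3 : (B \ {j, l}).card = 1 := by
        rw [Finset.card_sdiff_of_subset e2, hBcard, Finset.card_pair hjl]
      obtain ⟨m, hm⟩ := Finset.card_eq_one.1 e3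
      rw [← Finset.sum_sdiff e2, hm, Finset.sum_singleton, Finset.sum_pair hjl]
      have := hx49 m
      linarith
    linarith
  have hX0 : 0 ≤ ∑ i ∈ S, s i ^ 2 := Finset.sum_nonneg fun i _ => sq_nonneg _
  have H : Num8Hyp s τ S i4 L r :=
    { hs := hs, hadm := hadm, hi4 := hi4, hmax := hmax, hcard := hcardE, hs4 := hs4,
      hD := by linarith
      hD' := fun hc => by have := g3' hc; linarith
      hr1 := h.one_lt, hrle := hrle, hL := hL, hL1 := by linarith, hLx4 := hLx4, hLX := hLX }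
  rcases le_total (s i4) 0.2 with hcase | hcase
  · exact H.caseA hcase hkR
  · exact H.caseB hcase hkR

end Vale.Agent.P226
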