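import Vale.Agent.Lib.P226.Num4
import Vale.Agent.Lib.P226.Num5
import Vale.Agent.Lib.P226.Num67
import Vale.Agent.Lib.P226.Num8

/-!
P226 (Numeric.lean).  Purely numerical lemma, assembled from the cases `k = 4`, `5`, `6-7`, `≥ 8`.
-/

open MeasureTheory ProbabilityTheory Filter
open scoped RealInnerProductSpace Topology

namespace Vale.Agent.P226

theorem numeric {ι : Type} [Fintype ι] [DecidableEq ι] (hcard : 4 ≤ Fintype.card ι)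
    (s τ : ι → ℝ) {r : ℝ} (hr : 1 < r) (hτ : ∀ i, 0 ≤ τ i) (hs : ∀ i, 0 < s i)
    (hs1 : ∑ i, s i ^ 2 = 1) (hQ : ∑ i, Q (τ i) = 1)
    (h1 : ∀ i, r * c0 * s i ≤ phi (τ i))
    (h2 : ∀ i, r - (Fintype.card ι / (Fintype.card ι - 1) : ℝ) *
        (phi (τ i) * (phi (τ i) - τ i * Q (τ i)) / c0 ^ 2) / r ≤
      Real.sqrt (1 - (Fintype.card ι / (Fintype.card ι - 1) : ℝ) * s i ^ 2))
    (h3 : Fintype.card ι = 4 → ∀ i, r * c0 * s i ≤ 2 * Real.sqrt (2 / Real.pi) *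
      (Q (τ i) * (1 - Q (τ i)))) :
    ∃ B : Finset ι, B.card = 3 ∧ (∀ i ∈ B, ∀ j ∈ B, s i ^ 2 ≤ 5 * s j ^ 2) ∧
      ∀ j ∈ B, ∀ l ∈ B, j ≠ l → ∀ L : ℝ, 0 < L → s j ^ 2 + s l ^ 2 ≤ L ^ 2 →
        L ^ 2 ≤ ∑ i ∈ B, s i ^ 2 →
        4 * ∑ i ∈ Finset.univ \ B, s i ^ 2 ≤ 3 * L ^ 2 ∧
        Real.arcsin (2 * Real.sqrt (∑ i ∈ Finset.univ \ B, s i ^ 2) / (Real.sqrt 3 * L)) +
          ∑ i ∈ Finset.univ \ B, Real.arctan (2 * Real.sqrt 3 * s i / L) <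
        Real.pi * (1 - 3 * r * L / Fintype.card ι) := by
  have H : NumHyp s τ r := numHyp_of_raw hcard s τ hr hτ hs hs1 hQ h1 h2 h3
  change NumConcl s r
  rcases Nat.lt_or_ge (Fintype.card ι) 5 with h | h
  · exact numeric4 H (by omega)
  rcases Nat.lt_or_ge (Fintype.card ι) 6 with h' | h'
  · exact numeric5 H (by omega)
  rcases Nat.lt_or_ge (Fintype.card ι) 8 with h'' | h''
  · exact numeric67 H h' (by omega)
  · exact numeric8 H h''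

end Vale.Agent.P226
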