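import Vale.Agent.Lib.P226.Base
import Vale.Agent.Lib.P226.CritExists
import Vale.Agent.Lib.P226.Del
import Vale.Agent.Lib.P226.Cover
import Vale.Agent.Lib.P226.Cap
import Vale.Agent.Lib.P226.Numeric

/-!
P226, job J12 (Final.lean): assembly.
-/

open MeasureTheory ProbabilityTheory Filter
open scoped RealInnerProductSpace Topology

namespace Vale.Agent.P226

variable {E : Type*} [NormedAddCommGroup E] [InnerProductSpace ℝ E]
  [FiniteDimensional ℝ E] [MeasurableSpace E] [BorelSpace E]

theorem c0_pos : 0 < c0 := by unfold c0; positivity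

theorem c0_sq : c0 ^ 2 = 9 / (8 * Real.pi) := by
  unfold c0
  rw [div_pow, mul_pow, Real.sq_sqrt (by positivity)]
  field_simp
  ring

theorem no_crit {ι : Type} [Fintype ι] {v : ι → E} {r : ℝ} (h : Crit v r) : False := by
  classical
  have hex : ∀ i, ∃ τ, 0 ≤ τ ∧ Q τ = (stdGaussian E).real (cell v i) := by
    intro i
    obtain ⟨h0, h1⟩ := h.cell_half i
    obtain ⟨x, hx⟩ := Q_surj h0 (by linarith)
    refine ⟨x, ?_, hx⟩
    by_contra hneg
    push Not at hneg
    have := Q_strictAnti hneg
    rw [Q_zero, hx] at this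
    linarith
  choose τ hτ0 hτ using hex
  have hs : ∀ i, 0 < ‖v i‖ := fun i => norm_pos_iff.2 (h.ne_zero i)
  have hr := h.one_lt
  obtain ⟨B, hB, h5, hall⟩ := numeric h.card (fun i => ‖v i‖) τ h.one_lt hτ0 hs h.norm
    (by simp_rw [hτ]; exact h.sum_cell)
    (by
      intro i
      have hm := norm_moment_le (cell v i) (measurableSet_cell v i) (τ i)
      rw [h.moment i, norm_smul, ← hτ i, Real.norm_of_nonneg (by have := c0_pos; positivity)] at hm
      linarith)
    (by intro i; exact crit_del h i (hτ i).symm)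
    (by intro h4 i; have := crit_cap h h4 i; rwa [← hτ i] at this)
  obtain ⟨j, hj, l, hl, hjl, L, hL, hL1, hL2, hcov⟩ := crit_cover h hB h5
  obtain ⟨hX, hlt⟩ := hall j hj l hl hjl L hL hL1 hL2
  exact absurd (hcov hX) (not_le.2 hlt)

theorem main_hval (n : ℕ) : ∀ (ι : Type) [Fintype ι] [Nonempty ι], Fintype.card ι = n →
    ∀ v : ι → E, hval v ≤ c0 * Real.sqrt (∑ i, ‖v i‖ ^ 2) := by
  induction n using Nat.strong_induction_on with
  | _ n ih =>
    intro ι _ _ hn v
    by_cases h3 : n ≤ 3
    · exact base (by omega) v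
    · by_contra hv
      push Not at hv
      obtain ⟨u, r, hc⟩ := exists_crit (by omega)
        (fun κ _ _ hκ u => ih _ (by omega) κ rfl u) v hv
      exact no_crit hc

/-- partition form -/
theorem main_partition {k : ℕ} (A : Fin k → Set E) (hA : ∀ i, MeasurableSet (A i))
    (hdisj : Pairwise (fun i j => Disjoint (A i) (A j))) (hcov : (⋃ i, A i) = Set.univ) :
    ∑ i, ‖∫ x in A i, x ∂(stdGaussian E)‖ ^ 2 ≤ 9 / (8 * Real.pi) := by
  haveI : Nonempty (Fin k) := by
    by_contra hne
    rw [not_nonempty_iff] at hne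
    rw [Set.iUnion_of_empty] at hcov
    have : (0 : E) ∈ (∅ : Set E) := by rw [hcov]; trivial
    exact this
  rw [← c0_sq]
  exact partition_of_hval (fun u => main_hval _ _ rfl u) A hA hdisj hcov

end Vale.Agent.P226
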