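import Vale.Agent.Lib.P226.Basics

/-!
P226, job J3b (Moment.lean).  First moment of a measurable set under the standard Gaussian measure.
-/

open MeasureTheory ProbabilityTheory Filter
open scoped RealInnerProductSpace Topology

namespace Vale.Agent.P226

variable {E : Type*} [NormedAddCommGroup E] [InnerProductSpace ℝ E]
  [FiniteDimensional ℝ E] [MeasurableSpace E] [BorelSpace E]

/-- a linear form is Gaussian with variance the squared norm -/
theorem map_inner_stdGaussian_gen (u : E) :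
    (stdGaussian E).map (fun x => ⟪u, x⟫) = gaussianReal 0 (‖u‖ ^ 2).toNNReal := by
  have h := IsGaussian.map_eq_gaussianReal (μ := stdGaussian E) (innerSL ℝ u)
  rw [variance_dual_stdGaussian, integral_strongDual_stdGaussian, innerSL_apply_norm] at h
  exact h

/-- a linear form is Gaussian with variance the squared norm -/
theorem map_inner_stdGaussian (u : E) (hu : ‖u‖ = 1) :
    (stdGaussian E).map (fun x => ⟪u, x⟫) = gaussianReal 0 1 := by
  rw [map_inner_stdGaussian_gen, hu]
  simp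

theorem integrable_id_stdGaussian : Integrable (fun x : E => x) (stdGaussian E) :=
  IsGaussian.integrable_fun_id

theorem integrable_inner_stdGaussian (u : E) :
    Integrable (fun x : E => ⟪u, x⟫) (stdGaussian E) :=
  integrable_id_stdGaussian.const_inner u

theorem integrable_exp_inner_stdGaussian (w : E) (c : ℝ) :
    Integrable (fun x : E => Real.exp (c * ⟪w, x⟫)) (stdGaussian E) := by
  have h := integrable_exp_mul_gaussianReal (μ := 0) (v := (‖w‖ ^ 2).toNNReal) c
  rw [← map_inner_stdGaussian_gen w] at h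
  exact (integrable_map_measure (f := fun x : E => ⟪w, x⟫) (g := fun y : ℝ => Real.exp (c * y))
    (by fun_prop) (by fun_prop)).1 h

theorem integrable_exp_abs_inner_stdGaussian (w : E) (c : ℝ) :
    Integrable (fun x : E => Real.exp (c * |⟪w, x⟫|)) (stdGaussian E) := by
  refine ((integrable_exp_inner_stdGaussian w c).add
    (integrable_exp_inner_stdGaussian w (-c))).mono' (by fun_prop) ?_
  filter_upwards with x
  rw [Real.norm_eq_abs, abs_of_pos (Real.exp_pos _)]
  simp only [Pi.add_apply]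
  rcases abs_cases ⟪w, x⟫ with ⟨h, -⟩ | ⟨h, -⟩
  · rw [h]
    have := Real.exp_pos (-c * ⟪w, x⟫)
    linarith
  · rw [h]
    have := Real.exp_pos (c * ⟪w, x⟫)
    have e : c * -⟪w, x⟫ = -c * ⟪w, x⟫ := by ring
    rw [e]
    linarith

/-- bathtub bound in Lagrangian form: test with the unit vector in the direction of the moment,
`∫_A ⟪x,u⟫ = ∫_A (⟪x,u⟫ - θ) + θ γ(A) ≤ E (g-θ)_+ + θ γ(A)` -/
theorem norm_moment_le (A : Set E) (hA : MeasurableSet A) (θ : ℝ) :
    ‖∫ x in A, x ∂(stdGaussian E)‖ ≤ θ * (stdGaussian E).real A + (phi θ - θ * Q θ) := by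
  set m := ∫ x in A, x ∂(stdGaussian E) with hm
  have hint1 : Integrable (fun y : ℝ => max (y - θ) 0) (gaussianReal 0 1) := by
    have h1 : Integrable (fun y : ℝ => y - θ) (gaussianReal 0 1) :=
      (IsGaussian.integrable_fun_id (μ := gaussianReal 0 1)).sub (integrable_const θ)
    exact h1.pos_part
  by_cases h0 : m = 0
  · rw [h0, norm_zero, ← integral_pos_part]
    have hA1 : (stdGaussian E).real A ≤ 1 := measureReal_le_one
    have hA0 : 0 ≤ (stdGaussian E).real A := measureReal_nonneg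
    have hp : 0 ≤ ∫ x, max (x - θ) 0 ∂(gaussianReal 0 1) :=
      integral_nonneg fun x => le_max_right _ _
    rcases le_total 0 θ with hθ | hθ
    · have := mul_nonneg hθ hA0
      linarith
    · have h2 : -θ ≤ ∫ x, max (x - θ) 0 ∂(gaussianReal 0 1) := by
        have h3 : ∫ x, (x - θ) ∂(gaussianReal 0 1) ≤ ∫ x, max (x - θ) 0 ∂(gaussianReal 0 1) :=
          integral_mono ((IsGaussian.integrable_fun_id (μ := gaussianReal 0 1)).sub
            (integrable_const θ)) hint1 fun x => le_max_left _ _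
        rw [integral_sub IsGaussian.integrable_fun_id (integrable_const θ),
          integral_id_gaussianReal] at h3
        simpa using h3
      nlinarith
  · have hmpos : 0 < ‖m‖ := norm_pos_iff.2 h0
    set u : E := (‖m‖⁻¹ : ℝ) • m with hu
    have hu1 : ‖u‖ = 1 := by
      rw [hu, norm_smul, norm_inv, norm_norm, inv_mul_cancel₀ hmpos.ne']
    have hum : ⟪u, m⟫ = ‖m‖ := by
      rw [hu, real_inner_smul_left, real_inner_self_eq_norm_sq]
      field_simp
    have hI : Integrable (fun x : E => ⟪u, x⟫) (stdGaussian E) := integrable_inner_stdGaussian u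
    have h1 : ⟪u, m⟫ = ∫ x in A, ⟪u, x⟫ ∂(stdGaussian E) := by
      rw [hm]
      exact (integral_inner (integrable_id_stdGaussian.integrableOn) u).symm
    have h2 : ∫ x in A, ⟪u, x⟫ ∂(stdGaussian E) =
        ∫ x in A, (⟪u, x⟫ - θ) ∂(stdGaussian E) + θ * (stdGaussian E).real A := by
      rw [integral_sub hI.integrableOn (integrable_const θ)]
      simp [mul_comm]
    have hmax : Integrable (fun x : E => max (⟪u, x⟫ - θ) 0) (stdGaussian E) :=
      (hI.sub (integrable_const θ)).pos_part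
    have h3 : ∫ x in A, (⟪u, x⟫ - θ) ∂(stdGaussian E) ≤
        ∫ x, max (⟪u, x⟫ - θ) 0 ∂(stdGaussian E) := by
      calc ∫ x in A, (⟪u, x⟫ - θ) ∂(stdGaussian E)
          ≤ ∫ x in A, max (⟪u, x⟫ - θ) 0 ∂(stdGaussian E) :=
            integral_mono (hI.sub (integrable_const θ)).integrableOn hmax.integrableOn
              fun x => le_max_left _ _
        _ ≤ ∫ x, max (⟪u, x⟫ - θ) 0 ∂(stdGaussian E) :=
            setIntegral_le_integral hmax (Eventually.of_forall fun x => le_max_right _ _)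
    have h4 : ∫ x, max (⟪u, x⟫ - θ) 0 ∂(stdGaussian E) = phi θ - θ * Q θ := by
      rw [← integral_pos_part, ← map_inner_stdGaussian u hu1, integral_map (by fun_prop)
        (by fun_prop)]
    linarith [hum, h1, h2, h3, h4]

/-- the density of the standard Gaussian measure -/
noncomputable def dens (E : Type*) [NormedAddCommGroup E] [InnerProductSpace ℝ E]
    [FiniteDimensional ℝ E] (x : E) : ℝ :=
  ((2 * Real.pi) ^ (Module.finrank ℝ E / 2 : ℝ))⁻¹ * Real.exp (-‖x‖ ^ 2 / 2)

omit [MeasurableSpace E] [BorelSpace E] in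
theorem dens_pos (x : E) : 0 < dens E x := by
  unfold dens
  positivity

omit [MeasurableSpace E] [BorelSpace E] in
theorem continuous_dens : Continuous (dens E) := by
  unfold dens
  fun_prop

theorem integral_dens : ∫ x, dens E x = 1 := by
  unfold dens
  have h := GaussianFourier.integral_rexp_neg_mul_sq_norm (V := E) (b := 1 / 2) (by norm_num)
  rw [integral_const_mul]
  have h1 : ∫ x : E, Real.exp (-‖x‖ ^ 2 / 2) = (2 * Real.pi) ^ (Module.finrank ℝ E / 2 : ℝ) := by
    have e : (Real.pi / (1 / 2 : ℝ)) = 2 * Real.pi := by ring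
    rw [e] at h
    rw [← h]
    congr 1
    funext x
    congr 1
    ring
  rw [h1]
  have h2 : 0 < (2 * Real.pi) ^ (Module.finrank ℝ E / 2 : ℝ) := by positivity
  exact inv_mul_cancel₀ h2.ne'

theorem integrable_dens : Integrable (dens E) :=
  Integrable.of_integral_ne_zero (by rw [integral_dens]; norm_num)

/-- the standard Gaussian measure has a density -/
theorem stdGaussian_eq_withDensity :
    stdGaussian E = (volume : Measure E).withDensity (fun x => ENNReal.ofReal (dens E x)) := by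
  have hfin : IsFiniteMeasure
      ((volume : Measure E).withDensity (fun x => ENNReal.ofReal (dens E x))) :=
    isFiniteMeasure_withDensity_ofReal integrable_dens.2
  apply Measure.ext_of_charFun
  ext t
  rw [charFun_stdGaussian, charFun_apply, integral_withDensity_eq_integral_toReal_smul
    (by exact (continuous_dens (E := E)).measurable.ennreal_ofReal)
    (ae_of_all _ fun _ => ENNReal.ofReal_lt_top)]
  have hpos : 0 < (2 * Real.pi) ^ (Module.finrank ℝ E / 2 : ℝ) := by positivity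
  have h := GaussianFourier.integral_cexp_neg_mul_sq_norm_add (V := E) (b := 1 / 2)
    (by norm_num) Complex.I t
  have e : ∀ x : E, (ENNReal.ofReal (dens E x)).toReal • Complex.exp (⟪x, t⟫ * Complex.I) =
      (((2 * Real.pi) ^ (Module.finrank ℝ E / 2 : ℝ) : ℝ) : ℂ)⁻¹ *
        Complex.exp (-(1 / 2) * (‖x‖ : ℂ) ^ 2 + Complex.I * ⟪t, x⟫) := by
    intro x
    rw [ENNReal.toReal_ofReal (dens_pos x).le, dens, Complex.real_smul, Complex.exp_add]
    rw [real_inner_comm t x]
    push_cast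
    rw [mul_assoc]
    congr 1
    rw [mul_comm Complex.I]
    congr 2
    ring
  simp_rw [e]
  rw [integral_const_mul, h]
  have e2 : (Real.pi / (1 / 2 : ℂ)) ^ (Module.finrank ℝ E / 2 : ℂ) =
      (((2 * Real.pi) ^ (Module.finrank ℝ E / 2 : ℝ) : ℝ) : ℂ) := by
    rw [Complex.ofReal_cpow (by positivity)]
    congr 1
    · push_cast
      ring
    · push_cast
      ring
  rw [e2, ← mul_assoc, inv_mul_cancel₀ (by exact_mod_cast hpos.ne'), one_mul, Complex.I_sq]
  congr 1
  ring

theorem integral_stdGaussian_eq (f : E → ℝ) :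
    ∫ x, f x ∂(stdGaussian E) = ∫ x, dens E x * f x := by
  rw [stdGaussian_eq_withDensity, integral_withDensity_eq_integral_toReal_smul
    (by exact (continuous_dens (E := E)).measurable.ennreal_ofReal)
    (ae_of_all _ fun _ => ENNReal.ofReal_lt_top)]
  congr 1
  funext x
  rw [ENNReal.toReal_ofReal (dens_pos x).le, smul_eq_mul]

omit [MeasurableSpace E] [BorelSpace E] in
theorem dens_add (w x : E) (t : ℝ) :
    dens E (x + t • w) = dens E x * Real.exp (-t * ⟪w, x⟫ - t ^ 2 * ‖w‖ ^ 2 / 2) := by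
  unfold dens
  rw [mul_assoc, ← Real.exp_add, norm_add_sq_real, real_inner_smul_right, norm_smul,
    real_inner_comm, mul_pow, Real.norm_eq_abs, sq_abs]
  congr 2
  ring

/-- Cameron-Martin: `γ(A + tw) = ∫_A exp(-t⟪w,x⟫ - t²‖w‖²/2) dγ` -/
theorem translate_eq (A : Set E) (hA : MeasurableSet A) (w : E) (t : ℝ) :
    (stdGaussian E).real {x | x - t • w ∈ A} =
      ∫ x in A, Real.exp (-t * ⟪w, x⟫ - t ^ 2 * ‖w‖ ^ 2 / 2) ∂(stdGaussian E) := by
  have hB : MeasurableSet {x : E | x - t • w ∈ A} :=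
    (measurable_id.sub_const (t • w)) hA
  rw [← integral_indicator_one hB, ← integral_indicator hA, integral_stdGaussian_eq,
    integral_stdGaussian_eq]
  have e1 : (fun x : E => dens E x * ({x : E | x - t • w ∈ A}).indicator (1 : E → ℝ) x) =
      fun x => (fun y : E => dens E (y + t • w) * A.indicator (1 : E → ℝ) y) (x - t • w) := by
    funext x
    simp only [sub_add_cancel]
    congr 1
  rw [e1, integral_sub_right_eq_self (fun y : E => dens E (y + t • w) *
    A.indicator (1 : E → ℝ) y) (t • w)]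
  congr 1
  funext x
  rw [dens_add]
  by_cases hx : x ∈ A
  · rw [Set.indicator_of_mem hx, Set.indicator_of_mem hx, Pi.one_apply, mul_one]
  · rw [Set.indicator_of_notMem hx, Set.indicator_of_notMem hx, mul_zero, mul_zero]

/-- derivative of the Gaussian measure of a translate -/
theorem hasDerivAt_translate (A : Set E) (hA : MeasurableSet A) (w : E) :
    HasDerivAt (fun t : ℝ => (stdGaussian E).real {x | x - t • w ∈ A})
      (-⟪∫ x in A, x ∂(stdGaussian E), w⟫) 0 := by
  simp_rw [translate_eq A hA w]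
  have hbd : Integrable (fun x : E => Real.exp (2 * |⟪w, x⟫|) +
      ‖w‖ ^ 2 * Real.exp (1 * |⟪w, x⟫|)) ((stdGaussian E).restrict A) :=
    ((integrable_exp_abs_inner_stdGaussian w 2).add
      ((integrable_exp_abs_inner_stdGaussian w 1).const_mul (‖w‖ ^ 2))).integrableOn
  have key := hasDerivAt_integral_of_dominated_loc_of_deriv_le
    (μ := (stdGaussian E).restrict A)
    (F := fun (t : ℝ) (x : E) => Real.exp (-t * ⟪w, x⟫ - t ^ 2 * ‖w‖ ^ 2 / 2))
    (F' := fun (t : ℝ) (x : E) => Real.exp (-t * ⟪w, x⟫ - t ^ 2 * ‖w‖ ^ 2 / 2) *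
      (-⟪w, x⟫ - t * ‖w‖ ^ 2))
    (x₀ := 0) (s := Metric.ball 0 1) (bound := fun x : E => Real.exp (2 * |⟪w, x⟫|) +
      ‖w‖ ^ 2 * Real.exp (1 * |⟪w, x⟫|)) (Metric.ball_mem_nhds 0 one_pos)
    (Eventually.of_forall fun t => by
      refine Continuous.aestronglyMeasurable ?_
      fun_prop)
    (by
      simp)
    (by
      refine Continuous.aestronglyMeasurable ?_
      fun_prop)
    (by
      filter_upwards with x t ht
      rw [Metric.mem_ball, dist_zero_right, Real.norm_eq_abs] at ht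
      have h1 := abs_lt.1 ht
      rw [Real.norm_eq_abs, abs_mul, abs_of_pos (Real.exp_pos _)]
      have hw : 0 ≤ ‖w‖ ^ 2 := sq_nonneg _
      have h2 : |-⟪w, x⟫ - t * ‖w‖ ^ 2| ≤ |⟪w, x⟫| + ‖w‖ ^ 2 := by
        calc |-⟪w, x⟫ - t * ‖w‖ ^ 2| ≤ |-⟪w, x⟫| + |t * ‖w‖ ^ 2| := abs_sub _ _
          _ = |⟪w, x⟫| + |t| * ‖w‖ ^ 2 := by rw [abs_neg, abs_mul, abs_of_nonneg hw]
          _ ≤ |⟪w, x⟫| + ‖w‖ ^ 2 := by nlinarith
      have h3 : Real.exp (-t * ⟪w, x⟫ - t ^ 2 * ‖w‖ ^ 2 / 2) ≤ Real.exp (|⟪w, x⟫|) := by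
        apply Real.exp_le_exp.2
        have h4 : -t * ⟪w, x⟫ ≤ |⟪w, x⟫| := by
          calc -t * ⟪w, x⟫ ≤ |-t * ⟪w, x⟫| := le_abs_self _
            _ = |t| * |⟪w, x⟫| := by rw [abs_mul, abs_neg]
            _ ≤ 1 * |⟪w, x⟫| := mul_le_mul_of_nonneg_right ht.le (abs_nonneg _)
            _ = |⟪w, x⟫| := one_mul _
        have h5 : 0 ≤ t ^ 2 * ‖w‖ ^ 2 / 2 := by positivity
        linarith
      have h6 : |⟪w, x⟫| ≤ Real.exp (|⟪w, x⟫|) := by
        have := Real.add_one_le_exp (|⟪w, x⟫|)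
        linarith
      have h7 : Real.exp (2 * |⟪w, x⟫|) = Real.exp (|⟪w, x⟫|) * Real.exp (|⟪w, x⟫|) := by
        rw [← Real.exp_add]
        congr 1
        ring
      rw [h7, one_mul]
      have hE := Real.exp_pos (|⟪w, x⟫|)
      calc Real.exp (-t * ⟪w, x⟫ - t ^ 2 * ‖w‖ ^ 2 / 2) * |-⟪w, x⟫ - t * ‖w‖ ^ 2|
          ≤ Real.exp (|⟪w, x⟫|) * (|⟪w, x⟫| + ‖w‖ ^ 2) :=
            mul_le_mul h3 h2 (abs_nonneg _) hE.le
        _ ≤ Real.exp (|⟪w, x⟫|) * (Real.exp (|⟪w, x⟫|) + ‖w‖ ^ 2) := by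
            apply mul_le_mul_of_nonneg_left _ hE.le
            linarith
        _ = _ := by ring)
    hbd
    (by
      filter_upwards with x t ht
      have h1 : HasDerivAt (fun t : ℝ => -t * ⟪w, x⟫ - t ^ 2 * ‖w‖ ^ 2 / 2)
          (-⟪w, x⟫ - t * ‖w‖ ^ 2) t := by
        have h2 : HasDerivAt (fun t : ℝ => -t * ⟪w, x⟫) (-1 * ⟪w, x⟫) t :=
          (hasDerivAt_id t).neg.mul_const _
        have h3 : HasDerivAt (fun t : ℝ => t ^ 2 * ‖w‖ ^ 2 / 2)
            ((2 : ℕ) * t ^ (2 - 1) * ‖w‖ ^ 2 / 2) t :=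
          ((hasDerivAt_pow 2 t).mul_const _).div_const _
        have h4 := h2.sub h3
        have e5 : (-1 * ⟪w, x⟫ - (2 : ℕ) * t ^ (2 - 1) * ‖w‖ ^ 2 / 2 : ℝ) =
            -⟪w, x⟫ - t * ‖w‖ ^ 2 := by
          norm_num
          ring
        rw [e5] at h4
        exact h4
      exact h1.exp)
  have h := key.2
  have e : ∫ x in A, Real.exp (-0 * ⟪w, x⟫ - 0 ^ 2 * ‖w‖ ^ 2 / 2) *
      (-⟪w, x⟫ - 0 * ‖w‖ ^ 2) ∂(stdGaussian E) = -⟪∫ x in A, x ∂(stdGaussian E), w⟫ := by
    have e1 : ∀ x : E, Real.exp (-0 * ⟪w, x⟫ - 0 ^ 2 * ‖w‖ ^ 2 / 2) *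
      (-⟪w, x⟫ - 0 * ‖w‖ ^ 2) = -⟪w, x⟫ := by
      intro x
      simp
    simp_rw [e1]
    rw [integral_neg, real_inner_comm]
    congr 1
    exact integral_inner (integrable_id_stdGaussian.integrableOn) w
  rw [← e]
  exact h

end Vale.Agent.P226
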