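import Vale.Agent.Lib.P226.NumRegion

/-!
P226, job J11b (Num4.lean).  The numerical lemma for four cells (`c = 4/3 ≥ 5/4`).

`x i = s i ^ 2`, `a i = Q (τ i) ≤ 1/2`, `x i ≤ f(a i)`, `f(a) = (64/9) a² (1-a)²` (from `cap`).
Let `m` minimise `a`; `a m ≤ 1/4`.
* If `0.2 ≤ a m`: `f(a) ≤ (4/3) a - 1/12` on `[0.2, 0.5]`, so with fact21
  `1 = ∑ x ≤ (4/3)(1 - a m) - 1/4 + (4/3) a m - 0.088 < 1`.
* If `0.075 ≤ a m ≤ 0.2`: `f(a) ≤ 1.156 a - 0.0329` on `[0.04, 0.5]`, so with fact20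
  `1 ≤ 1.156 (1 - a m) - 0.0987 + 1.156 a m - 0.06 < 1`.
* So `a m ≤ 0.075`, `x m ≤ 0.0266`, `yy (τ m) ≤ 0.0134` (fact22), `r ≤ 1 + (4/3) 0.0134 ≤ 1.0179`.
  `B =` the other three.  Ratio: `x b ≤ 4/9`; if some `x b < 4/45` the other two sum to more than
  `0.884`, so each is at least `0.44`, so (by `f`) their `a` is at least `0.46`, so `a m + a b ≤ 0.08`,
  `x m + x b ≤ (64/9) 0.08²`, total `< 1`.
* Final: `X = x m`, `s = s m ≤ 0.1631`, `L² ∈ [5/9 - X, 1 - X]` (as `x_j + x_l = 1 - X - x_{m'}`),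
  `arcsin t ≤ (π/3) t` (`t = 2s/(√3 L) ≤ 1/2`), `arctan w ≤ π/6 + (3/4)(w - 1/√3)` (`w = 2√3 s/L`),
  then a concave quadratic inequality in `L`: margin 0.03 (use only `0.7 ≤ L ≤ 1`).
-/

open MeasureTheory ProbabilityTheory Filter
open scoped RealInnerProductSpace Topology

namespace Vale.Agent.P226

theorem num4_f1 {a : ℝ} (h0 : 0.2 ≤ a) (h1 : a ≤ 0.5) :
    64 / 9 * (a * (1 - a)) ^ 2 ≤ 4 / 3 * a - 1 / 12 := by
  have h : 4 / 3 * a - 1 / 12 - 64 / 9 * (a * (1 - a)) ^ 2 =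
      (a - 1 / 4) ^ 2 * (-(64 / 9) * a ^ 2 + 32 / 3 * a - 4 / 3) := by ring
  have h2 : 0 ≤ -(64 / 9) * a ^ 2 + 32 / 3 * a - 4 / 3 := by nlinarith
  nlinarith [mul_nonneg (sq_nonneg (a - 1 / 4)) h2]

theorem num4_f2 {a : ℝ} (h0 : 0.04 ≤ a) (h1 : a ≤ 0.5) :
    64 / 9 * (a * (1 - a)) ^ 2 ≤ 1.156 * a - 0.0329 := by
  have h2 : 0 ≤ -(64 / 9) * a ^ 2 + (128 / 9 - 2 * (64 / 9) * (31 / 100)) * a +
      (-(64 / 9) + 2 * (31 / 100) * (128 / 9 - 2 * (64 / 9) * (31 / 100)) +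
        (64 / 9) * (31 / 100) ^ 2) := by nlinarith
  nlinarith [mul_nonneg (sq_nonneg (a - 31 / 100)) h2]

theorem num4_quad {s L : ℝ} (h7 : 0.7 ≤ L) (h1 : L ≤ 1) (hs : s ≤ 0.1631) :
    3.8075 * s < (3.0507 - 2.3985 * L) * L := by
  have h2 : 0 ≤ (1 - L) * (2.3985 * L - 0.6522) :=
    mul_nonneg (by linarith) (by linarith)
  have h3 : (3.0507 - 2.3985 * L) * L = 0.6522 + (1 - L) * (2.3985 * L - 0.6522) := by ring
  rw [h3]
  linarith

theorem num4_range {s L : ℝ} (hs : 0 < s) (hs1 : s ^ 2 ≤ 0.0266) (hL : 0 < L)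
    (hL1 : 5 / 9 - s ^ 2 ≤ L ^ 2) (hL2 : L ^ 2 ≤ 1 - s ^ 2) :
    0.7 ≤ L ∧ L ≤ 1 ∧ s ≤ 0.1631 := by
  refine ⟨?_, ?_, ?_⟩
  · by_contra hc
    push Not at hc
    nlinarith
  · by_contra hc
    push Not at hc
    nlinarith [sq_nonneg s]
  · by_contra hc
    push Not at hc
    nlinarith

/-- the final inequality -/
theorem num4_final {s L r : ℝ} (hs : 0 < s) (hs1 : s ^ 2 ≤ 0.0266) (hr1 : 1 < r) (hr : r ≤ 1.0179)
    (hL : 0 < L) (hL1 : 5 / 9 - s ^ 2 ≤ L ^ 2) (hL2 : L ^ 2 ≤ 1 - s ^ 2) :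
    Real.arcsin (2 * s / (Real.sqrt 3 * L)) + Real.arctan (2 * Real.sqrt 3 * s / L) <
      Real.pi * (1 - 3 * r * L / 4) := by
  obtain ⟨hL7, hL1', hs2⟩ := num4_range hs hs1 hL hL1 hL2
  clear hL1 hL2 hs1
  set q : ℝ := Real.sqrt 3 with hq
  have hq2 : q ^ 2 = 3 := Real.sq_sqrt (by norm_num)
  have hq0 : 0 < q := Real.sqrt_pos.2 (by norm_num)
  have hq3 : 1.732 ≤ q := by
    by_contra hc
    push Not at hc
    nlinarith
  have hq4 : q ≤ 1.7321 := by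
    by_contra hc
    push Not at hc
    nlinarith
  have hpi := Real.pi_gt_d4
  have hpi2 := Real.pi_lt_d4
  have hinv : 1 / q = q / 3 := by
    field_simp
    linarith
  have e1 : 2 * s / (q * L) = 2 * q / 3 * (s / L) := by
    have : 2 * s / (q * L) = 2 * (1 / q) * (s / L) := by field_simp
    rw [this, hinv]
    ring
  have e2 : 2 * q * s / L = 2 * q * (s / L) := by ring
  obtain ⟨v, hv⟩ : ∃ v : ℝ, v = s / L := ⟨_, rfl⟩
  rw [← hv] at e1 e2
  have hv0 : 0 < v := by rw [hv]; exact div_pos hs hL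
  have hvL : v * L = s := by rw [hv]; field_simp
  have hv1 : v ≤ 0.233 := by
    rw [hv, div_le_iff₀ hL]
    linarith
  have h1 : Real.arcsin (2 * q / 3 * v) ≤ Real.pi / 3 * (2 * q / 3 * v) := by
    refine arcsin_K1 (by positivity) ?_
    have := mul_le_mul hq4 hv1 hv0.le (by norm_num)
    linarith
  have h2 : Real.arctan (2 * q * v) ≤ Real.pi / 6 + 3 / 4 * (2 * q * v - 1 / q) :=
    arctan_T4 (by positivity)
  rw [e1, e2]
  rw [hinv] at h2
  have h3 : Real.pi / 3 * (2 * q / 3 * v) ≤ 1.2093 * v := by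
    have h31 : Real.pi * q ≤ 3.1416 * 1.7321 := mul_le_mul hpi2.le hq4 hq0.le (by norm_num)
    have h32 := mul_le_mul_of_nonneg_right h31 hv0.le
    have h33 : Real.pi / 3 * (2 * q / 3 * v) = 2 / 9 * (Real.pi * q * v) := by ring
    rw [h33]
    linarith
  have h4 : 3 / 4 * (2 * q * v - q / 3) ≤ 2.59815 * v - 0.433 := by
    have h41 := mul_le_mul_of_nonneg_right hq4 hv0.le
    linarith
  have h5 : Real.pi * (1 - 3 * r * L / 4) = Real.pi - 3 / 4 * (Real.pi * r * L) := by ring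
  have h6 : Real.pi * r ≤ 3.1416 * 1.0179 :=
    mul_le_mul hpi2.le hr (by linarith) (by norm_num)
  have h7 := mul_le_mul_of_nonneg_right h6 hL.le
  have h8 := num4_quad hL7 hL1' hs2
  have h9 : 3.8075 * v < 3.0507 - 2.3985 * L := by
    have : 3.8075 * v * L < (3.0507 - 2.3985 * L) * L := by rw [mul_assoc, hvL]; exact h8
    exact lt_of_mul_lt_mul_right this hL.le
  rw [h5]
  norm_num at *
  linarith

theorem numeric4 {ι : Type} [Fintype ι] [DecidableEq ι] {s τ : ι → ℝ} {r : ℝ}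
    (h : NumHyp s τ r) (hk : Fintype.card ι = 4) : NumConcl s r := by
  have hk' : (Fintype.card ι : ℝ) = 4 := by exact_mod_cast hk
  have hadm : ∀ i, Adm (5 / 4) (τ i) (s i ^ 2) := fun i => by
    refine Adm.mono ?_ (h.adm i)
    rw [hk']
    norm_num
  have hQ0 : ∀ i, 0 ≤ Q (τ i) := fun i => (Q_pos _).le
  have hQ2 : ∀ i, Q (τ i) ≤ 0.5 := fun i => by
    have := Q_le_half (h.tau_nonneg i)
    norm_num at this ⊢
    linarith
  have hx49 : ∀ i, s i ^ 2 ≤ 4 / 9 := fun i => (hadm i).le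
  have hcap := h.cap hk
  have hf : ∀ i, s i ^ 2 ≤ 64 / 9 * (Q (τ i) * (1 - Q (τ i))) ^ 2 := fun i => by
    have h1 := pow_le_pow_left₀ (h.s_pos i).le (hcap i) 2
    calc s i ^ 2 ≤ _ := h1
      _ = _ := by ring
  obtain ⟨m, -, hm⟩ := Finset.exists_min_image (Finset.univ : Finset ι) (fun i => Q (τ i))
    (by rw [← Finset.card_pos, Finset.card_univ, hk]; norm_num)
  have hm' : ∀ i, Q (τ m) ≤ Q (τ i) := fun i => hm i (Finset.mem_univ i)
  set B : Finset ι := Finset.univ.erase m with hB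
  have hBc : B.card = 3 := by
    rw [hB, Finset.card_erase_of_mem (Finset.mem_univ m), Finset.card_univ, hk]
  have hsx : s m ^ 2 + ∑ i ∈ B, s i ^ 2 = 1 := by
    rw [hB, Finset.add_sum_erase _ (fun i => s i ^ 2) (Finset.mem_univ m)]
    exact h.sum_sq
  have hsa : Q (τ m) + ∑ i ∈ B, Q (τ i) = 1 := by
    rw [hB, Finset.add_sum_erase _ (fun i => Q (τ i)) (Finset.mem_univ m)]
    exact h.sum_Q
  have ham : 4 * Q (τ m) ≤ 1 := by
    have h1 : ∑ _i ∈ B, Q (τ m) ≤ ∑ i ∈ B, Q (τ i) := Finset.sum_le_sum fun i _ => hm' i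
    rw [Finset.sum_const, hBc, nsmul_eq_mul] at h1
    push_cast at h1
    linarith
  have hlin : ∀ κ b : ℝ, (∀ i ∈ B, s i ^ 2 ≤ κ * Q (τ i) - b) →
      ∑ i ∈ B, s i ^ 2 ≤ κ * (1 - Q (τ m)) - 3 * b := by
    intro κ b hb
    refine (Finset.sum_le_sum hb).trans (le_of_eq ?_)
    rw [Finset.sum_sub_distrib, ← Finset.mul_sum, Finset.sum_const, hBc, nsmul_eq_mul]
    have : ∑ i ∈ B, Q (τ i) = 1 - Q (τ m) := by linarith
    rw [this]
    push_cast
    ring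
  have hsmall : Q (τ m) ≤ 0.075 := by
    by_contra hcon
    push Not at hcon
    rcases le_total (Q (τ m)) 0.2 with h2 | h2
    · have h3 := fact20 (hadm m) hcon.le h2
      have h4 := hlin 1.156 0.0329 (fun i _ => (hf i).trans
        (num4_f2 (by have := hm' i; norm_num at hcon ⊢; linarith) (hQ2 i)))
      linarith
    · have h3 := fact21 (hadm m) h2 (by norm_num; linarith)
      have h4 := hlin (4 / 3) (1 / 12) (fun i _ => (hf i).trans
        (num4_f1 (h2.trans (hm' i)) (hQ2 i)))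
      linarith
  obtain ⟨hxm, hym⟩ := fact22 (hadm m) hsmall
  have hr : r ≤ 1.0179 := by
    have := h.r_le m
    rw [hk'] at this
    norm_num at this ⊢
    linarith
  -- sums over parts of `B`
  have hbig : ∀ b ∈ B, 4 / 45 ≤ s b ^ 2 := by
    intro b hb
    by_contra hcon
    push Not at hcon
    set C : Finset ι := B.erase b with hC
    have hCc : C.card = 2 := by rw [hC, Finset.card_erase_of_mem hb, hBc]
    have hCx : s b ^ 2 + ∑ i ∈ C, s i ^ 2 = ∑ i ∈ B, s i ^ 2 :=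
      Finset.add_sum_erase _ (fun i => s i ^ 2) hb
    have hCa : Q (τ b) + ∑ i ∈ C, Q (τ i) = ∑ i ∈ B, Q (τ i) :=
      Finset.add_sum_erase _ (fun i => Q (τ i)) hb
    have h44 : ∀ i ∈ C, 0.44 ≤ s i ^ 2 := by
      intro i hi
      have h1 : s i ^ 2 + ∑ j ∈ C.erase i, s j ^ 2 = ∑ i ∈ C, s i ^ 2 :=
        Finset.add_sum_erase _ (fun i => s i ^ 2) hi
      have h2 : ∑ j ∈ C.erase i, s j ^ 2 ≤ 4 / 9 := by
        have h3 : ∑ j ∈ C.erase i, s j ^ 2 ≤ ∑ _j ∈ C.erase i, (4 / 9 : ℝ) :=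
          Finset.sum_le_sum fun j _ => hx49 j
        rw [Finset.sum_const, Finset.card_erase_of_mem hi, hCc] at h3
        simpa using h3
      norm_num at hxm ⊢
      linarith
    have h46 : ∀ i ∈ C, 0.46 ≤ Q (τ i) := by
      intro i hi
      by_contra hc
      push Not at hc
      have h1 : Q (τ i) * (1 - Q (τ i)) ≤ 0.2484 := by nlinarith [hQ0 i]
      have h2 : 0 ≤ Q (τ i) * (1 - Q (τ i)) :=
        mul_nonneg (hQ0 i) (by have := hQ2 i; norm_num at this; linarith)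
      have h3 := h44 i hi
      have h4 := hf i
      nlinarith
    have h5 : ∑ _i ∈ C, (0.46 : ℝ) ≤ ∑ i ∈ C, Q (τ i) := Finset.sum_le_sum h46
    rw [Finset.sum_const, hCc] at h5
    have h6 : ∑ i ∈ C, s i ^ 2 ≤ 8 / 9 := by
      have h3 : ∑ j ∈ C, s j ^ 2 ≤ ∑ _j ∈ C, (4 / 9 : ℝ) := Finset.sum_le_sum fun j _ => hx49 j
      rw [Finset.sum_const, hCc] at h3
      norm_num at h3 ⊢
      linarith
    have h7 : Q (τ m) + Q (τ b) ≤ 0.08 := by
      norm_num at h5 ⊢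
      linarith
    have h8 : ∀ i, s i ^ 2 ≤ 64 / 9 * Q (τ i) ^ 2 := fun i => by
      refine (hf i).trans ?_
      have h9 : (Q (τ i) * (1 - Q (τ i))) ^ 2 ≤ Q (τ i) ^ 2 := by
        refine pow_le_pow_left₀ (mul_nonneg (hQ0 i) (by have := hQ2 i; norm_num at this; linarith))
          ?_ 2
        nlinarith [hQ0 i]
      linarith
    have h10 := h8 m
    have h11 := h8 b
    nlinarith [hQ0 m, hQ0 b, mul_nonneg (hQ0 m) (hQ0 b)]
  have hBu : Finset.univ \ B = {m} := by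
    ext i
    simp [hB]
  refine ⟨B, hBc, ?_, ?_⟩
  · intro i _ j hj
    have h1 := hx49 i
    have h2 := hbig j hj
    linarith
  · intro j hj l hl hjl L hL hL1 hL2
    rw [hBu, Finset.sum_singleton, Finset.sum_singleton, Real.sqrt_sq (h.s_pos m).le, hk']
    have hl' : l ∈ B.erase j := Finset.mem_erase.2 ⟨hjl.symm, hl⟩
    have h1 : s j ^ 2 + ∑ i ∈ B.erase j, s i ^ 2 = ∑ i ∈ B, s i ^ 2 :=
      Finset.add_sum_erase _ (fun i => s i ^ 2) hj
    have h2 : s l ^ 2 + ∑ i ∈ (B.erase j).erase l, s i ^ 2 = ∑ i ∈ B.erase j, s i ^ 2 :=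
      Finset.add_sum_erase _ (fun i => s i ^ 2) hl'
    have h3 : ∑ i ∈ (B.erase j).erase l, s i ^ 2 ≤ 4 / 9 := by
      have h4 : ∑ i ∈ (B.erase j).erase l, s i ^ 2 ≤ ∑ _i ∈ (B.erase j).erase l, (4 / 9 : ℝ) :=
        Finset.sum_le_sum fun j _ => hx49 j
      rw [Finset.sum_const, Finset.card_erase_of_mem hl', Finset.card_erase_of_mem hj, hBc] at h4
      simpa using h4
    have hLlow : 5 / 9 - s m ^ 2 ≤ L ^ 2 := by linarith
    have hLup : L ^ 2 ≤ 1 - s m ^ 2 := by linarith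
    refine ⟨?_, ?_⟩
    · norm_num at hxm
      linarith
    · exact num4_final (h.s_pos m) hxm h.one_lt hr hL hLlow hLup

end Vale.Agent.P226
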