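import Vale.Agent.Lib.P226.Basics

/-!
P226, numerical part: definitions (see the headers of the other `Num*` files).
-/

open MeasureTheory ProbabilityTheory Filter
open scoped RealInnerProductSpace Topology

namespace Vale.Agent.P226

/-- `y(τ) = φ(φ - τ Q)/c0²` -/
noncomputable def yy (τ : ℝ) : ℝ := phi τ * (phi τ - τ * Q τ) / c0 ^ 2

/-- what one knows about a cell of measure `Q τ` and squared norm `x` -/
def Adm (c τ x : ℝ) : Prop :=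
  0 ≤ τ ∧ 0 < x ∧ x ≤ 2 * yy τ - c * yy τ ^ 2 ∧ c0 ^ 2 * x ≤ phi τ ^ 2

/-- the hypotheses of `numeric` in processed form; `a i = Q (τ i)`, `x i = s i ^ 2` -/
structure NumHyp {ι : Type} [Fintype ι] (s τ : ι → ℝ) (r : ℝ) : Prop where
  card : 4 ≤ Fintype.card ι
  one_lt : 1 < r
  tau_nonneg : ∀ i, 0 ≤ τ i
  s_pos : ∀ i, 0 < s i
  sum_sq : ∑ i, s i ^ 2 = 1
  sum_Q : ∑ i, Q (τ i) = 1
  adm : ∀ i, Adm (Fintype.card ι / (Fintype.card ι - 1)) (τ i) (s i ^ 2)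
  r_le : ∀ i, r ≤ 1 + (Fintype.card ι / (Fintype.card ι - 1) : ℝ) * yy (τ i)
  cap : Fintype.card ι = 4 → ∀ i, s i ≤ 8 / 3 * (Q (τ i) * (1 - Q (τ i)))

/-- the conclusion of `numeric` -/
def NumConcl {ι : Type} [Fintype ι] [DecidableEq ι] (s : ι → ℝ) (r : ℝ) : Prop :=
  ∃ B : Finset ι, B.card = 3 ∧ (∀ i ∈ B, ∀ j ∈ B, s i ^ 2 ≤ 5 * s j ^ 2) ∧
      ∀ j ∈ B, ∀ l ∈ B, j ≠ l → ∀ L : ℝ, 0 < L → s j ^ 2 + s l ^ 2 ≤ L ^ 2 →
        L ^ 2 ≤ ∑ i ∈ B, s i ^ 2 →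
        4 * ∑ i ∈ Finset.univ \ B, s i ^ 2 ≤ 3 * L ^ 2 ∧
        Real.arcsin (2 * Real.sqrt (∑ i ∈ Finset.univ \ B, s i ^ 2) / (Real.sqrt 3 * L)) +
          ∑ i ∈ Finset.univ \ B, Real.arctan (2 * Real.sqrt 3 * s i / L) <
        Real.pi * (1 - 3 * r * L / Fintype.card ι)

end Vale.Agent.P226
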