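import Vale.Agent.Lib.P226.NumTable

/-!
P226, one-variable numerical facts 1-22.  For `τ < 2` they are read off the certified recursion
(`NumLoop.lean`, `NumSound.lean`, `NumTable.lean`), for `τ ≥ 2` they follow from `yy_le_sq` and
`Q 2 ≤ 0.027`.  The general lemmas (`Adm.mono`, `yy_nonneg`, `sampford`, `yy_anti`, `Adm.le`,
`Q_le_half`, `yy_le_sq`) are in `NumGen.lean`.
-/

open MeasureTheory ProbabilityTheory Filter
open scoped RealInnerProductSpace Topology

namespace Vale.Agent.P226

/-- read off a fact from the certified table -/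
theorem nf_use (c xlo xhi qlo qhi k f b D bp : ℕ)
    (hr : (⟨c, xlo, xhi, qlo, qhi, k, f, b, D, bp⟩ : NRec) ∈ nfacts) {τ x : ℝ} (h0 : 0 ≤ τ)
    (h2 : τ < 2) (hra : RA c τ x) (h3 : (xlo : ℝ) ≤ 1000000000000000000 * x)
    (h4 : 1000000000000000000 * x ≤ xhi) (h5 : (qlo : ℝ) ≤ 1000000000000000000 * Q τ)
    (h6 : 1000000000000000000 * Q τ ≤ qhi) :
    (k * x + f * Real.sqrt x) * 1000000000000000000 + b ≤ D * Q τ * 1000000000000000000 + bp := by
  have hj : ⌊1000 * τ⌋₊ < 2000 := by
    rw [Nat.floor_lt (by positivity)]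
    push_cast
    linarith
  have hs := sc_pos
  have h := ngood_all hj _ hr τ x ?_ ?_ hra ?_ ?_ ?_ ?_
  · simp only at h
    have h7 := mul_le_mul_of_nonneg_right h hs.le
    have h8 : (k * x + f * Real.sqrt x + (b : ℝ) / sc) * sc =
        (k * x + f * Real.sqrt x) * sc + b := by
      field_simp
    have h9 : (D * Q τ + (bp : ℝ) / sc) * sc = D * Q τ * sc + bp := by
      field_simp
    rw [h8, h9] at h7
    exact h7
  · have := Nat.floor_le (by positivity : 0 ≤ 1000 * τ)
    rw [div_le_iff₀ (by norm_num)]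
    linarith
  · have := (Nat.lt_floor_add_one (1000 * τ)).le
    rw [le_div_iff₀ (by norm_num)]
    push_cast
    linarith
  · rw [div_le_iff₀ hs, mul_comm]
    exact h3
  · rw [le_div_iff₀ hs, mul_comm]
    exact h4
  · rw [div_le_iff₀ hs, mul_comm]
    exact h5
  · rw [le_div_iff₀ hs, mul_comm]
    exact h6

theorem nf_phi_two : phi 2 ≤ 0.053991 := by
  have h := nP_spec (i := 2000) ntab_2000.1.1
  have h1 : ((2000 : ℕ) : ℝ) / 1000 = 2 := by norm_num
  rw [h1] at h
  have h2 : nP 135335283237064963 = 53990966513368483 := by decide +kernel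
  rw [h2] at h
  refine h.trans ?_
  unfold sc
  norm_num

/-- `Q τ ≤ 0.027` for `τ ≥ 2` -/
theorem nf_Q_two {τ : ℝ} (h : 2 ≤ τ) : Q τ ≤ 0.027 := by
  have h1 := ng_mills τ
  have h2 := nf_phi_anti (by norm_num) h
  have h3 := nf_phi_two
  have h4 := Q_pos τ
  nlinarith

theorem nf_far {c τ x : ℝ} (hc : 0 ≤ c) (h : Adm c τ x) : x ≤ 5.5852 * Q τ ^ 2 := by
  obtain ⟨h1, h2, h3, h4⟩ := h
  have h5 := yy_le_sq h1
  have h6 := mul_nonneg hc (sq_nonneg (yy τ))
  linarith

theorem nf_far' {c τ x : ℝ} (hc : 0 ≤ c) (h : Adm c τ x) (h2 : 2 ≤ τ) :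
    x ≤ 0.151 * Q τ ∧ x ≤ 0.0041 ∧ Q τ ≤ 0.027 := by
  have h3 := nf_far hc h
  have h4 := nf_Q_two h2
  have h5 := Q_pos τ
  refine ⟨?_, ?_, h4⟩ <;> nlinarith

/-! facts valid for every `c ≥ 1` -/

theorem fact1 {τ x : ℝ} (h : Adm 1 τ x) (hx : x ≤ 0.2) : 1.1 * x ≤ Q τ := by
  have hQ := Q_le_half h.1
  have hQ0 := Q_pos τ
  have hx0 := h.2.1
  have hx1 := h.le
  rcases lt_or_ge τ 2 with h2 | h2
  · have h3 := nf_use 0 0 200000000000000000 0 1000000000000000000
      110000 0 0 100000 0
      (by simp [nfacts]) h.1 h2 h (by norm_num; linarith) (by norm_num; linarith)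
      (by norm_num; linarith) (by norm_num; linarith)
    norm_num at h3 ⊢
    linarith
  · obtain ⟨h3, h4, h5⟩ := nf_far' (by norm_num) h h2
    norm_num at *
    linarith

theorem fact2 {τ x : ℝ} (h : Adm 1 τ x) : 1.1 * x - 0.0734 ≤ Q τ := by
  have hQ := Q_le_half h.1
  have hQ0 := Q_pos τ
  have hx0 := h.2.1
  have hx1 := h.le
  rcases lt_or_ge τ 2 with h2 | h2
  · have h3 := nf_use 0 0 1000000000000000000 0 1000000000000000000
      110000 0 0 100000 7340000000000000000000
      (by simp [nfacts]) h.1 h2 h (by norm_num; linarith) (by norm_num; linarith)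
      (by norm_num; linarith) (by norm_num; linarith)
    norm_num at h3 ⊢
    linarith
  · obtain ⟨h3, h4, h5⟩ := nf_far' (by norm_num) h h2
    norm_num at *
    linarith

theorem fact3 {τ x : ℝ} (h : Adm 1 τ x) (hx : x ≤ 0.13) : 1.33 * x ≤ Q τ := by
  have hQ := Q_le_half h.1
  have hQ0 := Q_pos τ
  have hx0 := h.2.1
  have hx1 := h.le
  rcases lt_or_ge τ 2 with h2 | h2
  · have h3 := nf_use 0 0 130000000000000000 0 1000000000000000000
      133000 0 0 100000 0
      (by simp [nfacts]) h.1 h2 h (by norm_num; linarith) (by norm_num; linarith)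
      (by norm_num; linarith) (by norm_num; linarith)
    norm_num at h3 ⊢
    linarith
  · obtain ⟨h3, h4, h5⟩ := nf_far' (by norm_num) h h2
    norm_num at *
    linarith

theorem fact4 {τ x : ℝ} (h : Adm 1 τ x) : 1.33 * x - 0.1604 ≤ Q τ := by
  have hQ := Q_le_half h.1
  have hQ0 := Q_pos τ
  have hx0 := h.2.1
  have hx1 := h.le
  rcases lt_or_ge τ 2 with h2 | h2
  · have h3 := nf_use 0 0 1000000000000000000 0 1000000000000000000
      133000 0 0 100000 16040000000000000000000
      (by simp [nfacts]) h.1 h2 h (by norm_num; linarith) (by norm_num; linarith)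
      (by norm_num; linarith) (by norm_num; linarith)
    norm_num at h3 ⊢
    linarith
  · obtain ⟨h3, h4, h5⟩ := nf_far' (by norm_num) h h2
    norm_num at *
    linarith

theorem fact5 {τ s : ℝ} (h : Adm 1 τ (s ^ 2)) (h0 : 0 < s) (h1 : s ≤ 0.125) :
    0.6 * s ^ 2 + 0.381 * s ≤ Q τ := by
  have hQ := Q_le_half h.1
  have hQ0 := Q_pos τ
  have hx0 := h.2.1
  have hx1 := h.le
  have hs0 : 0 < s := h0
  have hsq : Real.sqrt (s ^ 2) = s := Real.sqrt_sq hs0.le
  rcases lt_or_ge τ 2 with h2 | h2
  · have h3 := nf_use 0 0 15625000000000000 0 1000000000000000000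
      60000 38100 0 100000 0
      (by simp [nfacts]) h.1 h2 h (by norm_num at h0 ⊢; nlinarith) (by norm_num at h1 ⊢; nlinarith)
      (by norm_num; linarith) (by norm_num; linarith)
    rw [hsq] at h3
    norm_num at h3 ⊢
    linarith
  · obtain ⟨h3, h4, h5⟩ := nf_far' (by norm_num) h h2
    have h6 := nf_far (by norm_num) h
    have h7 : s ≤ 2.3634 * Q τ := by
      apply le_of_sq_le_sq _ (by positivity)
      refine h6.trans ?_
      nlinarith [sq_nonneg (Q τ)]
    norm_num at *
    linarith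

theorem fact6 {τ s : ℝ} (h : Adm 1 τ (s ^ 2)) (h0 : 0.125 ≤ s) (h1 : s ≤ 0.2) :
    0.6 * s ^ 2 + 0.283 * s + 0.0122 ≤ Q τ := by
  have hQ := Q_le_half h.1
  have hQ0 := Q_pos τ
  have hx0 := h.2.1
  have hx1 := h.le
  have hs0 : 0 < s := by norm_num at h0; linarith
  have hsq : Real.sqrt (s ^ 2) = s := Real.sqrt_sq hs0.le
  rcases lt_or_ge τ 2 with h2 | h2
  · have h3 := nf_use 0 15625000000000000 40000000000000000 0 1000000000000000000
      60000 28300 1220000000000000000000 100000 0
      (by simp [nfacts]) h.1 h2 h (by norm_num at h0 ⊢; nlinarith) (by norm_num at h1 ⊢; nlinarith)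
      (by norm_num; linarith) (by norm_num; linarith)
    rw [hsq] at h3
    norm_num at h3 ⊢
    linarith
  · obtain ⟨h3, h4, h5⟩ := nf_far' (by norm_num) h h2
    exfalso
    norm_num at *
    nlinarith

theorem fact7 {τ s : ℝ} (h : Adm 1 τ (s ^ 2)) (h0 : 0.2 ≤ s) (h1 : s ≤ 0.33) :
    0.6 * s ^ 2 + 0.182 * s + 0.0325 ≤ Q τ := by
  have hQ := Q_le_half h.1
  have hQ0 := Q_pos τ
  have hx0 := h.2.1
  have hx1 := h.le
  have hs0 : 0 < s := by norm_num at h0; linarith
  have hsq : Real.sqrt (s ^ 2) = s := Real.sqrt_sq hs0.le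
  rcases lt_or_ge τ 2 with h2 | h2
  · have h3 := nf_use 0 40000000000000000 108900000000000000 0 1000000000000000000
      60000 18200 3250000000000000000000 100000 0
      (by simp [nfacts]) h.1 h2 h (by norm_num at h0 ⊢; nlinarith) (by norm_num at h1 ⊢; nlinarith)
      (by norm_num; linarith) (by norm_num; linarith)
    rw [hsq] at h3
    norm_num at h3 ⊢
    linarith
  · obtain ⟨h3, h4, h5⟩ := nf_far' (by norm_num) h h2
    exfalso
    norm_num at *
    nlinarith

theorem fact8 {τ s : ℝ} (h : Adm 1 τ (s ^ 2)) (h0 : 0.2 ≤ s) (h1 : s ≤ 0.3) :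
    0.6 * s ^ 2 + 0.196 * s + 0.0297 ≤ Q τ := by
  have hQ := Q_le_half h.1
  have hQ0 := Q_pos τ
  have hx0 := h.2.1
  have hx1 := h.le
  have hs0 : 0 < s := by norm_num at h0; linarith
  have hsq : Real.sqrt (s ^ 2) = s := Real.sqrt_sq hs0.le
  rcases lt_or_ge τ 2 with h2 | h2
  · have h3 := nf_use 0 40000000000000000 90000000000000000 0 1000000000000000000
      60000 19600 2970000000000000000000 100000 0
      (by simp [nfacts]) h.1 h2 h (by norm_num at h0 ⊢; nlinarith) (by norm_num at h1 ⊢; nlinarith)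
      (by norm_num; linarith) (by norm_num; linarith)
    rw [hsq] at h3
    norm_num at h3 ⊢
    linarith
  · obtain ⟨h3, h4, h5⟩ := nf_far' (by norm_num) h h2
    exfalso
    norm_num at *
    nlinarith

theorem fact9 {τ s : ℝ} (h : Adm 1 τ (s ^ 2)) (h0 : 0.3 ≤ s) (h1 : s ≤ 0.4) :
    0.6 * s ^ 2 + 0.104 * s + 0.0573 ≤ Q τ := by
  have hQ := Q_le_half h.1
  have hQ0 := Q_pos τ
  have hx0 := h.2.1
  have hx1 := h.le
  have hs0 : 0 < s := by norm_num at h0; linarith
  have hsq : Real.sqrt (s ^ 2) = s := Real.sqrt_sq hs0.le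
  rcases lt_or_ge τ 2 with h2 | h2
  · have h3 := nf_use 0 90000000000000000 160000000000000000 0 1000000000000000000
      60000 10400 5730000000000000000000 100000 0
      (by simp [nfacts]) h.1 h2 h (by norm_num at h0 ⊢; nlinarith) (by norm_num at h1 ⊢; nlinarith)
      (by norm_num; linarith) (by norm_num; linarith)
    rw [hsq] at h3
    norm_num at h3 ⊢
    linarith
  · obtain ⟨h3, h4, h5⟩ := nf_far' (by norm_num) h h2
    exfalso
    norm_num at *
    nlinarith

theorem fact10 {τ s : ℝ} (h : Adm 1 τ (s ^ 2)) (h0 : 0.4 ≤ s) (h1 : s ≤ 0.5) :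
    0.6 * s ^ 2 + 0.022 * s + 0.0902 ≤ Q τ := by
  have hQ := Q_le_half h.1
  have hQ0 := Q_pos τ
  have hx0 := h.2.1
  have hx1 := h.le
  have hs0 : 0 < s := by norm_num at h0; linarith
  have hsq : Real.sqrt (s ^ 2) = s := Real.sqrt_sq hs0.le
  rcases lt_or_ge τ 2 with h2 | h2
  · have h3 := nf_use 0 160000000000000000 250000000000000000 0 1000000000000000000
      60000 2200 9020000000000000000000 100000 0
      (by simp [nfacts]) h.1 h2 h (by norm_num at h0 ⊢; nlinarith) (by norm_num at h1 ⊢; nlinarith)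
      (by norm_num; linarith) (by norm_num; linarith)
    rw [hsq] at h3
    norm_num at h3 ⊢
    linarith
  · obtain ⟨h3, h4, h5⟩ := nf_far' (by norm_num) h h2
    exfalso
    norm_num at *
    nlinarith

theorem fact11a {τ x : ℝ} (h : Adm 1 τ x) (hx : 0.16 ≤ x) : 0.6 * x + 0.098 ≤ Q τ := by
  have hQ := Q_le_half h.1
  have hQ0 := Q_pos τ
  have hx0 := h.2.1
  have hx1 := h.le
  rcases lt_or_ge τ 2 with h2 | h2
  · have h3 := nf_use 0 160000000000000000 1000000000000000000 0 1000000000000000000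
      60000 0 9800000000000000000000 100000 0
      (by simp [nfacts]) h.1 h2 h (by norm_num; linarith) (by norm_num; linarith)
      (by norm_num; linarith) (by norm_num; linarith)
    norm_num at h3 ⊢
    linarith
  · obtain ⟨h3, h4, h5⟩ := nf_far' (by norm_num) h h2
    norm_num at *
    linarith

theorem fact11b {τ x : ℝ} (h : Adm 1 τ x) (hx : 0.13 ≤ x) : 0.6 * x + 0.0959 ≤ Q τ := by
  have hQ := Q_le_half h.1
  have hQ0 := Q_pos τ
  have hx0 := h.2.1
  have hx1 := h.le
  rcases lt_or_ge τ 2 with h2 | h2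
  · have h3 := nf_use 0 130000000000000000 1000000000000000000 0 1000000000000000000
      60000 0 9590000000000000000000 100000 0
      (by simp [nfacts]) h.1 h2 h (by norm_num; linarith) (by norm_num; linarith)
      (by norm_num; linarith) (by norm_num; linarith)
    norm_num at h3 ⊢
    linarith
  · obtain ⟨h3, h4, h5⟩ := nf_far' (by norm_num) h h2
    norm_num at *
    linarith

theorem fact12 {τ x : ℝ} (h : Adm 1 τ x) (hx : 0.22 ≤ x) : 0.572 * x + 0.1075 ≤ Q τ := by
  have hQ := Q_le_half h.1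
  have hQ0 := Q_pos τ
  have hx0 := h.2.1
  have hx1 := h.le
  rcases lt_or_ge τ 2 with h2 | h2
  · have h3 := nf_use 0 220000000000000000 1000000000000000000 0 1000000000000000000
      57200 0 10750000000000000000000 100000 0
      (by simp [nfacts]) h.1 h2 h (by norm_num; linarith) (by norm_num; linarith)
      (by norm_num; linarith) (by norm_num; linarith)
    norm_num at h3 ⊢
    linarith
  · obtain ⟨h3, h4, h5⟩ := nf_far' (by norm_num) h h2
    norm_num at *
    linarith

/-! facts for `c ≥ 7/6` -/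

theorem fact13a {τ x : ℝ} (h : Adm (7 / 6) τ x) (hx : 0.2 ≤ x) : 0.6 * x + 0.1011 ≤ Q τ := by
  have hQ := Q_le_half h.1
  have hQ0 := Q_pos τ
  have hx0 := h.2.1
  have hx1 := h.le
  rcases lt_or_ge τ 2 with h2 | h2
  · have h3 := nf_use 1 200000000000000000 1000000000000000000 0 1000000000000000000
      60000 0 10110000000000000000000 100000 0
      (by simp [nfacts]) h.1 h2 h (by norm_num; linarith) (by norm_num; linarith)
      (by norm_num; linarith) (by norm_num; linarith)
    norm_num at h3 ⊢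
    linarith
  · obtain ⟨h3, h4, h5⟩ := nf_far' (by norm_num) h h2
    norm_num at *
    linarith

theorem fact13b {τ x : ℝ} (h : Adm (7 / 6) τ x) (hx : 0.13 ≤ x) : 0.6 * x + 0.0965 ≤ Q τ := by
  have hQ := Q_le_half h.1
  have hQ0 := Q_pos τ
  have hx0 := h.2.1
  have hx1 := h.le
  rcases lt_or_ge τ 2 with h2 | h2
  · have h3 := nf_use 1 130000000000000000 1000000000000000000 0 1000000000000000000
      60000 0 9650000000000000000000 100000 0
      (by simp [nfacts]) h.1 h2 h (by norm_num; linarith) (by norm_num; linarith)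
      (by norm_num; linarith) (by norm_num; linarith)
    norm_num at h3 ⊢
    linarith
  · obtain ⟨h3, h4, h5⟩ := nf_far' (by norm_num) h h2
    norm_num at *
    linarith

theorem fact13c {τ x : ℝ} (h : Adm (7 / 6) τ x) (hx : 0.16 ≤ x) : 0.608 * x + 0.0983 ≤ Q τ := by
  have hQ := Q_le_half h.1
  have hQ0 := Q_pos τ
  have hx0 := h.2.1
  have hx1 := h.le
  rcases lt_or_ge τ 2 with h2 | h2
  · have h3 := nf_use 1 160000000000000000 1000000000000000000 0 1000000000000000000
      60800 0 9830000000000000000000 100000 0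
      (by simp [nfacts]) h.1 h2 h (by norm_num; linarith) (by norm_num; linarith)
      (by norm_num; linarith) (by norm_num; linarith)
    norm_num at h3 ⊢
    linarith
  · obtain ⟨h3, h4, h5⟩ := nf_far' (by norm_num) h h2
    norm_num at *
    linarith

/-! facts for `c ≥ 5/4` -/

theorem fact14 {τ x : ℝ} (h : Adm (5 / 4) τ x) (hx : x ≤ 0.105) : 1.48 * x ≤ Q τ := by
  have hQ := Q_le_half h.1
  have hQ0 := Q_pos τ
  have hx0 := h.2.1
  have hx1 := h.le
  rcases lt_or_ge τ 2 with h2 | h2
  · have h3 := nf_use 2 0 105000000000000000 0 1000000000000000000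
      148000 0 0 100000 0
      (by simp [nfacts]) h.1 h2 h (by norm_num; linarith) (by norm_num; linarith)
      (by norm_num; linarith) (by norm_num; linarith)
    norm_num at h3 ⊢
    linarith
  · obtain ⟨h3, h4, h5⟩ := nf_far' (by norm_num) h h2
    norm_num at *
    linarith

theorem fact15 {τ x : ℝ} (h : Adm (5 / 4) τ x) (hx : 0.13 ≤ x) : 0.7 * x + 0.06775 ≤ Q τ := by
  have hQ := Q_le_half h.1
  have hQ0 := Q_pos τ
  have hx0 := h.2.1
  have hx1 := h.le
  rcases lt_or_ge τ 2 with h2 | h2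
  · have h3 := nf_use 2 130000000000000000 1000000000000000000 0 1000000000000000000
      70000 0 6775000000000000000000 100000 0
      (by simp [nfacts]) h.1 h2 h (by norm_num; linarith) (by norm_num; linarith)
      (by norm_num; linarith) (by norm_num; linarith)
    norm_num at h3 ⊢
    linarith
  · obtain ⟨h3, h4, h5⟩ := nf_far' (by norm_num) h h2
    norm_num at *
    linarith

theorem fact16 {τ x : ℝ} (h : Adm (5 / 4) τ x) (hx : 0.13 ≤ x) (hx' : x ≤ 0.2) :
    0.7 * x + 0.0828 ≤ Q τ := by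
  have hQ := Q_le_half h.1
  have hQ0 := Q_pos τ
  have hx0 := h.2.1
  have hx1 := h.le
  rcases lt_or_ge τ 2 with h2 | h2
  · have h3 := nf_use 2 130000000000000000 200000000000000000 0 1000000000000000000
      70000 0 8280000000000000000000 100000 0
      (by simp [nfacts]) h.1 h2 h (by norm_num; linarith) (by norm_num; linarith)
      (by norm_num; linarith) (by norm_num; linarith)
    norm_num at h3 ⊢
    linarith
  · obtain ⟨h3, h4, h5⟩ := nf_far' (by norm_num) h h2
    norm_num at *
    linarith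

theorem fact17 {τ x : ℝ} (h : Adm (5 / 4) τ x) (hx : 0.105 ≤ x) (hx' : x ≤ 0.2) :
    0.7 * x + 0.0819 ≤ Q τ := by
  have hQ := Q_le_half h.1
  have hQ0 := Q_pos τ
  have hx0 := h.2.1
  have hx1 := h.le
  rcases lt_or_ge τ 2 with h2 | h2
  · have h3 := nf_use 2 105000000000000000 200000000000000000 0 1000000000000000000
      70000 0 8190000000000000000000 100000 0
      (by simp [nfacts]) h.1 h2 h (by norm_num; linarith) (by norm_num; linarith)
      (by norm_num; linarith) (by norm_num; linarith)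
    norm_num at h3 ⊢
    linarith
  · obtain ⟨h3, h4, h5⟩ := nf_far' (by norm_num) h h2
    norm_num at *
    linarith

theorem fact18 {τ x : ℝ} (h : Adm (5 / 4) τ x) (hx : 0.2 ≤ x) : 0.6 * x + 0.1028 ≤ Q τ := by
  have hQ := Q_le_half h.1
  have hQ0 := Q_pos τ
  have hx0 := h.2.1
  have hx1 := h.le
  rcases lt_or_ge τ 2 with h2 | h2
  · have h3 := nf_use 2 200000000000000000 1000000000000000000 0 1000000000000000000
      60000 0 10280000000000000000000 100000 0
      (by simp [nfacts]) h.1 h2 h (by norm_num; linarith) (by norm_num; linarith)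
      (by norm_num; linarith) (by norm_num; linarith)
    norm_num at h3 ⊢
    linarith
  · obtain ⟨h3, h4, h5⟩ := nf_far' (by norm_num) h h2
    norm_num at *
    linarith

theorem fact19 {τ x : ℝ} (h : Adm (5 / 4) τ x) (hx : 0.105 ≤ x) (hx' : x ≤ 0.25) :
    0.6 * x + 0.0924 ≤ Q τ := by
  have hQ := Q_le_half h.1
  have hQ0 := Q_pos τ
  have hx0 := h.2.1
  have hx1 := h.le
  rcases lt_or_ge τ 2 with h2 | h2
  · have h3 := nf_use 2 105000000000000000 250000000000000000 0 1000000000000000000
      60000 0 9240000000000000000000 100000 0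
      (by simp [nfacts]) h.1 h2 h (by norm_num; linarith) (by norm_num; linarith)
      (by norm_num; linarith) (by norm_num; linarith)
    norm_num at h3 ⊢
    linarith
  · obtain ⟨h3, h4, h5⟩ := nf_far' (by norm_num) h h2
    norm_num at *
    linarith

theorem fact20 {τ x : ℝ} (h : Adm (5 / 4) τ x) (h1 : 0.075 ≤ Q τ) (h2' : Q τ ≤ 0.2) :
    x ≤ 1.156 * Q τ - 0.06 := by
  have hQ := Q_le_half h.1
  have hQ0 := Q_pos τ
  have hx0 := h.2.1
  have hx1 := h.le
  rcases lt_or_ge τ 2 with h2 | h2
  · have h3 := nf_use 2 0 1000000000000000000 75000000000000000 200000000000000000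
      100000 0 6000000000000000000000 115600 0
      (by simp [nfacts]) h.1 h2 h (by norm_num; linarith) (by norm_num; linarith)
      (by norm_num; linarith) (by norm_num; linarith)
    norm_num at h3 ⊢
    linarith
  · obtain ⟨h3, h4, h5⟩ := nf_far' (by norm_num) h h2
    norm_num at *
    linarith

theorem fact21 {τ x : ℝ} (h : Adm (5 / 4) τ x) (h1 : 0.2 ≤ Q τ) (h2' : Q τ ≤ 0.25) :
    x ≤ 4 / 3 * Q τ - 0.088 := by
  have hQ := Q_le_half h.1
  have hQ0 := Q_pos τ
  have hx0 := h.2.1
  have hx1 := h.le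
  rcases lt_or_ge τ 2 with h2 | h2
  · have h3 := nf_use 2 0 1000000000000000000 200000000000000000 250000000000000000
      300000 0 26400000000000000000000 400000 0
      (by simp [nfacts]) h.1 h2 h (by norm_num; linarith) (by norm_num; linarith)
      (by norm_num; linarith) (by norm_num; linarith)
    norm_num at h3 ⊢
    linarith
  · obtain ⟨h3, h4, h5⟩ := nf_far' (by norm_num) h h2
    norm_num at *
    linarith

theorem fact22 {τ x : ℝ} (h : Adm (5 / 4) τ x) (h1 : Q τ ≤ 0.075) :
    x ≤ 0.0266 ∧ yy τ ≤ 0.0134 := by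
  have hQ := Q_le_half h.1
  have hQ0 := Q_pos τ
  have hx0 := h.2.1
  have hx1 := h.le
  have hy0 := yy_nonneg h.1
  have hy := yy_le_sq h.1
  have hy1 : yy τ ≤ 0.7 := by
    norm_num at *
    nlinarith
  rcases lt_or_ge τ 2 with h2 | h2
  · have h3 := nf_use 2 0 1000000000000000000 0 75000000000000000
      100000 0 0 0 2660000000000000000000
      (by simp [nfacts]) h.1 h2 h (by norm_num; linarith) (by norm_num; linarith)
      (by norm_num; linarith) (by norm_num at h1 ⊢; linarith)
    have h4 := nf_use 3 0 1000000000000000000 0 75000000000000000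
      100000 0 0 0 1340000000000000000000
      (by simp [nfacts]) h.1 h2 (x := yy τ) ⟨h.1, le_rfl⟩ (by norm_num; linarith)
      (by norm_num at hy1 ⊢; linarith) (by norm_num; linarith) (by norm_num at h1 ⊢; linarith)
    norm_num at h3 h4 ⊢
    exact ⟨by linarith, by linarith⟩
  · obtain ⟨h3, h4, h5⟩ := nf_far' (by norm_num) h h2
    norm_num at *
    exact ⟨by linarith, by nlinarith⟩

end Vale.Agent.P226
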