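import Vale.Agent.Lib.P226.NumDefs

/-!
P226, general one-variable facts: Mills and Sampford inequalities, monotonicity of `yy`.
-/

open MeasureTheory ProbabilityTheory Filter
open scoped RealInnerProductSpace Topology

namespace Vale.Agent.P226

theorem ng_c0_pos : 0 < c0 := by
  unfold c0
  positivity

theorem ng_mills (t : ℝ) : 0 ≤ phi t - t * Q t := by
  rw [← integral_pos_part t]
  exact integral_nonneg fun x => le_max_right _ _

theorem ng_Q_tendsto : Tendsto Q atTop (𝓝 0) := by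
  have h := Phi_tendsto_top.const_sub 1
  rw [sub_self] at h
  refine h.congr fun x => ?_
  have := Phi_add_Q x
  linarith

theorem ng_hasDerivAt_H (t : ℝ) :
    HasDerivAt (fun t => Q t - t * phi t / (1 + t ^ 2)) (-2 * phi t / (1 + t ^ 2) ^ 2) t := by
  have h0 : (1 + t ^ 2) ≠ 0 := by positivity
  have h1 : HasDerivAt (fun t : ℝ => t * phi t) (1 * phi t + t * (-t * phi t)) t :=
    (hasDerivAt_id t).mul (hasDerivAt_phi t)
  have h2 : HasDerivAt (fun t : ℝ => 1 + t ^ 2) (2 * t) t := by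
    have := ((hasDerivAt_id t).pow 2).const_add 1
    refine this.congr_deriv ?_
    simp
  refine ((hasDerivAt_Q t).sub (h1.div h2 h0)).congr_deriv ?_
  field_simp
  ring

theorem ng_H_tendsto : Tendsto (fun t => Q t - t * phi t / (1 + t ^ 2)) atTop (𝓝 0) := by
  have h1 : Tendsto (fun t => t * phi t / (1 + t ^ 2)) atTop (𝓝 0) := by
    refine squeeze_zero' (g := phi) ?_ ?_ basics_phi_tendsto_top
    · filter_upwards [eventually_ge_atTop (0 : ℝ)] with t ht
      have := phi_pos t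
      positivity
    · filter_upwards [eventually_ge_atTop (0 : ℝ)] with t ht
      rw [div_le_iff₀ (by positivity)]
      have := phi_pos t
      nlinarith [mul_nonneg this.le (sq_nonneg (t - 1)), mul_nonneg this.le (sq_nonneg t)]
  have := ng_Q_tendsto.sub h1
  rwa [sub_zero] at this

theorem ng_mills_lower (t : ℝ) : t * phi t / (1 + t ^ 2) ≤ Q t := by
  have ha : Antitone (fun t => Q t - t * phi t / (1 + t ^ 2)) := by
    refine antitone_of_hasDerivAt_nonpos (fun t => ng_hasDerivAt_H t) fun t => ?_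
    have := phi_pos t
    rw [neg_mul, neg_div]
    have : 0 ≤ 2 * phi t / (1 + t ^ 2) ^ 2 := by positivity
    simp only [Pi.zero_apply]
    linarith
  have := ha.le_of_tendsto ng_H_tendsto t
  linarith

theorem ng_hasDerivAt_G (t : ℝ) :
    HasDerivAt (fun t => Q t ^ 2 - phi t * (phi t - t * Q t))
      (-(phi t * ((1 + t ^ 2) * Q t - t * phi t))) t := by
  have h1 := (hasDerivAt_Q t).pow 2
  have h2 : HasDerivAt (fun t : ℝ => phi t - t * Q t) (-t * phi t - (1 * Q t + t * (-phi t))) t :=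
    (hasDerivAt_phi t).sub ((hasDerivAt_id t).mul (hasDerivAt_Q t))
  refine (h1.sub ((hasDerivAt_phi t).mul h2)).congr_deriv ?_
  simp
  ring

theorem ng_G_tendsto : Tendsto (fun t => Q t ^ 2 - phi t * (phi t - t * Q t)) atTop (𝓝 0) := by
  have h1 : Tendsto (fun t => phi t * (phi t - t * Q t)) atTop (𝓝 0) := by
    have hsq : Tendsto (fun t => phi t * phi t) atTop (𝓝 0) := by
      simpa using basics_phi_tendsto_top.mul basics_phi_tendsto_top
    refine squeeze_zero' ?_ ?_ hsq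
    · exact Eventually.of_forall fun t => mul_nonneg (phi_pos t).le (ng_mills t)
    · filter_upwards [eventually_ge_atTop (0 : ℝ)] with t ht
      have := mul_nonneg ht (Q_pos t).le
      exact mul_le_mul_of_nonneg_left (by linarith) (phi_pos t).le
  have h2 : Tendsto (fun t => Q t ^ 2) atTop (𝓝 0) := by
    simpa using ng_Q_tendsto.pow 2
  have := h2.sub h1
  rwa [sub_zero] at this

theorem ng_sampford (t : ℝ) : phi t * (phi t - t * Q t) ≤ Q t ^ 2 := by
  have ha : Antitone (fun t => Q t ^ 2 - phi t * (phi t - t * Q t)) := by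
    refine antitone_of_hasDerivAt_nonpos (fun t => ng_hasDerivAt_G t) fun t => ?_
    have h1 := ng_mills_lower t
    rw [div_le_iff₀ (by positivity)] at h1
    have := mul_nonneg (phi_pos t).le (by linarith : 0 ≤ (1 + t ^ 2) * Q t - t * phi t)
    simp only [Pi.zero_apply]
    linarith
  have := ha.le_of_tendsto ng_G_tendsto t
  linarith

theorem Adm.mono {c c' τ x : ℝ} (hc : c ≤ c') (h : Adm c' τ x) : Adm c τ x := by
  obtain ⟨h1, h2, h3, h4⟩ := h
  exact ⟨h1, h2, by nlinarith [mul_nonneg (sub_nonneg.2 hc) (sq_nonneg (yy τ))], h4⟩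

theorem yy_nonneg {τ : ℝ} (h : 0 ≤ τ) : 0 ≤ yy τ := by
  unfold yy
  exact div_nonneg (mul_nonneg (phi_pos τ).le (ng_mills τ)) (sq_nonneg _)

theorem sampford {τ : ℝ} (h : 0 ≤ τ) : c0 ^ 2 * yy τ ≤ Q τ ^ 2 := by
  have h0 := ng_c0_pos
  unfold yy
  rw [mul_div_cancel₀ _ (by positivity)]
  exact ng_sampford τ

theorem ng_phi_anti {a b : ℝ} (h : 0 ≤ a) (hab : a ≤ b) : phi b ≤ phi a := by
  unfold phi
  refine div_le_div_of_nonneg_right (Real.exp_le_exp.2 ?_) (Real.sqrt_nonneg _)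
  nlinarith

theorem ng_psi_anti : Antitone (fun t => phi t - t * Q t) := by
  refine antitone_of_hasDerivAt_nonpos (f' := fun t => -Q t) (fun t => ?_) fun t => ?_
  · refine ((hasDerivAt_phi t).sub ((hasDerivAt_id t).mul (hasDerivAt_Q t))).congr_deriv ?_
    simp
  · have := Q_pos t
    simp only [Pi.zero_apply]
    linarith

theorem yy_anti {τ τ' : ℝ} (h : 0 ≤ τ) (h' : τ ≤ τ') : yy τ' ≤ yy τ := by
  unfold yy
  refine div_le_div_of_nonneg_right ?_ (sq_nonneg _)
  exact mul_le_mul (ng_phi_anti h h') (ng_psi_anti h') (ng_mills _) (phi_pos _).le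

/-- `x ≤ 4/9` -/
theorem Adm.le {c τ x : ℝ} (h : Adm c τ x) : x ≤ 4 / 9 := by
  obtain ⟨h1, -, -, h4⟩ := h
  have h5 := ng_phi_anti le_rfl h1
  have h6 : phi τ ^ 2 ≤ phi 0 ^ 2 := pow_le_pow_left₀ (phi_pos τ).le h5 2
  have h7 : phi 0 ^ 2 = c0 ^ 2 * (4 / 9) := by
    unfold phi c0
    have h2 : 0 < Real.sqrt (2 * Real.pi) := by positivity
    rw [show (-(0 : ℝ) ^ 2 / 2) = 0 by norm_num, Real.exp_zero]
    field_simp
    norm_num
  rw [h7] at h6
  have h8 : 0 < c0 ^ 2 := by have := ng_c0_pos; positivity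
  exact le_of_mul_le_mul_left (h4.trans h6) h8

/-- `Q τ ≤ 1/2` -/
theorem Q_le_half {τ : ℝ} (h : 0 ≤ τ) : Q τ ≤ 1 / 2 := by
  rw [← Q_zero]
  exact Q_strictAnti.antitone h

theorem ng_c0_sq : c0 ^ 2 = 9 / (8 * Real.pi) := by
  unfold c0
  rw [div_pow, mul_pow, Real.sq_sqrt (by positivity)]
  field_simp
  ring

/-- `1/c0² = 8π/9 ≤ 2.7926` -/
theorem yy_le_sq {τ : ℝ} (h : 0 ≤ τ) : yy τ ≤ 2.7926 * Q τ ^ 2 := by
  have h1 := sampford h
  rw [ng_c0_sq] at h1
  have hpi := Real.pi_pos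
  have h2 : yy τ = (8 * Real.pi / 9) * (9 / (8 * Real.pi) * yy τ) := by field_simp
  have h3 : 8 * Real.pi / 9 ≤ 2.7926 := by
    have := Real.pi_lt_d6
    linarith
  rw [h2]
  calc (8 * Real.pi / 9) * (9 / (8 * Real.pi) * yy τ) ≤ (8 * Real.pi / 9) * Q τ ^ 2 :=
        mul_le_mul_of_nonneg_left h1 (by positivity)
    _ ≤ 2.7926 * Q τ ^ 2 := mul_le_mul_of_nonneg_right h3 (sq_nonneg _)

end Vale.Agent.P226
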