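import Vale.Agent.Lib.P226.NumDefs

/-!
P226, certified integer recursion for the normal tail on the grid `i / 1000`: definitions of the
checker (all numbers scaled by `10 ^ 18`).
-/

namespace Vale.Agent.P226

/-- one numerical fact: if `xlo ≤ x ≤ xhi` and `qlo ≤ Q ≤ qhi` then
`k x + f √x + b ≤ D Q + bp` (`x`, `Q`, `b`, `bp` are scaled by `10 ^ 18`) -/
structure NRec where
  c : ℕ
  xlo : ℕ
  xhi : ℕ
  qlo : ℕ
  qhi : ℕ
  k : ℕ
  f : ℕ
  b : ℕ
  D : ℕ
  bp : ℕ

/-- evaluate an argument before use (only matters for kernel evaluation) -/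
def nforce (n : ℕ) (f : ℕ → Bool) : Bool :=
  match n with
  | 0 => f 0
  | k + 1 => f (k + 1)

theorem nforce_eq (n : ℕ) (f : ℕ → Bool) : nforce n f = f n := by cases n <;> rfl

/-- minimum -/
def nmin (a b : ℕ) : ℕ := cond (Nat.ble a b) a b

/-- maximum -/
def nmax (a b : ℕ) : ℕ := cond (Nat.ble a b) b a

/-- check one fact on one cell of the grid: `X` bounds `x` from above, `q` bounds `Q` from below -/
def nchk (r : NRec) (X q : ℕ) : Bool :=
  cond (Nat.blt X r.xlo) true (cond (Nat.blt r.qhi q) true
    (nforce (nmin X r.xhi) fun m =>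
      nforce (Nat.add (Nat.mul r.D (nmax q r.qlo)) r.bp) fun rhs =>
        nforce (Nat.add (Nat.mul r.k m) r.b) fun lhs =>
          cond (Nat.ble lhs rhs)
            (Nat.ble (Nat.mul (Nat.mul (Nat.mul r.f r.f) m) 1000000000000000000)
              (Nat.mul (Nat.sub rhs lhs) (Nat.sub rhs lhs))) false))

/-- choice of the upper bound -/
def nsel (c X0 X1 X2 X3 : ℕ) : ℕ :=
  match c with
  | 0 => X0
  | 1 => X1
  | 2 => X2
  | _ => X3

/-- check all facts -/
def nchkAll (X0 X1 X2 X3 q : ℕ) : List NRec → Bool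
  | [] => true
  | r :: l => cond (nchk r (nsel r.c X0 X1 X2 X3) q) (nchkAll X0 X1 X2 X3 q l) false

/-- the facts -/
def nfacts : List NRec := [
   ⟨0, 0, 200000000000000000, 0, 1000000000000000000, 110000, 0, 0, 100000, 0⟩,
   ⟨0, 0, 1000000000000000000, 0, 1000000000000000000, 110000, 0, 0, 100000, 7340000000000000000000⟩,
   ⟨0, 0, 130000000000000000, 0, 1000000000000000000, 133000, 0, 0, 100000, 0⟩,
   ⟨0, 0, 1000000000000000000, 0, 1000000000000000000, 133000, 0, 0, 100000, 16040000000000000000000⟩,
   ⟨0, 0, 15625000000000000, 0, 1000000000000000000, 60000, 38100, 0, 100000, 0⟩,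
   ⟨0, 15625000000000000, 40000000000000000, 0, 1000000000000000000, 60000, 28300, 1220000000000000000000, 100000, 0⟩,
   ⟨0, 40000000000000000, 108900000000000000, 0, 1000000000000000000, 60000, 18200, 3250000000000000000000, 100000, 0⟩,
   ⟨0, 40000000000000000, 90000000000000000, 0, 1000000000000000000, 60000, 19600, 2970000000000000000000, 100000, 0⟩,
   ⟨0, 90000000000000000, 160000000000000000, 0, 1000000000000000000, 60000, 10400, 5730000000000000000000, 100000, 0⟩,
   ⟨0, 160000000000000000, 250000000000000000, 0, 1000000000000000000, 60000, 2200, 9020000000000000000000, 100000, 0⟩,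
   ⟨0, 160000000000000000, 1000000000000000000, 0, 1000000000000000000, 60000, 0, 9800000000000000000000, 100000, 0⟩,
   ⟨0, 130000000000000000, 1000000000000000000, 0, 1000000000000000000, 60000, 0, 9590000000000000000000, 100000, 0⟩,
   ⟨0, 220000000000000000, 1000000000000000000, 0, 1000000000000000000, 57200, 0, 10750000000000000000000, 100000, 0⟩,
   ⟨1, 200000000000000000, 1000000000000000000, 0, 1000000000000000000, 60000, 0, 10110000000000000000000, 100000, 0⟩,
   ⟨1, 130000000000000000, 1000000000000000000, 0, 1000000000000000000, 60000, 0, 9650000000000000000000, 100000, 0⟩,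
   ⟨1, 160000000000000000, 1000000000000000000, 0, 1000000000000000000, 60800, 0, 9830000000000000000000, 100000, 0⟩,
   ⟨2, 0, 105000000000000000, 0, 1000000000000000000, 148000, 0, 0, 100000, 0⟩,
   ⟨2, 130000000000000000, 1000000000000000000, 0, 1000000000000000000, 70000, 0, 6775000000000000000000, 100000, 0⟩,
   ⟨2, 130000000000000000, 200000000000000000, 0, 1000000000000000000, 70000, 0, 8280000000000000000000, 100000, 0⟩,
   ⟨2, 105000000000000000, 200000000000000000, 0, 1000000000000000000, 70000, 0, 8190000000000000000000, 100000, 0⟩,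
   ⟨2, 200000000000000000, 1000000000000000000, 0, 1000000000000000000, 60000, 0, 10280000000000000000000, 100000, 0⟩,
   ⟨2, 105000000000000000, 250000000000000000, 0, 1000000000000000000, 60000, 0, 9240000000000000000000, 100000, 0⟩,
   ⟨2, 0, 1000000000000000000, 75000000000000000, 200000000000000000, 100000, 0, 6000000000000000000000, 115600, 0⟩,
   ⟨2, 0, 1000000000000000000, 200000000000000000, 250000000000000000, 300000, 0, 26400000000000000000000, 400000, 0⟩,
   ⟨2, 0, 1000000000000000000, 0, 75000000000000000, 100000, 0, 0, 0, 2660000000000000000000⟩,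
   ⟨3, 0, 1000000000000000000, 0, 75000000000000000, 100000, 0, 0, 0, 1340000000000000000000⟩]

/-- upper bound of the density from the upper bound `E` of `exp (-τ²/2)` -/
def nP (E : ℕ) : ℕ := Nat.succ (Nat.div (Nat.mul 398942280401432679 E) 1000000000000000000)

/-- next lower bound of `Q` -/
def nQ (q P P1 : ℕ) : ℕ := Nat.sub q (Nat.add (Nat.succ (Nat.div (Nat.add P P1) 2000)) 33333336)

/-- upper bound of `yy` -/
def nY (i P q : ℕ) : ℕ :=
  Nat.succ (Nat.div (Nat.mul (Nat.mul 2792526803190927325 P)
    (Nat.sub P (Nat.div (Nat.mul i q) 1000))) 1000000000000000000000000000000000000)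

/-- upper bound of `φ²/c0²` -/
def nB (P : ℕ) : ℕ :=
  Nat.succ (Nat.div (Nat.mul (Nat.mul 2792526803190927325 P) P)
    1000000000000000000000000000000000000)

/-- upper bound of `min (2 y - (u/v) y²) (φ²/c0²)` -/
def nX (u v Y B : ℕ) : ℕ :=
  nmin (Nat.sub (Nat.mul 2 Y) (Nat.div (Nat.mul (Nat.mul u Y) Y) v)) B

/-- the loop: `n` cells starting with number `i` -/
noncomputable def ngo (n : ℕ) : ℕ → ℕ → ℕ → ℕ → ℕ → ℕ → ℕ → Bool :=
  Nat.rec (motive := fun _ => ℕ → ℕ → ℕ → ℕ → ℕ → ℕ → ℕ → Bool)
    (fun _ E R q E' R' q' => cond (Nat.beq E E') (cond (Nat.beq R R') (Nat.beq q q') false) false)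
    (fun _ ih i E R q E' R' q' =>
      nforce (Nat.succ (Nat.div (Nat.mul E R) 1000000000000000000)) fun E1 =>
      nforce (Nat.succ (Nat.div (Nat.mul R 999999000000500001) 1000000000000000000)) fun R1 =>
      nforce (nP E) fun P =>
      nforce (nQ q P (nP E1)) fun q1 =>
      nforce (nY i P q) fun Y =>
      nforce (nB P) fun B =>
      nforce (nX 1 1000000000000000000 Y B) fun X0 =>
      nforce (nX 7 6000000000000000000 Y B) fun X1 =>
      nforce (nX 5 4000000000000000000 Y B) fun X2 =>
      cond (Nat.ble Y 750000000000000000)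
        (cond (nchkAll X0 X1 X2 Y q1 nfacts)
          (ih (Nat.succ i) E1 R1 q1 E' R' q') false) false) n

end Vale.Agent.P226
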