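import Mathlib

/-!
P226, job J11t (NumTrig.lean).  Elementary trigonometric bounds and choice of the three largest.
-/

namespace Vale.Agent.P226

/-- tangents of arctan -/
theorem numTrig_tangent {a w : ℝ} (ha : 0 ≤ a) (hw : 0 ≤ w) :
    Real.arctan w ≤ Real.arctan a + (w - a) / (1 + a ^ 2) := by
  rcases lt_trichotomy a w with h | h | h
  · obtain ⟨c, hc, hc'⟩ := exists_hasDerivAt_eq_slope Real.arctan (fun x => 1 / (1 + x ^ 2)) h
      Real.continuous_arctan.continuousOn (fun x _ => Real.hasDerivAt_arctan x)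
    have h1 : 0 < w - a := by linarith
    rw [eq_div_iff h1.ne'] at hc'
    have h2 : 1 / (1 + c ^ 2) ≤ 1 / (1 + a ^ 2) := by
      apply one_div_le_one_div_of_le (by positivity)
      have : a ^ 2 ≤ c ^ 2 := pow_le_pow_left₀ ha hc.1.le 2
      linarith
    have h3 : 1 / (1 + c ^ 2) * (w - a) ≤ 1 / (1 + a ^ 2) * (w - a) :=
      mul_le_mul_of_nonneg_right h2 h1.le
    have h4 : (w - a) / (1 + a ^ 2) = 1 / (1 + a ^ 2) * (w - a) := by ring
    linarith
  · rw [h]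
    simp
  · obtain ⟨c, hc, hc'⟩ := exists_hasDerivAt_eq_slope Real.arctan (fun x => 1 / (1 + x ^ 2)) h
      Real.continuous_arctan.continuousOn (fun x _ => Real.hasDerivAt_arctan x)
    have h1 : 0 < a - w := by linarith
    rw [eq_div_iff h1.ne'] at hc'
    have hc0 : 0 ≤ c := hw.trans hc.1.le
    have h2 : 1 / (1 + a ^ 2) ≤ 1 / (1 + c ^ 2) := by
      apply one_div_le_one_div_of_le (by positivity)
      have : c ^ 2 ≤ a ^ 2 := pow_le_pow_left₀ hc0 hc.2.le 2
      linarith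
    have h3 : 1 / (1 + a ^ 2) * (a - w) ≤ 1 / (1 + c ^ 2) * (a - w) :=
      mul_le_mul_of_nonneg_right h2 h1.le
    have h4 : (w - a) / (1 + a ^ 2) = -(1 / (1 + a ^ 2) * (a - w)) := by ring
    linarith

theorem arctan_le_self' {w : ℝ} (h : 0 ≤ w) : Real.arctan w ≤ w := by
  have := numTrig_tangent le_rfl h
  simpa using this

/-- tangent at 1 -/
theorem arctan_T2 {w : ℝ} (h : 0 ≤ w) : Real.arctan w ≤ Real.pi / 4 + (w - 1) / 2 := by
  have := numTrig_tangent zero_le_one h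
  rw [Real.arctan_one] at this
  norm_num at this ⊢
  exact this

/-- tangent at √3 -/
theorem arctan_T3 {w : ℝ} (h : 0 ≤ w) :
    Real.arctan w ≤ Real.pi / 3 + (w - Real.sqrt 3) / 4 := by
  have := numTrig_tangent (Real.sqrt_nonneg 3) h
  rw [Real.arctan_sqrt_three, Real.sq_sqrt (by norm_num)] at this
  norm_num at this ⊢
  exact this

/-- tangent at 1/√3 -/
theorem arctan_T4 {w : ℝ} (h : 0 ≤ w) :
    Real.arctan w ≤ Real.pi / 6 + 3 / 4 * (w - 1 / Real.sqrt 3) := by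
  have h1 : (0 : ℝ) ≤ (Real.sqrt 3)⁻¹ := by positivity
  have := numTrig_tangent h1 h
  rw [Real.arctan_inv_sqrt_three, inv_pow, Real.sq_sqrt (by norm_num)] at this
  rw [one_div]
  refine this.trans (le_of_eq ?_)
  ring

/-- chords of arcsin -/
theorem numTrig_chord {Θ t : ℝ} (h0 : 0 < Θ) (h1 : Θ ≤ Real.pi / 2) (h : 0 ≤ t)
    (h' : t ≤ Real.sin Θ) : Real.arcsin t ≤ Θ / Real.sin Θ * t := by
  have hpi := Real.pi_pos
  have hs : 0 < Real.sin Θ := Real.sin_pos_of_pos_of_lt_pi h0 (by linarith)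
  have hθ0 : 0 ≤ Real.arcsin t := Real.arcsin_nonneg.2 h
  have hθ1 : Real.arcsin t ≤ Θ := by
    have := Real.monotone_arcsin h'
    rwa [Real.arcsin_sin (by linarith) h1] at this
  have hsin : Real.sin (Real.arcsin t) = t :=
    Real.sin_arcsin (by linarith) (h'.trans (Real.sin_le_one _))
  have hc := strictConcaveOn_sin_Icc.concaveOn
  have e0 : (0 : ℝ) ∈ Set.Icc 0 Real.pi := ⟨le_rfl, hpi.le⟩
  have e1 : Θ ∈ Set.Icc 0 Real.pi := ⟨h0.le, by linarith⟩
  have e2 : 0 ≤ 1 - Real.arcsin t / Θ := by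
    rw [sub_nonneg, div_le_one h0]
    exact hθ1
  have e3 : 0 ≤ Real.arcsin t / Θ := by positivity
  have h2 := hc.2 e0 e1 e2 e3 (by ring)
  simp only [smul_eq_mul, mul_zero, Real.sin_zero, zero_add] at h2
  rw [div_mul_cancel₀ _ h0.ne', hsin, div_mul_eq_mul_div, div_le_iff₀ h0] at h2
  rw [div_mul_eq_mul_div, le_div_iff₀ hs]
  linarith

theorem arcsin_K1 {t : ℝ} (h : 0 ≤ t) (h' : t ≤ 1 / 2) : Real.arcsin t ≤ Real.pi / 3 * t := by
  have hpi := Real.pi_pos
  have := numTrig_chord (Θ := Real.pi / 6) (by positivity) (by linarith) h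
    (by rwa [Real.sin_pi_div_six])
  rw [Real.sin_pi_div_six] at this
  refine this.trans (le_of_eq ?_)
  ring

theorem arcsin_K2 {t : ℝ} (h : 0 ≤ t) (h' : t ≤ Real.sqrt 2 / 2) :
    Real.arcsin t ≤ Real.pi / (2 * Real.sqrt 2) * t := by
  have hpi := Real.pi_pos
  have := numTrig_chord (Θ := Real.pi / 4) (by positivity) (by linarith) h
    (by rwa [Real.sin_pi_div_four])
  rw [Real.sin_pi_div_four] at this
  refine this.trans (le_of_eq ?_)
  have h2 : Real.sqrt 2 ≠ 0 := by positivity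
  field_simp
  ring

theorem arcsin_K3 {t : ℝ} (h : 0 ≤ t) (h' : t ≤ Real.sqrt 3 / 2) :
    Real.arcsin t ≤ 2 * Real.pi / (3 * Real.sqrt 3) * t := by
  have hpi := Real.pi_pos
  have := numTrig_chord (Θ := Real.pi / 3) (by positivity) (by linarith) h
    (by rwa [Real.sin_pi_div_three])
  rw [Real.sin_pi_div_three] at this
  refine this.trans (le_of_eq ?_)
  have h2 : Real.sqrt 3 ≠ 0 := by positivity
  field_simp

/-- the three largest values -/
theorem exists_top_three {ι : Type} [Fintype ι] [DecidableEq ι] (h : 3 ≤ Fintype.card ι)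
    (x : ι → ℝ) : ∃ b₁ b₂ b₃ : ι, b₁ ≠ b₂ ∧ b₁ ≠ b₃ ∧ b₂ ≠ b₃ ∧ x b₂ ≤ x b₁ ∧ x b₃ ≤ x b₂ ∧
      ∀ i, i ≠ b₁ → i ≠ b₂ → i ≠ b₃ → x i ≤ x b₃ := by
  have hne : ∀ s : Finset ι, s.card < 3 → (Finset.univ \ s).Nonempty := by
    intro s hs
    rw [← Finset.card_pos, Finset.card_sdiff_of_subset (Finset.subset_univ s), Finset.card_univ]
    omega
  obtain ⟨b₁, -, h1⟩ := Finset.exists_max_image (Finset.univ \ ∅) x (hne ∅ (by simp))
  obtain ⟨b₂, hb2, h2⟩ := Finset.exists_max_image (Finset.univ \ {b₁}) x (hne {b₁} (by simp))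
  obtain ⟨b₃, hb3, h3⟩ := Finset.exists_max_image (Finset.univ \ {b₁, b₂}) x
    (hne {b₁, b₂} (lt_of_le_of_lt (Finset.card_le_two) (by norm_num)))
  simp only [Finset.mem_sdiff, Finset.mem_univ, true_and, Finset.mem_singleton,
    Finset.mem_insert, not_or, Finset.notMem_empty, not_false_eq_true] at hb2 hb3 h1 h2 h3
  refine ⟨b₁, b₂, b₃, fun h => hb2 h.symm, fun h => hb3.1 h.symm, fun h => hb3.2 h.symm,
    h1 b₂ trivial, h2 b₃ hb3.1, fun i hi1 hi2 _ => h3 i ⟨hi1, hi2⟩⟩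

end Vale.Agent.P226
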