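import Vale.Agent.Lib.P226.NumFacts
import Vale.Agent.Lib.P226.NumTrig

/-!
P226, job J11r (NumRegion.lean).  Processing of the hypotheses, and the structure common to all `k ≥ 5`:
the three largest squared norms are at least 0.13, the two largest at least 0.2.

* `numHyp_of_raw`: with `c = k/(k-1)`, `y = yy τ`: from `r - c y/r ≤ √(1 - c x)` and `r > 1`:
  `1 - c y ≤ √(1 - c x)` (`c y < 1` because `y ≤ 4/9`, `c ≤ 4/3`), so `x ≤ 2 y - c y²`;
  `r ≤ √(1-cx) + c y / r ≤ 1 + c y`.  `√x ≤ φ/c0`; cap: `2√(2/π)/c0 = 8/3`.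
* `region`: with `b₁ b₂ b₃` from `exists_top_three` for `s`, `x i = s i ^ 2`, `a i = Q (τ i)`.
  If `x b₂ < 0.2` then `a i ≥ 1.1 x i` for all `i ≠ b₁` (fact1) and `a b₁ ≥ 1.1 x b₁ - 0.0734` (fact2): the sum is
  `1 ≥ 1.1 - 0.0734 > 1`, contradiction.  If `x b₃ < 0.13` then (fact3, fact4 for `b₁, b₂`)
  `1 ≥ 1.33 - 2 * 0.1604 > 1`, contradiction.
-/

open MeasureTheory ProbabilityTheory Filter
open scoped RealInnerProductSpace Topology

namespace Vale.Agent.P226

theorem nr_c0_pos : 0 < c0 := by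
  unfold c0
  positivity

theorem nr_yy_le_four_ninths {τ : ℝ} (h : 0 ≤ τ) : yy τ ≤ 4 / 9 := by
  refine (yy_anti le_rfl h).trans (le_of_eq ?_)
  unfold yy phi c0
  have hpi := Real.pi_pos
  have h1 : Real.sqrt (2 * Real.pi) ^ 2 = 2 * Real.pi := Real.sq_sqrt (by positivity)
  have h2 : 0 < Real.sqrt (2 * Real.pi) := by positivity
  have h3 : Real.exp (-(0 : ℝ) ^ 2 / 2) = 1 := by norm_num
  rw [h3, zero_mul, sub_zero]
  field_simp
  norm_num

theorem numHyp_of_raw {ι : Type} [Fintype ι] (hcard : 4 ≤ Fintype.card ι)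
    (s τ : ι → ℝ) {r : ℝ} (hr : 1 < r) (hτ : ∀ i, 0 ≤ τ i) (hs : ∀ i, 0 < s i)
    (hs1 : ∑ i, s i ^ 2 = 1) (hQ : ∑ i, Q (τ i) = 1)
    (h1 : ∀ i, r * c0 * s i ≤ phi (τ i))
    (h2 : ∀ i, r - (Fintype.card ι / (Fintype.card ι - 1) : ℝ) *
        (phi (τ i) * (phi (τ i) - τ i * Q (τ i)) / c0 ^ 2) / r ≤
      Real.sqrt (1 - (Fintype.card ι / (Fintype.card ι - 1) : ℝ) * s i ^ 2))
    (h3 : Fintype.card ι = 4 → ∀ i, r * c0 * s i ≤ 2 * Real.sqrt (2 / Real.pi) *
      (Q (τ i) * (1 - Q (τ i)))) : NumHyp s τ r := by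
  have hk : (4 : ℝ) ≤ Fintype.card ι := by exact_mod_cast hcard
  set c : ℝ := (Fintype.card ι / (Fintype.card ι - 1) : ℝ) with hc
  have hc1 : 1 ≤ c := by
    rw [hc, le_div_iff₀ (by linarith)]
    linarith
  have hc2 : c ≤ 4 / 3 := by
    rw [hc, div_le_iff₀ (by linarith)]
    linarith
  have hc0 := nr_c0_pos
  have hr0 : 0 < r := by linarith
  have hc0s : ∀ i, c0 * s i ≤ r * c0 * s i := by
    intro i
    have : 0 < c0 * s i := mul_pos hc0 (hs i)
    nlinarith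
  have hy0 : ∀ i, 0 ≤ yy (τ i) := fun i => yy_nonneg (hτ i)
  have hy1 : ∀ i, yy (τ i) ≤ 4 / 9 := fun i => nr_yy_le_four_ninths (hτ i)
  have h2' : ∀ i, r - c * yy (τ i) / r ≤ Real.sqrt (1 - c * s i ^ 2) := h2
  have hdiv : ∀ i, c * yy (τ i) / r ≤ c * yy (τ i) := by
    intro i
    exact div_le_self (mul_nonneg (by linarith) (hy0 i)) hr.le
  have hsqrt : ∀ i, 1 - c * yy (τ i) ≤ Real.sqrt (1 - c * s i ^ 2) := by
    intro i
    have := h2' i
    have := hdiv i
    linarith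
  refine ⟨hcard, hr, hτ, hs, hs1, hQ, ?_, ?_, ?_⟩
  · intro i
    refine ⟨hτ i, by have := hs i; positivity, ?_, ?_⟩
    · have hlt : 0 < 1 - c * yy (τ i) := by
        have := hy0 i
        have := hy1 i
        nlinarith
      have hpos : 0 < Real.sqrt (1 - c * s i ^ 2) := lt_of_lt_of_le hlt (hsqrt i)
      have hpos' : 0 < 1 - c * s i ^ 2 := Real.sqrt_pos.1 hpos
      have hsq : (1 - c * yy (τ i)) ^ 2 ≤ 1 - c * s i ^ 2 := by
        rw [← Real.sq_sqrt hpos'.le]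
        exact pow_le_pow_left₀ hlt.le (hsqrt i) 2
      have h4 : c * s i ^ 2 ≤ c * (2 * yy (τ i) - c * yy (τ i) ^ 2) := by nlinarith
      exact le_of_mul_le_mul_left h4 (by linarith)
    · rw [← mul_pow]
      exact pow_le_pow_left₀ (mul_pos hc0 (hs i)).le ((hc0s i).trans (h1 i)) 2
  · intro i
    have h4 := h2' i
    have h5 := hdiv i
    have h6 : Real.sqrt (1 - c * s i ^ 2) ≤ 1 := by
      rw [Real.sqrt_le_one]
      have : 0 ≤ c * s i ^ 2 := mul_nonneg (by linarith) (sq_nonneg _)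
      linarith
    linarith
  · intro h4 i
    have h5 := (hc0s i).trans (h3 h4 i)
    have hpi := Real.pi_pos
    have h6 : 2 * Real.sqrt (2 / Real.pi) = 8 / 3 * c0 := by
      unfold c0
      have h7 : Real.sqrt (2 / Real.pi) * Real.sqrt (2 * Real.pi) = 2 := by
        rw [← Real.sqrt_mul (by positivity)]
        have : 2 / Real.pi * (2 * Real.pi) = 2 ^ 2 := by
          field_simp
        rw [this, Real.sqrt_sq (by norm_num)]
      have h8 : 0 < Real.sqrt (2 * Real.pi) := by positivity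
      field_simp
      nlinarith
    rw [h6] at h5
    have h7 : c0 * s i ≤ c0 * (8 / 3 * (Q (τ i) * (1 - Q (τ i)))) := by
      calc c0 * s i ≤ 8 / 3 * c0 * (Q (τ i) * (1 - Q (τ i))) := h5
        _ = c0 * (8 / 3 * (Q (τ i) * (1 - Q (τ i)))) := by ring
    exact le_of_mul_le_mul_left h7 hc0

theorem region {ι : Type} [Fintype ι] [DecidableEq ι] {s τ : ι → ℝ} {r : ℝ} (h : NumHyp s τ r) :
    ∃ b₁ b₂ b₃ : ι, b₁ ≠ b₂ ∧ b₁ ≠ b₃ ∧ b₂ ≠ b₃ ∧ s b₂ ≤ s b₁ ∧ s b₃ ≤ s b₂ ∧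
      (∀ i, i ≠ b₁ → i ≠ b₂ → i ≠ b₃ → s i ≤ s b₃) ∧
      0.2 ≤ s b₂ ^ 2 ∧ 0.13 ≤ s b₃ ^ 2 ∧ (∀ i, s i ^ 2 ≤ 4 / 9) := by
  have hk : (4 : ℝ) ≤ Fintype.card ι := by exact_mod_cast h.card
  have hc1 : (1 : ℝ) ≤ (Fintype.card ι / (Fintype.card ι - 1) : ℝ) := by
    rw [le_div_iff₀ (by linarith)]
    linarith
  have hadm : ∀ i, Adm 1 (τ i) (s i ^ 2) := fun i => (h.adm i).mono hc1
  obtain ⟨b₁, b₂, b₃, h12, h13, h23, hs12, hs23, hrest⟩ := exists_top_three
    (by have := h.card; omega) s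
  have hmono : ∀ {i j : ι}, s i ≤ s j → s i ^ 2 ≤ s j ^ 2 := fun {i j} hij =>
    pow_le_pow_left₀ (h.s_pos i).le hij 2
  refine ⟨b₁, b₂, b₃, h12, h13, h23, hs12, hs23, hrest, ?_, ?_, fun i => (h.adm i).le⟩
  · by_contra hcon
    push Not at hcon
    have h1 : ∀ i, 1.1 * s i ^ 2 - (if i = b₁ then 0.0734 else 0) ≤ Q (τ i) := by
      intro i
      by_cases hi : i = b₁
      · rw [if_pos hi]
        exact fact2 (hadm i)
      · rw [if_neg hi, sub_zero]
        have hle : s i ≤ s b₂ := by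
          by_cases hi2 : i = b₂
          · rw [hi2]
          · by_cases hi3 : i = b₃
            · rw [hi3]
              exact hs23
            · exact (hrest i hi hi2 hi3).trans hs23
        exact fact1 (hadm i) ((hmono hle).trans hcon.le)
    have h2 : ∑ i, (1.1 * s i ^ 2 - (if i = b₁ then 0.0734 else 0)) ≤ ∑ i, Q (τ i) :=
      Finset.sum_le_sum fun i _ => h1 i
    rw [h.sum_Q, Finset.sum_sub_distrib, ← Finset.mul_sum, h.sum_sq, Finset.sum_ite_eq' Finset.univ b₁,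
      if_pos (Finset.mem_univ _)] at h2
    norm_num at h2
  · by_contra hcon
    push Not at hcon
    have h1 : ∀ i, 1.33 * s i ^ 2 - (if i = b₁ then 0.1604 else 0) -
        (if i = b₂ then 0.1604 else 0) ≤ Q (τ i) := by
      intro i
      by_cases hi : i = b₁
      · have hi2 : i ≠ b₂ := by
          rw [hi]
          exact h12
        rw [if_pos hi, if_neg hi2, sub_zero]
        exact fact4 (hadm i)
      · by_cases hi2 : i = b₂
        · rw [if_neg hi, if_pos hi2, sub_zero]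
          exact fact4 (hadm i)
        · rw [if_neg hi, if_neg hi2, sub_zero, sub_zero]
          have hle : s i ≤ s b₃ := by
            by_cases hi3 : i = b₃
            · rw [hi3]
            · exact hrest i hi hi2 hi3
          exact fact3 (hadm i) ((hmono hle).trans hcon.le)
    have h2 : ∑ i, (1.33 * s i ^ 2 - (if i = b₁ then 0.1604 else 0) -
        (if i = b₂ then 0.1604 else 0)) ≤ ∑ i, Q (τ i) :=
      Finset.sum_le_sum fun i _ => h1 i
    rw [h.sum_Q, Finset.sum_sub_distrib, Finset.sum_sub_distrib, ← Finset.mul_sum, h.sum_sq,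
      Finset.sum_ite_eq' Finset.univ b₁, Finset.sum_ite_eq' Finset.univ b₂,
      if_pos (Finset.mem_univ _), if_pos (Finset.mem_univ _)] at h2
    norm_num at h2

end Vale.Agent.P226
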