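import Vale.Agent.Lib.P226.NumLoop
import Vale.Agent.Lib.P226.NumGen

/-!
P226: general facts on `phi`, `Q`, `yy` and soundness of the certified recursion of `NumLoop.lean`.
-/

open MeasureTheory ProbabilityTheory Filter
open scoped RealInnerProductSpace Topology

namespace Vale.Agent.P226

/-! ### general facts -/

theorem nf_c0_sq : c0 ^ 2 = 9 / (8 * Real.pi) := by
  unfold c0
  rw [div_pow, mul_pow, Real.sq_sqrt (by positivity)]
  ring

theorem nf_c0_sq_pos : 0 < c0 ^ 2 := by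
  rw [nf_c0_sq]
  positivity

theorem nf_phi_anti {a b : ℝ} (h : 0 ≤ a) (hab : a ≤ b) : phi b ≤ phi a := by
  unfold phi
  apply div_le_div_of_nonneg_right _ (Real.sqrt_nonneg _)
  apply Real.exp_le_exp.2
  nlinarith

theorem nf_sub_anti {a b : ℝ} (hab : a ≤ b) : phi b - b * Q b ≤ phi a - a * Q a := by
  have h1 : StrictAnti (fun θ => phi θ - θ * Q θ) :=
    strictAnti_of_hasDerivAt_neg basics_hasDerivAt_sub fun x => neg_neg_of_pos (Q_pos x)
  exact h1.antitone hab

theorem nf_Q_anti {a b : ℝ} (hab : a ≤ b) : Q b ≤ Q a := Q_strictAnti.antitone hab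

/-! ### one step of the recursion for `Q` -/

theorem phi_le_two_fifths (x : ℝ) : phi x ≤ 2 / 5 := by
  unfold phi
  have hpi := Real.pi_gt_d6
  have h1 : (5 / 2 : ℝ) ≤ Real.sqrt (2 * Real.pi) := by
    apply Real.le_sqrt_of_sq_le
    norm_num
    linarith
  have h2 : Real.exp (-x ^ 2 / 2) ≤ 1 := by
    apply Real.exp_le_one_iff.2
    nlinarith [sq_nonneg x]
  rw [div_le_iff₀ (by positivity)]
  linarith

theorem Q_step {a h : ℝ} (hh : 0 ≤ h) :
    Q a - h * (phi a + phi (a + h)) / 2 - h ^ 3 / 30 ≤ Q (a + h) := by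
  set v : ℝ → ℝ := fun t => (phi a - phi (a + t)) / 2 + t * (-(a + t) * phi (a + t)) / 2 + t ^ 2 / 10
    with hv
  set u : ℝ → ℝ := fun t => Q (a + t) - Q a + t * (phi a + phi (a + t)) / 2 + t ^ 3 / 30 with hu
  have hat : ∀ t : ℝ, HasDerivAt (fun t => a + t) 1 t := fun t => by
    simpa using (hasDerivAt_id t).const_add a
  have hphi : ∀ t : ℝ, HasDerivAt (fun t => phi (a + t)) (-(a + t) * phi (a + t)) t := fun t => by
    exact ((hasDerivAt_phi (a + t)).comp t (hat t)).congr_deriv (mul_one _)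
  have hQ : ∀ t : ℝ, HasDerivAt (fun t => Q (a + t)) (-phi (a + t)) t := fun t => by
    exact ((hasDerivAt_Q (a + t)).comp t (hat t)).congr_deriv (mul_one _)
  have hid : ∀ t : ℝ, HasDerivAt (fun t : ℝ => t) 1 t := hasDerivAt_id'
  have hud : ∀ t, HasDerivAt u (v t) t := by
    intro t
    have h1 := (((hQ t).sub_const (Q a)).fun_add
      (((hid t).fun_mul ((hphi t).const_add (phi a))).div_const 2)).fun_add
      (((hid t).fun_pow 3).div_const 30)
    refine h1.congr_deriv ?_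
    simp only [hv]
    norm_num
    ring
  have hvd : ∀ t, HasDerivAt v (t * ((((a + t) ^ 2 - 1) * phi (a + t)) / 2 + 1 / 5)) t := by
    intro t
    have h1 := ((((hphi t).const_sub (phi a)).div_const 2).fun_add
      (((hid t).fun_mul ((hat t).fun_neg.fun_mul (hphi t))).div_const 2)).fun_add
      (((hid t).fun_pow 2).div_const 10)
    refine h1.congr_deriv ?_
    norm_num
    ring
  have hv0 : v 0 = 0 := by simp [hv]
  have hu0 : u 0 = 0 := by simp [hu]
  have hvmono : MonotoneOn v (Set.Ici 0) := by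
    refine monotoneOn_of_deriv_nonneg (convex_Ici 0)
      (fun t _ => (hvd t).continuousAt.continuousWithinAt)
      (fun t _ => (hvd t).differentiableAt.differentiableWithinAt) ?_
    intro t ht
    rw [interior_Ici] at ht
    rw [(hvd t).deriv]
    refine mul_nonneg (le_of_lt ht) ?_
    have h1 := phi_le_two_fifths (a + t)
    have h2 := phi_pos (a + t)
    nlinarith [mul_nonneg (sq_nonneg (a + t)) h2.le]
  have humono : MonotoneOn u (Set.Ici 0) := by
    refine monotoneOn_of_deriv_nonneg (convex_Ici 0)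
      (fun t _ => (hud t).continuousAt.continuousWithinAt)
      (fun t _ => (hud t).differentiableAt.differentiableWithinAt) ?_
    intro t ht
    rw [interior_Ici] at ht
    rw [(hud t).deriv, ← hv0]
    exact hvmono (Set.mem_Ici.2 le_rfl) (Set.mem_Ici.2 (le_of_lt ht)) (le_of_lt ht)
  have h1 := humono (Set.mem_Ici.2 le_rfl) (Set.mem_Ici.2 hh) hh
  rw [hu0] at h1
  simp only [hu] at h1
  linarith

/-! ### soundness of the checker -/

theorem nmin_eq (a b : ℕ) : nmin a b = min a b := by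
  unfold nmin
  rcases h : Nat.ble a b with _ | _
  · have h1 : ¬ a ≤ b := by
      rw [← Nat.ble_eq, h]
      decide
    simp only [cond_false]
    exact (min_eq_right (not_le.1 h1).le).symm
  · have h1 : a ≤ b := Nat.le_of_ble_eq_true h
    simp only [cond_true]
    exact (min_eq_left h1).symm

theorem nmax_eq (a b : ℕ) : nmax a b = max a b := by
  unfold nmax
  rcases h : Nat.ble a b with _ | _
  · have h1 : ¬ a ≤ b := by
      rw [← Nat.ble_eq, h]
      decide
    simp only [cond_false]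
    exact (max_eq_left (not_le.1 h1).le).symm
  · have h1 : a ≤ b := Nat.le_of_ble_eq_true h
    simp only [cond_true]
    exact (max_eq_right h1).symm

/-- the scale -/
noncomputable def sc : ℝ := 1000000000000000000

theorem sc_pos : 0 < sc := by unfold sc; norm_num

/-- what a positive check means -/
theorem nchk_spec {r : NRec} {X q : ℕ} (h : nchk r X q = true) :
    X < r.xlo ∨ r.qhi < q ∨
      (r.k * min X r.xhi + r.b ≤ r.D * max q r.qlo + r.bp ∧
        r.f * r.f * min X r.xhi * 1000000000000000000 ≤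
          (r.D * max q r.qlo + r.bp - (r.k * min X r.xhi + r.b)) *
          (r.D * max q r.qlo + r.bp - (r.k * min X r.xhi + r.b))) := by
  unfold nchk at h
  simp only [nforce_eq, nmin_eq, nmax_eq] at h
  rcases h1 : Nat.blt X r.xlo with _ | _
  · rw [h1, cond_false] at h
    rcases h2 : Nat.blt r.qhi q with _ | _
    · rw [h2, cond_false] at h
      right; right
      rcases h3 : Nat.ble (Nat.add (Nat.mul r.k (min X r.xhi)) r.b)
        (Nat.add (Nat.mul r.D (max q r.qlo)) r.bp) with _ | _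
      · rw [h3, cond_false] at h
        exact absurd h (by decide)
      · rw [h3, cond_true] at h
        exact ⟨Nat.le_of_ble_eq_true h3, Nat.le_of_ble_eq_true h⟩
    · right; left
      exact Nat.le_of_ble_eq_true h2
  · left
    exact Nat.le_of_ble_eq_true h1

theorem nchk_sound {r : NRec} {X q : ℕ} (h : nchk r X q = true) {x y : ℝ} (hx : x ≤ X / sc)
    (hq : q / sc ≤ y) (h1 : r.xlo / sc ≤ x) (h2 : x ≤ r.xhi / sc) (h3 : r.qlo / sc ≤ y)
    (h4 : y ≤ r.qhi / sc) :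
    r.k * x + r.f * Real.sqrt x + r.b / sc ≤ r.D * y + r.bp / sc := by
  have hs := sc_pos
  rcases nchk_spec h with h5 | h5 | ⟨h5, h6⟩
  · exfalso
    have h6 : (X : ℝ) < r.xlo := by exact_mod_cast h5
    have h7 : (X : ℝ) / sc < r.xlo / sc := div_lt_div_of_pos_right h6 hs
    linarith
  · exfalso
    have h6 : (r.qhi : ℝ) < q := by exact_mod_cast h5
    have h7 : (r.qhi : ℝ) / sc < q / sc := div_lt_div_of_pos_right h6 hs
    linarith
  · set m := min X r.xhi with hm
    set z := max q r.qlo with hz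
    set lhs := r.k * m + r.b with hlhs
    set rhs := r.D * z + r.bp with hrhs
    have hxm : x ≤ m / sc := by
      rw [hm, Nat.cast_min, ← min_div_div_right hs.le]
      exact le_min hx h2
    have hzy : (z : ℝ) / sc ≤ y := by
      rw [hz, Nat.cast_max, ← max_div_div_right hs.le]
      exact max_le hq h3
    have hd : ((rhs - lhs : ℕ) : ℝ) = rhs - lhs := Nat.cast_sub h5
    have h7 : (r.f : ℝ) * r.f * m * sc ≤ ((rhs : ℝ) - lhs) * (rhs - lhs) := by
      rw [← hd]
      unfold sc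
      exact_mod_cast h6
    have hnn : (0 : ℝ) ≤ (rhs : ℝ) - lhs := by
      rw [← hd]
      exact Nat.cast_nonneg _
    have h8 : (r.f : ℝ) * Real.sqrt x ≤ ((rhs : ℝ) - lhs) / sc := by
      rw [le_div_iff₀ hs]
      refine le_of_sq_le_sq ?_ hnn
      have h9 : (r.f * Real.sqrt x * sc) ^ 2 = (r.f : ℝ) ^ 2 * (Real.sqrt x) ^ 2 * sc ^ 2 := by ring
      rw [h9]
      have h10 : (Real.sqrt x) ^ 2 ≤ m / sc := by
        rcases le_total 0 x with hx0 | hx0
        · rw [Real.sq_sqrt hx0]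
          exact hxm
        · rw [Real.sqrt_eq_zero_of_nonpos hx0]
          have : (0 : ℝ) ≤ m / sc := div_nonneg (Nat.cast_nonneg _) hs.le
          simpa using this
      calc (r.f : ℝ) ^ 2 * (Real.sqrt x) ^ 2 * sc ^ 2 ≤ (r.f : ℝ) ^ 2 * (m / sc) * sc ^ 2 := by
            gcongr
        _ = (r.f : ℝ) * r.f * m * sc := by
            field_simp
        _ ≤ ((rhs : ℝ) - lhs) ^ 2 := by rw [sq]; exact h7
    have h11 : (r.k : ℝ) * x ≤ r.k * (m / sc) := mul_le_mul_of_nonneg_left hxm (Nat.cast_nonneg _)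
    have h12 : (r.D : ℝ) * (z / sc) ≤ r.D * y := mul_le_mul_of_nonneg_left hzy (Nat.cast_nonneg _)
    have h13 : (lhs : ℝ) / sc = r.k * (m / sc) + r.b / sc := by
      rw [hlhs]; push_cast; ring
    have h14 : (rhs : ℝ) / sc = r.D * (z / sc) + r.bp / sc := by
      rw [hrhs]; push_cast; ring
    have h15 : ((rhs : ℝ) - lhs) / sc = rhs / sc - lhs / sc := by ring
    linarith

/-! ### soundness of the recursion -/

theorem exp_neg_le {x : ℝ} (hx : 0 ≤ x) : Real.exp (-x) ≤ 1 - x + x ^ 2 / 2 := by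
  have h1 := Real.quadratic_le_exp_of_nonneg hx
  rw [Real.exp_neg]
  have h2 : 0 < 1 + x + x ^ 2 / 2 := by positivity
  refine (inv_anti₀ h2 h1).trans ?_
  rw [inv_le_iff_one_le_mul₀ h2]
  nlinarith [sq_nonneg (x ^ 2)]

theorem nf_up (a d : ℕ) (hd : 0 < d) : (a : ℝ) / d ≤ ((Nat.succ (Nat.div a d) : ℕ) : ℝ) := by
  rw [div_le_iff₀ (by exact_mod_cast hd)]
  have h1 : a ≤ Nat.succ (Nat.div a d) * d := by
    rw [mul_comm]
    exact (Nat.lt_mul_div_succ a hd).le
  exact_mod_cast h1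

theorem nf_down (a d : ℕ) : ((Nat.div a d : ℕ) : ℝ) ≤ (a : ℝ) / d := Nat.cast_div_le

/-- invariant of the recursion at the grid point `i / 1000` -/
def NInv (i E R q : ℕ) : Prop :=
  Real.exp (-((i : ℝ) / 1000) ^ 2 / 2) ≤ E / sc ∧
  Real.exp (-(2 * (i : ℝ) + 1) / 2000000) ≤ R / sc ∧
  (q : ℝ) / sc ≤ Q ((i : ℝ) / 1000)

theorem ninv_zero : NInv 0 1000000000000000000 999999500000125001 500000000000000000 := by
  refine ⟨?_, ?_, ?_⟩
  · unfold sc
    norm_num
  · have h1 := exp_neg_le (x := 1 / 2000000) (by norm_num)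
    have h2 : (-(2 * ((0 : ℕ) : ℝ) + 1) / 2000000 : ℝ) = -(1 / 2000000) := by norm_num
    rw [h2]
    refine h1.trans ?_
    unfold sc
    norm_num
  · have h2 : ((0 : ℕ) : ℝ) / 1000 = 0 := by norm_num
    rw [h2, Q_zero]
    unfold sc
    norm_num

theorem nf_mul_up {a b : ℕ} {x y : ℝ} (hx : 0 ≤ x) (hxa : x ≤ a / sc) (hyb : y ≤ b / sc) :
    x * y ≤ ((Nat.succ (Nat.div (Nat.mul a b) 1000000000000000000) : ℕ) : ℝ) / sc := by
  have hs := sc_pos
  have h1 := nf_up (Nat.mul a b) 1000000000000000000 (by norm_num)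
  have h2 : ((Nat.mul a b : ℕ) : ℝ) = a * b := Nat.cast_mul a b
  have h3 : ((1000000000000000000 : ℕ) : ℝ) = sc := by unfold sc; norm_num
  rw [h2, h3] at h1
  rw [le_div_iff₀ hs]
  refine le_trans ?_ h1
  have ha : (0 : ℝ) ≤ a / sc := div_nonneg (Nat.cast_nonneg _) hs.le
  have hb : (0 : ℝ) ≤ b / sc := div_nonneg (Nat.cast_nonneg _) hs.le
  calc x * y * sc ≤ (a / sc) * (b / sc) * sc := by
        apply mul_le_mul_of_nonneg_right _ hs.le
        calc x * y ≤ x * (b / sc) := mul_le_mul_of_nonneg_left hyb hx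
          _ ≤ (a / sc) * (b / sc) := mul_le_mul_of_nonneg_right hxa hb
    _ = (a : ℝ) * b / sc := by field_simp

theorem ninv_E {i E R q : ℕ} (h : NInv i E R q) :
    Real.exp (-(((i + 1 : ℕ) : ℝ) / 1000) ^ 2 / 2) ≤
      ((Nat.succ (Nat.div (Nat.mul E R) 1000000000000000000) : ℕ) : ℝ) / sc := by
  have h1 := nf_mul_up (Real.exp_pos _).le h.1 h.2.1
  rw [← Real.exp_add] at h1
  convert h1 using 2
  push_cast
  ring

theorem ninv_R {i E R q : ℕ} (h : NInv i E R q) :
    Real.exp (-(2 * ((i + 1 : ℕ) : ℝ) + 1) / 2000000) ≤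
      ((Nat.succ (Nat.div (Nat.mul R 999999000000500001) 1000000000000000000) : ℕ) : ℝ) / sc := by
  have h0 : Real.exp (-(1 / 1000000)) ≤ ((999999000000500001 : ℕ) : ℝ) / sc := by
    refine (exp_neg_le (x := 1 / 1000000) (by norm_num)).trans ?_
    unfold sc
    norm_num
  have h1 := nf_mul_up (Real.exp_pos _).le h.2.1 h0
  rw [← Real.exp_add] at h1
  convert h1 using 2
  push_cast
  ring

theorem inv_sqrt_two_pi_le : (Real.sqrt (2 * Real.pi))⁻¹ ≤ ((398942280401432679 : ℕ) : ℝ) / sc := by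
  have hpi := Real.pi_gt_d20
  have h1 : ((398942280401432679 : ℕ) : ℝ) / sc = 0.398942280401432679 := by
    unfold sc
    norm_num
  rw [h1, inv_le_iff_one_le_mul₀ (by positivity)]
  have h2 : (1 : ℝ) / 0.398942280401432679 ≤ Real.sqrt (2 * Real.pi) := by
    apply Real.le_sqrt_of_sq_le
    have h3 : ((1 : ℝ) / 0.398942280401432679) ^ 2 ≤ 2 * 3.14159265358979323846 := by norm_num
    linarith
  rw [div_le_iff₀ (by norm_num)] at h2
  linarith

theorem inv_c0_sq_le : (c0 ^ 2)⁻¹ ≤ ((2792526803190927325 : ℕ) : ℝ) / sc := by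
  have hpi := Real.pi_lt_d20
  rw [nf_c0_sq]
  unfold sc
  rw [inv_div]
  have h1 : ((2792526803190927325 : ℕ) : ℝ) / 1000000000000000000 = 2.792526803190927325 := by
    norm_num
  rw [h1]
  linarith

theorem nP_spec {i E : ℕ} (h : Real.exp (-((i : ℝ) / 1000) ^ 2 / 2) ≤ E / sc) :
    phi ((i : ℝ) / 1000) ≤ (nP E : ℝ) / sc := by
  have h1 := nf_mul_up (by positivity) inv_sqrt_two_pi_le h
  have h2 : phi ((i : ℝ) / 1000) =
      (Real.sqrt (2 * Real.pi))⁻¹ * Real.exp (-((i : ℝ) / 1000) ^ 2 / 2) := by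
    unfold phi
    rw [div_eq_mul_inv, mul_comm]
  rw [h2]
  exact h1

theorem nQ_spec {i q P P1 : ℕ} (hq : (q : ℝ) / sc ≤ Q ((i : ℝ) / 1000))
    (hP : phi ((i : ℝ) / 1000) ≤ (P : ℝ) / sc)
    (hP1 : phi (((i + 1 : ℕ) : ℝ) / 1000) ≤ (P1 : ℝ) / sc) :
    (nQ q P P1 : ℝ) / sc ≤ Q (((i + 1 : ℕ) : ℝ) / 1000) := by
  have hs := sc_pos
  have h1 := Q_step (a := (i : ℝ) / 1000) (h := 1 / 1000) (by norm_num)
  have h2 : (i : ℝ) / 1000 + 1 / 1000 = ((i + 1 : ℕ) : ℝ) / 1000 := by push_cast; ring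
  rw [h2] at h1
  have h3 := nf_up (Nat.add P P1) 2000 (by norm_num)
  have h4 : ((Nat.add P P1 : ℕ) : ℝ) = P + P1 := Nat.cast_add P P1
  rw [h4] at h3
  push_cast at h3
  set t : ℕ := Nat.add (Nat.succ (Nat.div (Nat.add P P1) 2000)) 33333336 with ht
  have h5 : (t : ℝ) = ((Nat.succ (Nat.div (Nat.add P P1) 2000) : ℕ) : ℝ) + 33333336 := by
    rw [ht]
    exact (Nat.cast_add _ _).trans (by norm_num)
  have h6 : ((P : ℝ) + P1) / 2000 + 33333336 ≤ t := by
    rw [h5]
    have : ((Nat.succ (Nat.div (Nat.add P P1) 2000) : ℕ) : ℝ) =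
      ((Nat.div (Nat.add P P1) 2000 : ℕ) : ℝ) + 1 := by push_cast; ring
    linarith
  have h7 : ((q : ℝ) - t) / sc ≤ Q (((i + 1 : ℕ) : ℝ) / 1000) := by
    refine le_trans ?_ h1
    have h8 : ((q : ℝ) - t) / sc = q / sc - t / sc := by ring
    have h9 : (((P : ℝ) + P1) / 2000 + 33333336) / sc ≤ t / sc :=
      div_le_div_of_nonneg_right h6 hs.le
    have h10 : (((P : ℝ) + P1) / 2000 + 33333336) / sc =
        1 / 1000 * (P / sc + P1 / sc) / 2 + 33333336 / sc := by
      field_simp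
      ring
    have h11 : ((1 : ℝ) / 1000) ^ 3 / 30 ≤ 33333336 / sc := by
      unfold sc
      norm_num
    have h12 : (1 / 1000 : ℝ) * (phi ((i : ℝ) / 1000) + phi (((i + 1 : ℕ) : ℝ) / 1000)) / 2 ≤
        1 / 1000 * (P / sc + P1 / sc) / 2 := by linarith
    linarith
  unfold nQ
  rw [← ht]
  rcases le_total t q with h8 | h8
  · have h9 : ((Nat.sub q t : ℕ) : ℝ) = q - t := Nat.cast_sub h8
    rw [h9]
    exact h7
  · have h9 : Nat.sub q t = 0 := Nat.sub_eq_zero_of_le h8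
    rw [h9]
    simpa using (Q_pos _).le

theorem nf_three_up {a b c : ℕ} {x y z : ℝ} (hx : 0 ≤ x) (hy : 0 ≤ y) (hxa : x ≤ a / sc)
    (hyb : y ≤ b / sc) (hzc : z ≤ c / sc) :
    x * y * z ≤ ((Nat.succ (Nat.div (Nat.mul (Nat.mul a b) c)
      1000000000000000000000000000000000000) : ℕ) : ℝ) / sc := by
  have hs := sc_pos
  have h1 := nf_up (Nat.mul (Nat.mul a b) c) 1000000000000000000000000000000000000 (by norm_num)
  have h2 : ((Nat.mul (Nat.mul a b) c : ℕ) : ℝ) = a * b * c :=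
    (Nat.cast_mul _ c).trans (by rw [show ((Nat.mul a b : ℕ) : ℝ) = a * b from Nat.cast_mul a b])
  have h3 : ((1000000000000000000000000000000000000 : ℕ) : ℝ) = sc * sc := by unfold sc; norm_num
  rw [h2, h3] at h1
  rw [le_div_iff₀ hs]
  refine le_trans ?_ h1
  have ha : (0 : ℝ) ≤ a / sc := div_nonneg (Nat.cast_nonneg _) hs.le
  have hb : (0 : ℝ) ≤ b / sc := div_nonneg (Nat.cast_nonneg _) hs.le
  have hc : (0 : ℝ) ≤ c / sc := div_nonneg (Nat.cast_nonneg _) hs.le
  calc x * y * z * sc ≤ (a / sc) * (b / sc) * (c / sc) * sc := by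
        apply mul_le_mul_of_nonneg_right _ hs.le
        calc x * y * z ≤ x * y * (c / sc) := mul_le_mul_of_nonneg_left hzc (mul_nonneg hx hy)
          _ ≤ (a / sc) * (b / sc) * (c / sc) := by
            apply mul_le_mul_of_nonneg_right _ hc
            exact mul_le_mul hxa hyb hy ha
    _ = (a : ℝ) * b * c / (sc * sc) := by field_simp

theorem nY_spec {i q P : ℕ} (hq : (q : ℝ) / sc ≤ Q ((i : ℝ) / 1000))
    (hP : phi ((i : ℝ) / 1000) ≤ (P : ℝ) / sc) :
    yy ((i : ℝ) / 1000) ≤ (nY i P q : ℝ) / sc := by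
  have hs := sc_pos
  have h1 : phi ((i : ℝ) / 1000) - (i : ℝ) / 1000 * Q ((i : ℝ) / 1000) ≤
      ((Nat.sub P (Nat.div (Nat.mul i q) 1000) : ℕ) : ℝ) / sc := by
    have h2 := nf_down (Nat.mul i q) 1000
    have h3 : ((Nat.mul i q : ℕ) : ℝ) = i * q := Nat.cast_mul i q
    rw [h3] at h2
    push_cast at h2
    have h4 : (P : ℝ) - ((Nat.div (Nat.mul i q) 1000 : ℕ) : ℝ) ≤
        ((Nat.sub P (Nat.div (Nat.mul i q) 1000) : ℕ) : ℝ) := by
      rcases le_total (Nat.div (Nat.mul i q) 1000) P with h5 | h5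
      · exact (Nat.cast_sub h5).symm.le
      · have h6 : Nat.sub P (Nat.div (Nat.mul i q) 1000) = 0 := Nat.sub_eq_zero_of_le h5
        rw [h6]
        have : (P : ℝ) ≤ ((Nat.div (Nat.mul i q) 1000 : ℕ) : ℝ) := by exact_mod_cast h5
        push_cast
        linarith
    have h7 : ((P : ℝ) - i * q / 1000) / sc ≤
        ((Nat.sub P (Nat.div (Nat.mul i q) 1000) : ℕ) : ℝ) / sc := by
      apply div_le_div_of_nonneg_right _ hs.le
      linarith
    have h8 : ((P : ℝ) - i * q / 1000) / sc = P / sc - (i : ℝ) / 1000 * (q / sc) := by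
      field_simp
    have h9 : (i : ℝ) / 1000 * (q / sc) ≤ (i : ℝ) / 1000 * Q ((i : ℝ) / 1000) :=
      mul_le_mul_of_nonneg_left hq (by positivity)
    linarith
  have h2 := nf_three_up (x := (c0 ^ 2)⁻¹) (by have := nf_c0_sq_pos; positivity) (phi_pos _).le
    inv_c0_sq_le hP h1
  have h3 : yy ((i : ℝ) / 1000) = (c0 ^ 2)⁻¹ * phi ((i : ℝ) / 1000) *
      (phi ((i : ℝ) / 1000) - (i : ℝ) / 1000 * Q ((i : ℝ) / 1000)) := by
    unfold yy
    rw [div_eq_mul_inv]
    ring
  rw [h3]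
  exact h2

theorem nB_spec {i P : ℕ} (hP : phi ((i : ℝ) / 1000) ≤ (P : ℝ) / sc) :
    phi ((i : ℝ) / 1000) ^ 2 / c0 ^ 2 ≤ (nB P : ℝ) / sc := by
  have h2 := nf_three_up (x := (c0 ^ 2)⁻¹) (by have := nf_c0_sq_pos; positivity) (phi_pos _).le
    inv_c0_sq_le hP hP
  have h3 : phi ((i : ℝ) / 1000) ^ 2 / c0 ^ 2 = (c0 ^ 2)⁻¹ * phi ((i : ℝ) / 1000) *
      phi ((i : ℝ) / 1000) := by
    rw [div_eq_mul_inv]
    ring
  rw [h3]
  exact h2

theorem nX_spec {u v Y B : ℕ} {c y x b : ℝ} (hv : (u : ℝ) / v = c / sc) (hc0 : 0 ≤ c)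
    (hc : c ≤ 4 / 3) (hY : y ≤ Y / sc) (hY2 : (Y : ℝ) / sc ≤ 3 / 4) (hB : b ≤ B / sc)
    (hx1 : x ≤ 2 * y - c * y ^ 2) (hx2 : x ≤ b) : x ≤ (nX u v Y B : ℝ) / sc := by
  have hs := sc_pos
  unfold nX
  rw [nmin_eq, Nat.cast_min, ← min_div_div_right hs.le]
  refine le_min ?_ (hx2.trans hB)
  refine hx1.trans ?_
  have h1 := nf_down (Nat.mul (Nat.mul u Y) Y) v
  have h2 : ((Nat.mul (Nat.mul u Y) Y : ℕ) : ℝ) = u * Y * Y :=
    (Nat.cast_mul _ Y).trans (by rw [show ((Nat.mul u Y : ℕ) : ℝ) = u * Y from Nat.cast_mul u Y])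
  rw [h2] at h1
  have h3 : (u : ℝ) * Y * Y / v = c / sc * Y * Y := by
    rw [← hv]
    ring
  rw [h3] at h1
  have h4 : (2 * (Y : ℝ)) - ((Nat.div (Nat.mul (Nat.mul u Y) Y) v : ℕ) : ℝ) ≤
      ((Nat.sub (Nat.mul 2 Y) (Nat.div (Nat.mul (Nat.mul u Y) Y) v) : ℕ) : ℝ) := by
    have h0 : ((Nat.mul 2 Y : ℕ) : ℝ) = 2 * Y := by
      rw [show ((Nat.mul 2 Y : ℕ) : ℝ) = ((2 : ℕ) : ℝ) * Y from Nat.cast_mul 2 Y]
      norm_num
    rw [← h0]
    rcases le_total (Nat.div (Nat.mul (Nat.mul u Y) Y) v) (Nat.mul 2 Y) with h5 | h5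
    · exact (Nat.cast_sub h5).symm.le
    · have h6 : Nat.sub (Nat.mul 2 Y) (Nat.div (Nat.mul (Nat.mul u Y) Y) v) = 0 :=
        Nat.sub_eq_zero_of_le h5
      rw [h6]
      have : ((Nat.mul 2 Y : ℕ) : ℝ) ≤ ((Nat.div (Nat.mul (Nat.mul u Y) Y) v : ℕ) : ℝ) := by
        exact_mod_cast h5
      push_cast at this ⊢
      linarith
  have h7 : (2 * (Y : ℝ) - c / sc * Y * Y) / sc ≤
      ((Nat.sub (Nat.mul 2 Y) (Nat.div (Nat.mul (Nat.mul u Y) Y) v) : ℕ) : ℝ) / sc := by
    apply div_le_div_of_nonneg_right _ hs.le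
    linarith
  have h8 : (2 * (Y : ℝ) - c / sc * Y * Y) / sc = 2 * (Y / sc) - c * (Y / sc) ^ 2 := by
    field_simp
  rw [h8] at h7
  refine le_trans ?_ h7
  set z := (Y : ℝ) / sc with hz
  have h9 : 0 ≤ (z - y) * (2 - c * (z + y)) := by
    apply mul_nonneg (sub_nonneg.2 hY)
    have h10 : c * (z + y) ≤ 4 / 3 * (3 / 2) := by
      have h11 : z + y ≤ 3 / 2 := by linarith
      rcases le_total 0 (z + y) with h12 | h12
      · exact mul_le_mul hc h11 h12 (by norm_num)
      · have := mul_nonpos_of_nonneg_of_nonpos hc0 h12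
        linarith
    linarith
  nlinarith

/-- admissibility for the different kinds of facts -/
def RA (c : ℕ) (τ x : ℝ) : Prop :=
  match c with
  | 0 => Adm 1 τ x
  | 1 => Adm (7 / 6) τ x
  | 2 => Adm (5 / 4) τ x
  | _ => 0 ≤ τ ∧ x ≤ yy τ

theorem nsel_sound {c X0 X1 X2 X3 : ℕ} {τ x : ℝ} (h0 : Adm 1 τ x → x ≤ X0 / sc)
    (h1 : Adm (7 / 6) τ x → x ≤ X1 / sc) (h2 : Adm (5 / 4) τ x → x ≤ X2 / sc)
    (h3 : 0 ≤ τ ∧ x ≤ yy τ → x ≤ X3 / sc) (hra : RA c τ x) :
    x ≤ (nsel c X0 X1 X2 X3 : ℕ) / sc :=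
  match c, hra with
  | 0, hra => h0 hra
  | 1, hra => h1 hra
  | 2, hra => h2 hra
  | _ + 3, hra => h3 hra

theorem nf_uv0 : ((1 : ℕ) : ℝ) / ((1000000000000000000 : ℕ) : ℝ) = 1 / sc := by
  unfold sc
  norm_num

theorem nf_uv1 : ((7 : ℕ) : ℝ) / ((6000000000000000000 : ℕ) : ℝ) = 7 / 6 / sc := by
  unfold sc
  norm_num

theorem nf_uv2 : ((5 : ℕ) : ℝ) / ((4000000000000000000 : ℕ) : ℝ) = 5 / 4 / sc := by
  unfold sc
  norm_num

/-- all facts hold on the cell number `j` -/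
def NGood (j : ℕ) : Prop :=
  ∀ r ∈ nfacts, ∀ τ x : ℝ, (j : ℝ) / 1000 ≤ τ → τ ≤ ((j + 1 : ℕ) : ℝ) / 1000 → RA r.c τ x →
    r.xlo / sc ≤ x → x ≤ r.xhi / sc → r.qlo / sc ≤ Q τ → Q τ ≤ r.qhi / sc →
    r.k * x + r.f * Real.sqrt x + r.b / sc ≤ r.D * Q τ + r.bp / sc

theorem nchkAll_spec {X0 X1 X2 X3 q : ℕ} {l : List NRec} (h : nchkAll X0 X1 X2 X3 q l = true) :
    ∀ r ∈ l, nchk r (nsel r.c X0 X1 X2 X3) q = true := by
  induction l with
  | nil => simp
  | cons a l ih =>
    unfold nchkAll at h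
    rcases h1 : nchk a (nsel a.c X0 X1 X2 X3) q with _ | _
    · rw [h1, cond_false] at h
      exact absurd h (by decide)
    · rw [h1, cond_true] at h
      intro r hr
      rcases List.mem_cons.1 hr with rfl | hr
      · exact h1
      · exact ih h r hr

/-- monotonicity of the admissible bounds in `τ` -/
theorem ra_le {c : ℝ} {t τ x : ℝ} (hc : c ≤ 4 / 3) (ht : 0 ≤ t) (htτ : t ≤ τ)
    (h : Adm c τ x) (hy34 : yy t ≤ 3 / 4) :
    x ≤ 2 * yy t - c * yy t ^ 2 ∧ x ≤ phi t ^ 2 / c0 ^ 2 := by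
  obtain ⟨h1, h2, h3, h4⟩ := h
  have hy := yy_anti ht htτ
  have hy0 := yy_nonneg h1
  refine ⟨h3.trans ?_, ?_⟩
  · have h9 : 0 ≤ (yy t - yy τ) * (2 - c * (yy t + yy τ)) := by
      apply mul_nonneg (sub_nonneg.2 hy)
      have h10 : c * (yy t + yy τ) ≤ 4 / 3 * (3 / 2) :=
        mul_le_mul hc (by linarith) (by linarith) (by norm_num)
      linarith
    nlinarith
  · rw [le_div_iff₀ nf_c0_sq_pos, mul_comm]
    exact h4.trans (pow_le_pow_left₀ (phi_pos τ).le (nf_phi_anti ht htτ) 2)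

theorem ngo_succ (n i E R q E' R' q' : ℕ) : ngo (n + 1) i E R q E' R' q' =
      (nforce (Nat.succ (Nat.div (Nat.mul E R) 1000000000000000000)) fun E1 =>
      nforce (Nat.succ (Nat.div (Nat.mul R 999999000000500001) 1000000000000000000)) fun R1 =>
      nforce (nP E) fun P =>
      nforce (nQ q P (nP E1)) fun q1 =>
      nforce (nY i P q) fun Y =>
      nforce (nB P) fun B =>
      nforce (nX 1 1000000000000000000 Y B) fun X0 =>
      nforce (nX 7 6000000000000000000 Y B) fun X1 =>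
      nforce (nX 5 4000000000000000000 Y B) fun X2 =>
      cond (Nat.ble Y 750000000000000000)
        (cond (nchkAll X0 X1 X2 Y q1 nfacts)
          (ngo n (Nat.succ i) E1 R1 q1 E' R' q') false) false) := rfl

theorem ngo_zero (i E R q E' R' q' : ℕ) : ngo 0 i E R q E' R' q' =
    cond (Nat.beq E E') (cond (Nat.beq R R') (Nat.beq q q') false) false := rfl

theorem cond_left {a b : Bool} (h : cond a b false = true) : a = true ∧ b = true := by
  cases a
  · exact absurd h (by simp)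
  · exact ⟨rfl, h⟩

theorem ngo_sound (n : ℕ) : ∀ i E R q E' R' q' : ℕ, ngo n i E R q E' R' q' = true →
    NInv i E R q → NInv (i + n) E' R' q' ∧ ∀ j, i ≤ j → j < i + n → NGood j := by
  induction n with
  | zero =>
    intro i E R q E' R' q' h hinv
    rw [ngo_zero] at h
    obtain ⟨h1, h2⟩ := cond_left h
    obtain ⟨h2, h3⟩ := cond_left h2
    have e1 := Nat.eq_of_beq_eq_true h1
    have e2 := Nat.eq_of_beq_eq_true h2
    have e3 := Nat.eq_of_beq_eq_true h3
    subst e1 e2 e3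
    refine ⟨hinv, fun j h1 h2 => ?_⟩
    omega
  | succ n ih =>
    intro i E R q E' R' q' h hinv
    rw [ngo_succ] at h
    simp only [nforce_eq] at h
    obtain ⟨hY34, h⟩ := cond_left h
    obtain ⟨hchk, h⟩ := cond_left h
    have hs := sc_pos
    have hE1 := ninv_E hinv
    have hR1 := ninv_R hinv
    have hP := nP_spec hinv.1
    have hP1 := nP_spec hE1
    have hq1 := nQ_spec hinv.2.2 hP hP1
    have hY := nY_spec hinv.2.2 hP
    have hB := nB_spec hP
    have hinv1 : NInv (Nat.succ i) (Nat.succ (Nat.div (Nat.mul E R) 1000000000000000000))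
      (Nat.succ (Nat.div (Nat.mul R 999999000000500001) 1000000000000000000))
      (nQ q (nP E) (nP (Nat.succ (Nat.div (Nat.mul E R) 1000000000000000000)))) :=
      ⟨hE1, hR1, hq1⟩
    obtain ⟨h1, h2⟩ := ih _ _ _ _ _ _ _ h hinv1
    refine ⟨?_, ?_⟩
    · have e : i + (n + 1) = Nat.succ i + n := by omega
      rw [e]
      exact h1
    · intro j hj1 hj2
      rcases Nat.lt_or_ge i j with hij | hij
      · exact h2 j hij (by omega)
      · have e : j = i := le_antisymm hij hj1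
        subst e
        have hY34' : ((nY j (nP E) q : ℕ) : ℝ) / sc ≤ 3 / 4 := by
          have h3 := Nat.le_of_ble_eq_true hY34
          have h4 : ((nY j (nP E) q : ℕ) : ℝ) ≤ 750000000000000000 := by exact_mod_cast h3
          rw [div_le_iff₀ hs]
          unfold sc
          linarith
        intro r hr τ x hτ1 hτ2 hra hx1 hx2 hq2 hq3
        have hc := nchkAll_spec hchk r hr
        have ht0 : (0 : ℝ) ≤ (j : ℝ) / 1000 := by positivity
        have hQ := hq1.trans (nf_Q_anti hτ2)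
        refine nchk_sound hc (nsel_sound ?_ ?_ ?_ ?_ hra) hQ hx1 hx2 hq2 hq3
        · intro hra
          obtain ⟨k1, k2⟩ := ra_le (by norm_num) ht0 hτ1 hra (hY.trans hY34')
          exact nX_spec (u := 1) (v := 1000000000000000000) (c := 1) nf_uv0 (by norm_num)
            (by norm_num) hY hY34' hB k1 k2
        · intro hra
          obtain ⟨k1, k2⟩ := ra_le (by norm_num) ht0 hτ1 hra (hY.trans hY34')
          exact nX_spec (u := 7) (v := 6000000000000000000) (c := 7 / 6) nf_uv1 (by norm_num)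
            (by norm_num) hY hY34' hB k1 k2
        · intro hra
          obtain ⟨k1, k2⟩ := ra_le (by norm_num) ht0 hτ1 hra (hY.trans hY34')
          exact nX_spec (u := 5) (v := 4000000000000000000) (c := 5 / 4) nf_uv2 (by norm_num)
            (by norm_num) hY hY34' hB k1 k2
        · intro hra
          exact hra.2.trans ((yy_anti ht0 hτ1).trans hY)

end Vale.Agent.P226
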