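import Vale.Agent.Lib.P226.Final

/-!
P226: the propeller attains the bound, and the bound for partitions up to null sets.
-/

open MeasureTheory ProbabilityTheory Filter
open scoped RealInnerProductSpace Topology

namespace Vale.Agent.P226

variable {E : Type*} [NormedAddCommGroup E] [InnerProductSpace ℝ E]
  [FiniteDimensional ℝ E] [MeasurableSpace E] [BorelSpace E]

/-- the mean of the maximum of three linear forms -/
theorem hval_three (v : Fin 3 → E) :
    hval v = (‖v 0 - v 1‖ + ‖v 1 - v 2‖ + ‖v 0 - v 2‖) / (2 * Real.sqrt (2 * Real.pi)) := by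
  have hI := integrable_iSup v
  have hI' : Integrable (fun x : E => ⨆ i, ⟪v i, -x⟫) (stdGaussian E) := by
    have := integrable_iSup (fun i => - v i)
    refine this.congr (ae_of_all _ fun x => ?_)
    simp [inner_neg_left, inner_neg_right]
  have h2 : 2 * hval v = ∫ x, ((⨆ i, ⟪v i, x⟫) + (⨆ i, ⟪v i, -x⟫)) ∂(stdGaussian E) := by
    rw [integral_add hI hI', integral_comp_neg_stdGaussian (fun x => ⨆ i, ⟪v i, x⟫), hval]
    ring
  have hA : ∀ u : E, Integrable (fun x : E => |⟪u, x⟫|) (stdGaussian E) := fun u =>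
    (integrable_inner u).abs
  have h3 : ∀ x : E, (⨆ i, ⟪v i, x⟫) + (⨆ i, ⟪v i, -x⟫) =
      (|⟪v 0 - v 1, x⟫| + |⟪v 1 - v 2, x⟫| + |⟪v 0 - v 2, x⟫|) * (1 / 2) := by
    intro x
    rw [iSup_fin3, iSup_fin3]
    simp only [inner_neg_right, inner_sub_left]
    rw [max_add_max_neg]
    ring
  simp_rw [h3] at h2
  have h12 : Integrable (fun x : E => |⟪v 0 - v 1, x⟫| + |⟪v 1 - v 2, x⟫|) (stdGaussian E) :=
    (hA _).add (hA _)
  rw [integral_mul_const, integral_add h12 (hA _), integral_add (hA _) (hA _),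
    integral_abs_inner, integral_abs_inner, integral_abs_inner] at h2
  have hpi : 0 < Real.sqrt (2 * Real.pi) := Real.sqrt_pos.2 (by positivity)
  field_simp
  field_simp at h2
  linarith

omit [FiniteDimensional ℝ E] [MeasurableSpace E] [BorelSpace E] in
/-- `k` forms, all but three of them zero, the three summing to zero -/
theorem iSup_extend {k : ℕ} (hk : 3 ≤ k) (v : Fin 3 → E) (h0 : v 0 + v 1 + v 2 = 0) (x : E) :
    (⨆ i : Fin k, ⟪(if h : (i : ℕ) < 3 then v ⟨i, h⟩ else 0 : E), x⟫) = ⨆ i, ⟪v i, x⟫ := by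
  have : Nonempty (Fin k) := ⟨⟨0, by omega⟩⟩
  have hb : BddAbove (Set.range fun i => ⟪v i, x⟫) := (Set.finite_range _).bddAbove
  have hb' : BddAbove (Set.range fun i : Fin k =>
      ⟪(if h : (i : ℕ) < 3 then v ⟨i, h⟩ else 0 : E), x⟫) := (Set.finite_range _).bddAbove
  have hs : ⟪v 0, x⟫ + ⟪v 1, x⟫ + ⟪v 2, x⟫ = 0 := by
    rw [← inner_add_left, ← inner_add_left, h0, inner_zero_left]
  have hpos : 0 ≤ ⨆ i, ⟪v i, x⟫ := by
    have a0 := le_ciSup hb 0
    have a1 := le_ciSup hb 1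
    have a2 := le_ciSup hb 2
    linarith
  apply le_antisymm
  · refine ciSup_le fun i => ?_
    by_cases h : (i : ℕ) < 3
    · simp only [h, dif_pos]
      exact le_ciSup hb _
    · simp only [h, dif_neg, not_false_iff, inner_zero_left]
      exact hpos
  · refine ciSup_le fun j => ?_
    have hj : ((⟨(j : ℕ), by omega⟩ : Fin k) : ℕ) < 3 := j.2
    have := le_ciSup hb' (⟨(j : ℕ), by omega⟩ : Fin k)
    simp only [hj, dif_pos] at this
    exact this

/-- the value of the propeller -/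
theorem propeller_lower {k : ℕ} (hk : 3 ≤ k) (e f : E) (he : ‖e‖ = 1) (hf : ‖f‖ = 1)
    (hef : ⟪e, f⟫ = 0) :
    ∃ A : Fin k → Set E, (∀ i, MeasurableSet (A i)) ∧ (∀ i j, i ≠ j → Disjoint (A i) (A j)) ∧
      (⋃ i, A i) = Set.univ ∧
      9 / (8 * Real.pi) ≤ ∑ i, ‖∫ x in A i, x ∂(stdGaussian E)‖ ^ 2 := by
  have : Nonempty (Fin k) := ⟨⟨0, by omega⟩⟩
  set v : Fin 3 → E := ![e, (-(1 / 2) : ℝ) • e + (Real.sqrt 3 / 2) • f,
    (-(1 / 2) : ℝ) • e - (Real.sqrt 3 / 2) • f] with hv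
  have h3 : Real.sqrt 3 ^ 2 = 3 := Real.sq_sqrt (by norm_num)
  have hv0 : v 0 = e := rfl
  have hv1 : v 1 = (-(1 / 2) : ℝ) • e + (Real.sqrt 3 / 2) • f := rfl
  have hv2 : v 2 = (-(1 / 2) : ℝ) • e - (Real.sqrt 3 / 2) • f := rfl
  have hgen : ∀ a b : ℝ, ‖a • e + b • f‖ ^ 2 = a ^ 2 + b ^ 2 := by
    intro a b
    rw [norm_add_sq_real, norm_smul, norm_smul, he, hf, inner_smul_left, inner_smul_right, hef]
    simp
  have hsum : v 0 + v 1 + v 2 = 0 := by
    rw [hv0, hv1, hv2]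
    module
  have hn0 : ‖v 0‖ ^ 2 = 1 := by rw [hv0, he]; norm_num
  have hn1 : ‖v 1‖ ^ 2 = 1 := by rw [hv1, hgen]; nlinarith
  have hn2 : ‖v 2‖ ^ 2 = 1 := by
    rw [hv2, sub_eq_add_neg, ← neg_smul, hgen]; nlinarith
  have hroot : ∀ u : E, ‖u‖ ^ 2 = 3 → ‖u‖ = Real.sqrt 3 := by
    intro u hu
    rw [← hu, Real.sqrt_sq (norm_nonneg u)]
  have d01 : ‖v 0 - v 1‖ = Real.sqrt 3 := by
    apply hroot
    have : v 0 - v 1 = (3 / 2 : ℝ) • e + (-(Real.sqrt 3 / 2)) • f := by rw [hv0, hv1]; module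
    rw [this, hgen]; nlinarith
  have d12 : ‖v 1 - v 2‖ = Real.sqrt 3 := by
    apply hroot
    have : v 1 - v 2 = (0 : ℝ) • e + (Real.sqrt 3) • f := by rw [hv1, hv2]; module
    rw [this, hgen]; nlinarith
  have d02 : ‖v 0 - v 2‖ = Real.sqrt 3 := by
    apply hroot
    have : v 0 - v 2 = (3 / 2 : ℝ) • e + (Real.sqrt 3 / 2) • f := by rw [hv0, hv2]; module
    rw [this, hgen]; nlinarith
  set w : Fin k → E := fun i => if h : (i : ℕ) < 3 then v ⟨i, h⟩ else 0 with hw
  have hval_w : hval w = 3 * Real.sqrt 3 / (2 * Real.sqrt (2 * Real.pi)) := by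
    have h1 : hval w = hval v := by
      unfold hval
      refine integral_congr_ae (ae_of_all _ fun x => ?_)
      exact iSup_extend hk v hsum x
    rw [h1, hval_three, d01, d12, d02]
    ring
  have hwsum : ∑ i, ‖w i‖ ^ 2 = 3 := by
    have h1 : ∑ i : Fin k, ‖w i‖ ^ 2 =
        ∑ i ∈ Finset.range k, (if h : i < 3 then ‖v ⟨i, h⟩‖ ^ 2 else 0) := by
      rw [Finset.sum_range]
      refine Finset.sum_congr rfl fun i _ => ?_
      by_cases h : (i : ℕ) < 3
      · simp only [hw, h, dif_pos]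
      · simp [hw, h]
    rw [h1, ← Finset.sum_subset (s₁ := Finset.range 3)]
    · rw [Finset.sum_range_succ, Finset.sum_range_succ, Finset.sum_range_succ,
        Finset.sum_range_zero]
      have a0 : ‖v ⟨0, by norm_num⟩‖ ^ 2 = 1 := hn0
      have a1 : ‖v ⟨1, by norm_num⟩‖ ^ 2 = 1 := hn1
      have a2 : ‖v ⟨2, by norm_num⟩‖ ^ 2 = 1 := hn2
      simp only [a0, a1, a2, dif_pos, Nat.ofNat_pos, Nat.one_lt_ofNat, Nat.reduceLT]
      norm_num
    · intro i hi
      rw [Finset.mem_range] at hi ⊢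
      omega
    · intro i _ hi
      rw [Finset.mem_range] at hi
      simp [hi]
  set A : Fin k → Set E := CritEx.tcell (fun i : Fin k => (i : ℕ)) w with hA
  have hAm : ∀ i, MeasurableSet (A i) := fun i => CritEx.measurableSet_tcell _ w i
  have hAd : Pairwise (fun i j => Disjoint (A i) (A j)) :=
    CritEx.disjoint_tcell (fun i j hij => Fin.ext hij) w
  have hAc : (⋃ i, A i) = Set.univ := CritEx.iUnion_tcell _ w
  refine ⟨A, hAm, fun i j hij => hAd hij, hAc, ?_⟩
  set z : Fin k → E := fun i => ∫ x in A i, x ∂(stdGaussian E) with hz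
  have hz1 : ∑ i, ⟪w i, z i⟫ = hval w :=
    CritEx.sum_inner_eq w A hAm hAd hAc fun i x hx j => (hx j).1
  -- Cauchy-Schwarz through the square of the difference
  set S := ∑ i, ‖z i‖ ^ 2 with hS
  have hcs : 0 ≤ ∑ i, ‖z i - (hval w / 3) • w i‖ ^ 2 := by positivity
  have hexp : ∑ i, ‖z i - (hval w / 3) • w i‖ ^ 2 = S - (hval w) ^ 2 / 3 := by
    have h2 : ∀ i, ‖z i - (hval w / 3) • w i‖ ^ 2 =
        ‖z i‖ ^ 2 - 2 * (hval w / 3) * ⟪w i, z i⟫ + (hval w / 3) ^ 2 * ‖w i‖ ^ 2 := by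
      intro i
      rw [norm_sub_sq_real, inner_smul_right, norm_smul, mul_pow, real_inner_comm,
        Real.norm_eq_abs, sq_abs]
      ring
    rw [Finset.sum_congr rfl fun i _ => h2 i, Finset.sum_add_distrib, Finset.sum_sub_distrib,
      ← Finset.mul_sum, ← Finset.mul_sum, hz1, hwsum, hS]
    ring
  have hfin : (hval w) ^ 2 / 3 = 9 / (8 * Real.pi) := by
    rw [hval_w, div_pow, mul_pow, mul_pow, h3, Real.sq_sqrt (by positivity)]
    field_simp
    norm_num
  rw [hexp, hfin] at hcs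
  linarith

/-- upper bound for partitions up to null sets -/
theorem main_partition_ae {k : ℕ} (A : Fin k → Set E)
    (hA : ∀ i, NullMeasurableSet (A i) (stdGaussian E))
    (hdisj : ∀ i j, i ≠ j → (stdGaussian E) (A i ∩ A j) = 0)
    (hcov : (stdGaussian E) (⋃ i, A i)ᶜ = 0) :
    ∑ i, ‖∫ x in A i, x ∂(stdGaussian E)‖ ^ 2 ≤ 9 / (8 * Real.pi) := by
  have : Nonempty (Fin k) := by
    by_contra hne
    rw [not_nonempty_iff] at hne
    rw [Set.iUnion_of_empty, Set.compl_empty, measure_univ] at hcov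
    exact one_ne_zero hcov
  set z : Fin k → E := fun i => ∫ x in A i, x ∂(stdGaussian E) with hz
  have hd : Pairwise (Function.onFun (AEDisjoint (stdGaussian E)) A) := fun i j hij =>
    hdisj i j hij
  have hAE : (⋃ i, A i : Set E) =ᵐ[stdGaussian E] Set.univ := by
    rw [ae_eq_univ]
    exact hcov
  have key : ∑ i, ‖z i‖ ^ 2 ≤ hval z := by
    unfold hval
    rw [← setIntegral_univ (μ := stdGaussian E), ← setIntegral_congr_set hAE,
      integral_iUnion_ae hA hd (CritEx.integrable_mx z).integrableOn, tsum_fintype]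
    refine Finset.sum_le_sum fun i _ => ?_
    rw [← real_inner_self_eq_norm_sq]
    change ⟪z i, ∫ x in A i, x ∂(stdGaussian E)⟫ ≤ _
    rw [← CritEx.integral_inner']
    exact setIntegral_mono (integrable_id_stdGaussian.const_inner (z i)).integrableOn
      (CritEx.integrable_mx z).integrableOn fun x => CritEx.le_mx z x i
  rw [← c0_sq]
  exact CritEx.le_sq_of_le (by positivity) c0_pos.le (key.trans (main_hval _ _ rfl z))

end Vale.Agent.P226
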