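import Vale.Agent.Lib.P226.Defs

/-!
P226, job J4 (Sector.lean).  Gaussian measure of a two-dimensional sector.

The law of `(⟪e₁,x⟫, ⟪e₂,x⟫)` for an orthonormal pair is the product of two standard Gaussians
(characteristic functions); then polar coordinates in the plane.
-/

open MeasureTheory ProbabilityTheory Filter
open scoped RealInnerProductSpace Topology

namespace Vale.Agent.P226

section plane

open scoped ENNReal

/-- the standard Gaussian law on `ℝ × ℝ` -/
noncomputable def gg : Measure (ℝ × ℝ) := (gaussianReal 0 1).prod (gaussianReal 0 1)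

instance : IsProbabilityMeasure gg := by unfold gg; infer_instance

/-- the radial integral -/
noncomputable def radI : ℝ≥0∞ :=
  ∫⁻ r in Set.Ioi (0:ℝ), ENNReal.ofReal r * ENNReal.ofReal (Real.exp (-(r ^ 2) / 2))

theorem pdf_mul_pdf (r φ : ℝ) :
    gaussianPDF 0 1 (r * Real.cos φ) * gaussianPDF 0 1 (r * Real.sin φ) =
      ENNReal.ofReal (Real.exp (-(r ^ 2) / 2)) * ENNReal.ofReal (1 / (2 * Real.pi)) := by
  unfold gaussianPDF
  rw [← ENNReal.ofReal_mul (gaussianPDFReal_nonneg _ _ _), ← ENNReal.ofReal_mul (Real.exp_nonneg _)]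
  congr 1
  unfold gaussianPDFReal
  have h2 : (√(2 * Real.pi * ((1 : NNReal) : ℝ)))⁻¹ * (√(2 * Real.pi * ((1 : NNReal) : ℝ)))⁻¹ =
      1 / (2 * Real.pi) := by
    rw [← mul_inv, Real.mul_self_sqrt (by positivity)]
    simp
  calc _ = ((√(2 * Real.pi * ((1 : NNReal) : ℝ)))⁻¹ * (√(2 * Real.pi * ((1 : NNReal) : ℝ)))⁻¹) *
        (Real.exp (-(r * Real.cos φ - 0) ^ 2 / (2 * ((1 : NNReal) : ℝ))) *
          Real.exp (-(r * Real.sin φ - 0) ^ 2 / (2 * ((1 : NNReal) : ℝ)))) := by ring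
    _ = _ := by
      rw [h2, ← Real.exp_add, mul_comm]
      congr 2
      have := Real.sin_sq_add_cos_sq φ
      simp only [sub_zero, NNReal.coe_one, mul_one]
      have h3 : Real.sin φ ^ 2 = 1 - Real.cos φ ^ 2 := by linarith
      rw [mul_pow, mul_pow, h3]
      ring

theorem gg_polar {S : Set (ℝ × ℝ)} (hS : MeasurableSet S) {B : Set ℝ} (hB : MeasurableSet B)
    (h : ∀ r φ : ℝ, 0 < r → φ ∈ Set.Ioo (-Real.pi) Real.pi →
      ((r * Real.cos φ, r * Real.sin φ) ∈ S ↔ φ ∈ B)) :
    gg S = radI * (ENNReal.ofReal (1 / (2 * Real.pi)) *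
      volume (B ∩ Set.Ioo (-Real.pi) Real.pi)) := by
  unfold gg
  rw [gaussianReal_of_var_ne_zero _ one_ne_zero,
    prod_withDensity (measurable_gaussianPDF 0 1) (measurable_gaussianPDF 0 1),
    withDensity_apply _ hS, ← lintegral_indicator hS]
  change ∫⁻ p : ℝ × ℝ, _ ∂(volume) = _
  rw [← lintegral_comp_polarCoord_symm]
  have key : ∀ p ∈ polarCoord.target,
      ENNReal.ofReal p.1 • S.indicator (fun z : ℝ × ℝ => gaussianPDF 0 1 z.1 * gaussianPDF 0 1 z.2)
        (polarCoord.symm p) =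
      (ENNReal.ofReal p.1 * ENNReal.ofReal (Real.exp (-(p.1 ^ 2) / 2))) *
        (B.indicator (fun _ => ENNReal.ofReal (1 / (2 * Real.pi))) p.2) := by
    rintro ⟨r, φ⟩ hp
    simp only [polarCoord_target, Set.mem_prod, Set.mem_Ioi] at hp
    have hiff := h r φ hp.1 hp.2
    simp only [polarCoord_symm_apply, smul_eq_mul]
    by_cases hφ : φ ∈ B
    · rw [Set.indicator_of_mem (hiff.2 hφ), Set.indicator_of_mem hφ, pdf_mul_pdf, mul_assoc]
    · rw [Set.indicator_of_notMem (fun h' => hφ (hiff.1 h')), Set.indicator_of_notMem hφ]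
      simp
  rw [setLIntegral_congr_fun polarCoord.open_target.measurableSet key, polarCoord_target]
  change ∫⁻ p in Set.Ioi (0:ℝ) ×ˢ Set.Ioo (-Real.pi) Real.pi, _ ∂((volume : Measure ℝ).prod volume)
    = _
  rw [← Measure.prod_restrict]
  have hf1 : Measurable (fun r : ℝ => ENNReal.ofReal r * ENNReal.ofReal (Real.exp (-(r ^ 2) / 2))) := by
    fun_prop
  have hg1 : Measurable (B.indicator (fun _ : ℝ => ENNReal.ofReal (1 / (2 * Real.pi)))) :=
    measurable_const.indicator hB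
  have hprod := lintegral_prod_mul (μ := (volume : Measure ℝ).restrict (Set.Ioi (0:ℝ)))
    (ν := (volume : Measure ℝ).restrict (Set.Ioo (-Real.pi) Real.pi))
    hf1.aemeasurable hg1.aemeasurable
  rw [hprod]
  congr 1
  rw [lintegral_indicator hB, setLIntegral_const, Measure.restrict_apply hB]

theorem radI_eq : radI = 1 := by
  have h := gg_polar MeasurableSet.univ MeasurableSet.univ (by simp)
  rw [measure_univ, Set.univ_inter, Real.volume_Ioo, ← ENNReal.ofReal_mul (by positivity)] at h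
  have h2 : 1 / (2 * Real.pi) * (Real.pi - -Real.pi) = 1 := by
    field_simp; ring
  rw [h2, ENNReal.ofReal_one, mul_one] at h
  exact h.symm

theorem gg_sector {θ : ℝ} (h0 : 0 ≤ θ) (hpi : θ ≤ Real.pi) :
    gg {p | 0 < p.1 ∧ Real.cos θ * p.1 + Real.sin θ * p.2 < 0} =
      ENNReal.ofReal (θ / (2 * Real.pi)) := by
  have hS : MeasurableSet {p : ℝ × ℝ | 0 < p.1 ∧ Real.cos θ * p.1 + Real.sin θ * p.2 < 0} := by
    apply MeasurableSet.inter
    · exact measurableSet_lt measurable_const measurable_fst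
    · have hm : Measurable (fun p : ℝ × ℝ => Real.cos θ * p.1 + Real.sin θ * p.2) := by fun_prop
      exact measurableSet_lt hm measurable_const
  rw [gg_polar hS (B := Set.Ioo (-(Real.pi / 2)) (θ - Real.pi / 2)) measurableSet_Ioo, radI_eq,
    one_mul]
  · have hsub : Set.Ioo (-(Real.pi / 2)) (θ - Real.pi / 2) ∩ Set.Ioo (-Real.pi) Real.pi =
        Set.Ioo (-(Real.pi / 2)) (θ - Real.pi / 2) := by
      apply Set.inter_eq_left.2
      intro x hx
      have := Real.pi_pos
      exact ⟨by linarith [hx.1], by linarith [hx.2]⟩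
    rw [hsub, Real.volume_Ioo, ← ENNReal.ofReal_mul (by positivity)]
    congr 1
    field_simp
    ring
  · intro r φ hr hφ
    have hpos := Real.pi_pos
    simp only [Set.mem_ofPred_eq, Set.mem_Ioo]
    have e1 : Real.cos θ * (r * Real.cos φ) + Real.sin θ * (r * Real.sin φ) =
        r * Real.cos (θ - φ) := by rw [Real.cos_sub]; ring
    rw [e1, mul_pos_iff_of_pos_left hr]
    have e2 : r * Real.cos (θ - φ) < 0 ↔ Real.cos (θ - φ) < 0 := by
      constructor
      · intro h; by_contra h'; push Not at h'; nlinarith [mul_nonneg hr.le h']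
      · intro h; nlinarith
    rw [e2]
    constructor
    · rintro ⟨h1, h2⟩
      have hφ1 : -(Real.pi / 2) < φ := by
        by_contra hc
        push Not at hc
        have : Real.cos φ ≤ 0 := by
          rw [← Real.cos_neg]
          exact Real.cos_nonpos_of_pi_div_two_le_of_le (by linarith) (by linarith [hφ.1])
        linarith
      have hφ2 : φ < Real.pi / 2 := by
        by_contra hc
        push Not at hc
        have : Real.cos φ ≤ 0 :=
          Real.cos_nonpos_of_pi_div_two_le_of_le (by linarith) (by linarith [hφ.2])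
        linarith
      refine ⟨hφ1, ?_⟩
      by_contra hc
      push Not at hc
      have : 0 ≤ Real.cos (θ - φ) :=
        Real.cos_nonneg_of_neg_pi_div_two_le_of_le (by linarith) (by linarith)
      linarith
    · rintro ⟨h1, h2⟩
      refine ⟨Real.cos_pos_of_mem_Ioo ⟨by linarith, by linarith⟩, ?_⟩
      exact Real.cos_neg_of_pi_div_two_lt_of_lt (by linarith) (by linarith)

end plane

variable {E : Type*} [NormedAddCommGroup E] [InnerProductSpace ℝ E]
  [FiniteDimensional ℝ E] [MeasurableSpace E] [BorelSpace E]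

theorem map_inner_stdGaussian {e : E} (he : ‖e‖ = 1) :
    (stdGaussian E).map (fun x => ⟪e, x⟫) = gaussianReal 0 1 := by
  apply Measure.ext_of_charFun
  ext t
  rw [charFun_apply, integral_map (by fun_prop) (by fun_prop), charFun_gaussianReal]
  have := charFun_stdGaussian (t • e)
  rw [charFun_apply] at this
  have h2 : ∀ x : E, ⟪(⟪e, x⟫ : ℝ), t⟫ = ⟪x, t • e⟫ := by
    intro x
    rw [real_inner_smul_right, real_inner_comm x e]
    simp
  simp_rw [h2]
  have h5 : (‖t • e‖ : ℂ) ^ 2 = (t : ℂ) ^ 2 := by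
    have : ‖t • e‖ ^ 2 = t ^ 2 := by rw [norm_smul, he]; simp
    exact_mod_cast this
  rw [this, h5]
  congr 1
  simp
  ring

theorem map_pair_stdGaussian {e₁ e₂ : E} (h1 : ‖e₁‖ = 1) (h2 : ‖e₂‖ = 1) (h12 : ⟪e₁, e₂⟫ = 0) :
    (stdGaussian E).map (fun x => (⟪e₁, x⟫, ⟪e₂, x⟫)) = gg := by
  have : IsProbabilityMeasure ((stdGaussian E).map (fun x : E => ((⟪e₁, x⟫ : ℝ), (⟪e₂, x⟫ : ℝ)))) :=
    Measure.isProbabilityMeasure_map (by fun_prop)
  unfold gg
  rw [← charFun_eq_prod_iff]
  intro t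
  rw [charFun_apply, integral_map (by fun_prop) (by fun_prop),
    integral_map (by fun_prop) (by fun_prop), charFun_gaussianReal, charFun_gaussianReal]
  have := charFun_stdGaussian ((WithLp.ofLp t).1 • e₁ + (WithLp.ofLp t).2 • e₂)
  rw [charFun_apply] at this
  have h3 : ∀ x : E, ⟪WithLp.toLp 2 ((⟪e₁, x⟫ : ℝ), (⟪e₂, x⟫ : ℝ)), t⟫ =
      ⟪x, (WithLp.ofLp t).1 • e₁ + (WithLp.ofLp t).2 • e₂⟫ := by
    intro x
    rw [WithLp.prod_inner_apply, inner_add_right, real_inner_smul_right, real_inner_smul_right,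
      real_inner_comm x e₁, real_inner_comm x e₂]
    simp [mul_comm]
  simp_rw [h3]
  have h4 : ‖(WithLp.ofLp t).1 • e₁ + (WithLp.ofLp t).2 • e₂‖ ^ 2 =
      (WithLp.ofLp t).1 ^ 2 + (WithLp.ofLp t).2 ^ 2 := by
    rw [norm_add_sq_real, norm_smul, norm_smul, h1, h2, real_inner_smul_left,
      real_inner_smul_right, h12]
    simp
  have h5 : (‖(WithLp.ofLp t).1 • e₁ + (WithLp.ofLp t).2 • e₂‖ : ℂ) ^ 2 =
      ((WithLp.ofLp t).1 : ℂ) ^ 2 + ((WithLp.ofLp t).2 : ℂ) ^ 2 := by
    exact_mod_cast h4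
  rw [this, h5, ← Complex.exp_add]
  congr 1
  simp
  ring

theorem sector (f q : E) (hf : f ≠ 0) (hq : q ≠ 0) :
    (stdGaussian E).real {x | 0 < ⟪f, x⟫ ∧ ⟪q, x⟫ < 0} =
      InnerProductGeometry.angle f q / (2 * Real.pi) := by
  set θ := InnerProductGeometry.angle f q with hθ
  have hθ0 : 0 ≤ θ := InnerProductGeometry.angle_nonneg f q
  have hθpi : θ ≤ Real.pi := InnerProductGeometry.angle_le_pi f q
  have hpi := Real.pi_pos
  have hf' : 0 < ‖f‖ := norm_pos_iff.2 hf
  have hq' : 0 < ‖q‖ := norm_pos_iff.2 hq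
  obtain ⟨e₁, he₁⟩ : ∃ e₁ : E, e₁ = ‖f‖⁻¹ • f := ⟨_, rfl⟩
  have hn1 : ‖e₁‖ = 1 := by rw [he₁, norm_smul, norm_inv, norm_norm, inv_mul_cancel₀ hf'.ne']
  have hfe : ∀ x : E, ⟪f, x⟫ = ‖f‖ * ⟪e₁, x⟫ := by
    intro x
    rw [he₁, real_inner_smul_left, ← mul_assoc, mul_inv_cancel₀ hf'.ne', one_mul]
  obtain ⟨u, hu⟩ : ∃ u : E, u = ‖q‖⁻¹ • q := ⟨_, rfl⟩
  have hnu : ‖u‖ = 1 := by rw [hu, norm_smul, norm_inv, norm_norm, inv_mul_cancel₀ hq'.ne']
  have hqe : ∀ x : E, ⟪q, x⟫ = ‖q‖ * ⟪u, x⟫ := by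
    intro x
    rw [hu, real_inner_smul_left, ← mul_assoc, mul_inv_cancel₀ hq'.ne', one_mul]
  have hcos : ⟪e₁, u⟫ = Real.cos θ := by
    rw [he₁, hu, real_inner_smul_left, real_inner_smul_right, hθ, InnerProductGeometry.cos_angle]
    field_simp
  have hset : {x : E | 0 < ⟪f, x⟫ ∧ ⟪q, x⟫ < 0} = {x : E | 0 < ⟪e₁, x⟫ ∧ ⟪u, x⟫ < 0} := by
    ext x
    simp only [Set.mem_ofPred_eq]
    rw [hfe, hqe, mul_pos_iff_of_pos_left hf']
    have hneg : ‖q‖ * ⟪u, x⟫ < 0 ↔ ⟪u, x⟫ < 0 := by
      constructor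
      · intro h; by_contra h'; push Not at h'; nlinarith [mul_nonneg hq'.le h']
      · intro h; exact mul_neg_of_pos_of_neg hq' h
    rw [hneg]
  rw [hset]
  by_cases hs : Real.sin θ = 0
  · -- parallel case
    have hc : Real.cos θ = 1 ∨ Real.cos θ = -1 := by
      have := Real.sin_sq_add_cos_sq θ
      rw [hs] at this
      have h1 : (Real.cos θ - 1) * (Real.cos θ + 1) = 0 := by nlinarith
      rcases mul_eq_zero.1 h1 with h | h
      · left; linarith
      · right; linarith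
    rcases hc with hc | hc
    · have hu1 : u = e₁ := by
        have : ‖u - e₁‖ ^ 2 = 0 := by
          rw [norm_sub_sq_real, hnu, hn1, real_inner_comm, hcos, hc]; norm_num
        have := (sq_eq_zero_iff.1 this)
        exact sub_eq_zero.1 (norm_eq_zero.1 this)
      have hθ' : θ = 0 := by
        have := Real.cos_eq_one_iff_of_lt_of_lt (x := θ) (by linarith) (by linarith)
        exact this.1 hc
      have hempty : {x : E | 0 < ⟪e₁, x⟫ ∧ ⟪u, x⟫ < 0} = ∅ := by
        ext x
        simp only [Set.mem_ofPred_eq, Set.mem_empty_iff_false, iff_false, not_and, not_lt, hu1]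
        intro h; exact h.le
      rw [hempty, hθ']
      simp
    · have hu1 : u = -e₁ := by
        have : ‖u + e₁‖ ^ 2 = 0 := by
          rw [norm_add_sq_real, hnu, hn1, real_inner_comm, hcos, hc]; norm_num
        have := (sq_eq_zero_iff.1 this)
        exact eq_neg_of_add_eq_zero_left (norm_eq_zero.1 this)
      have hθ' : θ = Real.pi := by
        apply Real.injOn_cos ⟨hθ0, hθpi⟩ ⟨hpi.le, le_refl _⟩
        rw [hc, Real.cos_pi]
      have hhalf : {x : E | 0 < ⟪e₁, x⟫ ∧ ⟪u, x⟫ < 0} = (fun x => ⟪e₁, x⟫) ⁻¹' (Set.Ioi 0) := by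
        ext x
        simp only [Set.mem_ofPred_eq, Set.mem_preimage, Set.mem_Ioi, hu1, inner_neg_left]
        constructor
        · exact fun h => h.1
        · exact fun h => ⟨h, by linarith⟩
      have hmeas : (stdGaussian E) {x : E | 0 < ⟪e₁, x⟫ ∧ ⟪u, x⟫ < 0} =
          ENNReal.ofReal (θ / (2 * Real.pi)) := by
        rw [hhalf, ← Measure.map_apply (by fun_prop) measurableSet_Ioi, map_inner_stdGaussian hn1,
          ← gg_sector hθ0 hθpi]
        have : {p : ℝ × ℝ | 0 < p.1 ∧ Real.cos θ * p.1 + Real.sin θ * p.2 < 0} =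
            (Set.Ioi 0) ×ˢ Set.univ := by
          ext p
          simp only [Set.mem_ofPred_eq, hs, hc, Set.mem_prod, Set.mem_Ioi, Set.mem_univ, and_true]
          constructor
          · exact fun h => h.1
          · exact fun h => ⟨h, by linarith⟩
        rw [this, gg, Measure.prod_prod, measure_univ, mul_one]
      rw [Measure.real, hmeas, ENNReal.toReal_ofReal (by positivity)]
  · -- general case
    obtain ⟨e₂, he₂⟩ : ∃ e₂ : E, e₂ = (Real.sin θ)⁻¹ • (u - Real.cos θ • e₁) := ⟨_, rfl⟩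
    have hspos : 0 < Real.sin θ :=
      lt_of_le_of_ne (Real.sin_nonneg_of_nonneg_of_le_pi hθ0 hθpi) (Ne.symm hs)
    have h11 : ⟪e₁, e₁⟫ = 1 := by rw [real_inner_self_eq_norm_sq, hn1]; norm_num
    have hortho : ⟪e₁, e₂⟫ = 0 := by
      rw [he₂, real_inner_smul_right, inner_sub_right, real_inner_smul_right, hcos, h11]
      ring
    have hn2 : ‖e₂‖ = 1 := by
      have hsq : ‖u - Real.cos θ • e₁‖ ^ 2 = Real.sin θ ^ 2 := by
        rw [norm_sub_sq_real, norm_smul, hnu, hn1, real_inner_smul_right, real_inner_comm, hcos,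
          mul_one, Real.norm_eq_abs, sq_abs]
        have := Real.sin_sq_add_cos_sq θ
        nlinarith
      have : ‖u - Real.cos θ • e₁‖ = Real.sin θ := by
        have h1 := norm_nonneg (u - Real.cos θ • e₁)
        nlinarith [sq_nonneg (‖u - Real.cos θ • e₁‖ - Real.sin θ)]
      rw [he₂, norm_smul, this, norm_inv, Real.norm_of_nonneg hspos.le, inv_mul_cancel₀ hs]
    have hu2 : ∀ x : E, ⟪u, x⟫ = Real.cos θ * ⟪e₁, x⟫ + Real.sin θ * ⟪e₂, x⟫ := by
      intro x
      rw [he₂, real_inner_smul_left, inner_sub_left, real_inner_smul_left, ← mul_assoc,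
        mul_inv_cancel₀ hs]
      ring
    have hpre : {x : E | 0 < ⟪e₁, x⟫ ∧ ⟪u, x⟫ < 0} = (fun x => (⟪e₁, x⟫, ⟪e₂, x⟫)) ⁻¹'
        {p : ℝ × ℝ | 0 < p.1 ∧ Real.cos θ * p.1 + Real.sin θ * p.2 < 0} := by
      ext x
      simp only [Set.mem_ofPred_eq, Set.mem_preimage, hu2]
    have hS : MeasurableSet {p : ℝ × ℝ | 0 < p.1 ∧ Real.cos θ * p.1 + Real.sin θ * p.2 < 0} := by
      apply MeasurableSet.inter
      · exact measurableSet_lt measurable_const measurable_fst
      · have hm : Measurable (fun p : ℝ × ℝ => Real.cos θ * p.1 + Real.sin θ * p.2) := by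
          fun_prop
        exact measurableSet_lt hm measurable_const
    rw [Measure.real, hpre, ← Measure.map_apply (by fun_prop) hS,
      map_pair_stdGaussian hn1 hn2 hortho, gg_sector hθ0 hθpi,
      ENNReal.toReal_ofReal (by positivity)]

end Vale.Agent.P226
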